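import Vale.Agent.N013L.DefK

/-! From the covering theorem to Jacobsthal's function and to gaps between primes. -/

namespace Vale.Agent.N013L

open Real Filter Finset

namespace K

lemma crt (S : Finset ℕ) (a : ℕ → ℤ) (hS : ∀ p ∈ S, p.Prime) :
    ∃ z : ℤ, ∀ p ∈ S, (p : ℤ) ∣ z + a p := by
  classical
  induction S using Finset.induction_on with
  | empty => exact ⟨0, by simp⟩
  | insert q S hq ih =>
    obtain ⟨z, hz⟩ := ih fun p hp => hS p (mem_insert_of_mem hp)
    have hqp : q.Prime := hS q (mem_insert_self _ _)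
    have hc : IsCoprime (∏ p ∈ S, (p : ℤ)) (q : ℤ) := by
      refine IsCoprime.prod_left fun p hp => ?_
      rw [Nat.isCoprime_iff_coprime]
      exact (Nat.coprime_primes (hS p (mem_insert_of_mem hp)) hqp).2 fun h => hq (h ▸ hp)
    obtain ⟨u, v, huv⟩ := hc
    refine ⟨z - (z + a q) * u * ∏ p ∈ S, (p : ℤ), fun p hp => ?_⟩
    rcases mem_insert.1 hp with rfl | hp
    · refine ⟨(z + a p) * v, ?_⟩
      linear_combination (-(z + a p)) * huv
    · have h1 : (p : ℤ) ∣ (z + a q) * u * ∏ p ∈ S, (p : ℤ) :=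
        Dvd.dvd.mul_left (dvd_prod_of_mem (fun p : ℕ => (p : ℤ)) hp) _
      have h2 := dvd_sub (hz p hp) h1
      have e : z - (z + a q) * u * ∏ p ∈ S, (p : ℤ) + a p =
          z + a p - (z + a q) * u * ∏ p ∈ S, (p : ℤ) := by ring
      rw [e]
      exact h2

/-- a solution in `[P, 2P)`, `P` the product of the primes up to `N` -/
lemma crt' (N : ℕ) (a : ℕ → ℤ) : ∃ z : ℕ, primorial N ≤ z ∧ z < 2 * primorial N ∧
    ∀ p : ℕ, p.Prime → p ≤ N → (p : ℤ) ∣ (z : ℤ) + a p ∧ p ≤ z := by
  obtain ⟨z, hz⟩ := crt ((range (N + 1)).filter Nat.Prime) a fun p hp => (mem_filter.1 hp).2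
  have hP : 0 < primorial N := primorial_pos N
  have hP' : (0 : ℤ) < (primorial N : ℤ) := by exact_mod_cast hP
  have h0 := Int.emod_nonneg z hP'.ne'
  have h1 := Int.emod_lt_of_pos z hP'
  obtain ⟨r, hr⟩ := Int.eq_ofNat_of_zero_le h0
  have hr' : r < primorial N := by
    rw [hr] at h1
    exact_mod_cast h1
  refine ⟨primorial N + r, by omega, by omega, fun p hp hpN => ?_⟩
  have hm : p ∈ (range (N + 1)).filter Nat.Prime := mem_filter.2 ⟨mem_range.2 (by omega), hp⟩
  have hd : p ∣ primorial N := dvd_prod_of_mem (fun p : ℕ => p) hm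
  have hd' : (p : ℤ) ∣ (primorial N : ℤ) := Int.natCast_dvd_natCast.2 hd
  refine ⟨?_, (Nat.le_of_dvd hP hd).trans (by omega)⟩
  have e : ((primorial N + r : ℕ) : ℤ) + a p =
      (z + a p) + (primorial N : ℤ) * (1 - z / (primorial N : ℤ)) := by
    have := Int.emod_add_mul_ediv z (primorial N : ℤ)
    push_cast
    rw [← hr]
    linear_combination this
  rw [e]
  exact dvd_add (hz p hm) (Dvd.dvd.mul_right hd' _)

lemma t1 : Tendsto (fun v : ℝ => log (log v)) atTop atTop := tendsto_log_atTop.comp tendsto_log_atTop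

lemma t2 : Tendsto (fun v : ℝ => log (log (log v))) atTop atTop := tendsto_log_atTop.comp t1

lemma log_two_mul {a b : ℝ} (ha : 0 < a) (hb : 1 ≤ log b) (hb0 : 0 < b) (h : a ≤ 2 * b) :
    log a ≤ 2 * log b := by
  have h1 := log_le_log ha h
  rw [log_mul two_ne_zero hb0.ne'] at h1
  have := log_two_lt_d9
  linarith

/-- the quantity of the covering theorem at `x = ⌊k log k / 200⌋` -/
lemma asyJ : ∀ᶠ v : ℝ in atTop, ∀ x : ℝ, v * log v / 200 - 1 ≤ x → x ≤ v * log v / 200 →
    v * log v ^ 2 / log (log (log v)) ^ 2 ≤ 1600 * (x * log x / log (log (log x)) ^ 2) := by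
  filter_upwards [eventually_ge_atTop (1 : ℝ), tendsto_log_atTop.eventually_ge_atTop 400,
    t1.eventually_ge_atTop 2, t2.eventually_ge_atTop 1] with v h0 h1 h2 h3 x hx1 hx2
  have hv : 0 < v := by linarith
  have hvl : 400 ≤ v * log v := by nlinarith
  have hx3 : v * log v / 400 ≤ x := by linarith
  have hx4 : v ≤ x := by nlinarith
  have hx0 : 0 < x := by linarith
  have hl : log v ≤ v := (log_le_sub_one_of_pos hv).trans (by linarith)
  have hx5 : x ≤ v ^ 2 := by nlinarith
  have a1 : log v ≤ log x := log_le_log hv hx4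
  have b1 : log x ≤ 2 * log v := by
    have := log_le_log hx0 hx5
    rw [log_pow] at this
    exact_mod_cast this
  have a2 : log (log v) ≤ log (log x) := log_le_log (by linarith) a1
  have b2 : log (log x) ≤ 2 * log (log v) := log_two_mul (by linarith) (by linarith) (by linarith) b1
  have a3 : log (log (log v)) ≤ log (log (log x)) := log_le_log (by linarith) a2
  have b3 : log (log (log x)) ≤ 2 * log (log (log v)) := log_two_mul (by linarith) h3 (by linarith) b2
  set s := log (log (log v))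
  set t := log (log (log x))
  have hs : 0 < s := by linarith
  have ht : 0 < t := by linarith
  have c1 : t ^ 2 ≤ 4 * s ^ 2 := by nlinarith
  have c2 : v * log v ^ 2 ≤ 400 * (x * log x) := by
    have : v * log v / 400 * log v ≤ x * log x := mul_le_mul hx3 a1 (by linarith) hx0.le
    nlinarith
  have c3 : 0 ≤ x * log x := by
    have : 0 ≤ log x := by linarith
    positivity
  rw [← mul_div_assoc, div_le_div_iff₀ (by positivity) (by positivity)]
  calc v * log v ^ 2 * t ^ 2 ≤ 400 * (x * log x) * (4 * s ^ 2) :=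
        mul_le_mul c2 c1 (by positivity) (by positivity)
    _ = 1600 * (x * log x) * s ^ 2 := by ring

/-- the quantity of the covering theorem at `x = ⌊v / 100⌋` -/
lemma asyG : ∀ᶠ v : ℝ in atTop, ∀ x : ℝ, v / 100 - 1 ≤ x → x ≤ v / 100 →
    v * log v / log (log (log v)) ^ 2 ≤ 400 * (x * log x / log (log (log x)) ^ 2) := by
  obtain ⟨x₀, hx₀⟩ := eventually_atTop.1 ((tendsto_log_atTop.eventually_ge_atTop 1).and
    ((t1.eventually_ge_atTop 1).and (t2.eventually_ge_atTop 1)))
  filter_upwards [eventually_ge_atTop (40000 : ℝ), eventually_ge_atTop (200 * x₀)]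
    with v h0 h1 x hx1 hx2
  have hv : 0 < v := by linarith
  have hx3 : v / 200 ≤ x := by linarith
  have hx0 : 0 < x := by linarith
  obtain ⟨g1, g2, g3⟩ := hx₀ x (by linarith)
  have hx5 : v ≤ x ^ 2 := by nlinarith
  have b1 : log v ≤ 2 * log x := by
    have := log_le_log hv hx5
    rw [log_pow] at this
    exact_mod_cast this
  have a1 : log x ≤ log v := log_le_log hx0 (by linarith)
  have a2 : log (log x) ≤ log (log v) := log_le_log (by linarith) a1
  have a3 : log (log (log x)) ≤ log (log (log v)) := log_le_log (by linarith) a2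
  set s := log (log (log v))
  set t := log (log (log x))
  have ht : 0 < t := by linarith
  have hs : 0 < s := by linarith
  have c1 : t ^ 2 ≤ s ^ 2 := by nlinarith
  have c2 : v * log v ≤ 400 * (x * log x) := by
    have : v / 200 * (log v / 2) ≤ x * log x := mul_le_mul hx3 (by linarith) (by linarith) hx0.le
    nlinarith
  have c3 : 0 ≤ x * log x := by
    have : 0 ≤ log x := by linarith
    positivity
  rw [← mul_div_assoc, div_le_div_iff₀ (by positivity) (by positivity)]
  exact mul_le_mul c2 c1 (by positivity) (by positivity)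

lemma pi_le : ∀ᶠ v : ℝ in atTop, ∀ N : ℕ, (N : ℝ) ≤ v * log v / 3 → (Nat.primeCounting N : ℝ) ≤ v := by
  have h4 : log 4 < 2 := by
    have : log 4 = 2 * log 2 := by
      rw [show (4 : ℝ) = 2 ^ 2 by norm_num, log_pow]
      norm_num
    have := log_two_lt_d9
    linarith
  obtain ⟨u₀, hu₀⟩ := eventually_atTop.1
    (Chebyshev.eventually_primeCounting_le (ε := 2 - log 4) (by linarith))
  filter_upwards [eventually_ge_atTop (1 : ℝ), eventually_ge_atTop u₀,
    tendsto_log_atTop.eventually_ge_atTop 3] with v h0 h1 h2 N hN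
  have hv : 0 < v := by linarith
  have hu : v ≤ v * log v / 3 := by nlinarith
  have h3 := hu₀ (v * log v / 3) (h1.trans hu)
  have h5 : Nat.primeCounting N ≤ Nat.primeCounting ⌊v * log v / 3⌋₊ :=
    Nat.monotone_primeCounting (Nat.le_floor hN)
  have h6 : log v ≤ log (v * log v / 3) := log_le_log hv hu
  have h7 : (log 4 + (2 - log 4)) * (v * log v / 3) / log (v * log v / 3) ≤ v := by
    rw [div_le_iff₀ (by linarith)]
    nlinarith
  calc (Nat.primeCounting N : ℝ) ≤ (Nat.primeCounting ⌊v * log v / 3⌋₊ : ℝ) := by exact_mod_cast h5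
    _ ≤ _ := h3
    _ ≤ v := h7

lemma dvd_P {k N p : ℕ} (h : Nat.primeCounting N ≤ k) (hp : p.Prime) (hpN : p ≤ N) :
    p ∣ N013.P k := by
  have h1 : Nat.count Nat.Prime p < Nat.count Nat.Prime (N + 1) := by
    have h2 : Nat.count Nat.Prime (p + 1) = Nat.count Nat.Prime p + 1 := by
      rw [Nat.count_succ, if_pos hp]
    have h3 : Nat.count Nat.Prime (p + 1) ≤ Nat.count Nat.Prime (N + 1) :=
      Nat.count_monotone _ (by omega)
    omega
  have h2 : Nat.count Nat.Prime p < k := lt_of_lt_of_le h1 h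
  have h3 := dvd_prod_of_mem (fun i => Nat.nth Nat.Prime i) (mem_range.2 h2)
  simp only [Nat.nth_count hp] at h3
  exact h3

end K

open K

theorem jac (h : Cover) : Jac := by
  obtain ⟨c, hc, h⟩ := h
  refine ⟨c / 1600, by positivity, ?_⟩
  have ht : Tendsto (fun k : ℕ => ⌊(k : ℝ) * log k / 200⌋₊) atTop atTop := by
    refine tendsto_nat_floor_atTop.comp (Tendsto.atTop_div_const (by norm_num) ?_)
    exact Tendsto.atTop_mul_atTop₀ tendsto_natCast_atTop_atTop
      (tendsto_log_atTop.comp tendsto_natCast_atTop_atTop)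
  filter_upwards [ht.eventually h, tendsto_natCast_atTop_atTop.eventually asyJ,
    tendsto_natCast_atTop_atTop.eventually pi_le] with k hk h1 h2
  obtain ⟨a, ha⟩ := hk
  set x : ℕ := ⌊(k : ℝ) * log k / 200⌋₊ with hx
  have hk0 : 0 ≤ (k : ℝ) * log k := mul_nonneg (Nat.cast_nonneg k) (log_natCast_nonneg k)
  have hx1 : (x : ℝ) ≤ (k : ℝ) * log k / 200 := Nat.floor_le (by positivity)
  have hx2 : (k : ℝ) * log k / 200 - 1 ≤ x := (Nat.sub_one_lt_floor _).le
  have h3 := h1 x hx2 hx1
  have h4 : Nat.primeCounting (64 * x) ≤ k := by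
    have := h2 (64 * x) (by push_cast; linarith)
    exact_mod_cast this
  obtain ⟨z, -, -, hz⟩ := crt' (64 * x) a
  refine le_iInf₂ fun m hm => ?_
  rw [← ENNReal.ofReal_natCast]
  refine ENNReal.ofReal_le_ofReal ?_
  by_contra hlt
  have hm1 : (m : ℝ) ≤ c * x * log x / log (log (log x)) ^ 2 := by
    have e1 : c / 1600 * k * log k ^ 2 / log (log (log k)) ^ 2 =
        c / 1600 * (k * log k ^ 2 / log (log (log k)) ^ 2) := by ring
    have e2 : c * x * log x / log (log (log x)) ^ 2 =
        c / 1600 * (1600 * (x * log x / log (log (log x)) ^ 2)) := by ring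
    rw [e1] at hlt
    rw [e2]
    exact (not_le.1 hlt).le.trans (mul_le_mul_of_nonneg_left h3 (by positivity))
  obtain ⟨t, ht1, ht2, ht3⟩ := hm.2 z
  have ht4 : ((t - z : ℤ) : ℝ) ≤ m := by
    have : t - z ≤ (m : ℤ) := by omega
    exact_mod_cast this
  obtain ⟨p, hp, hpx, hd⟩ := ha (t - z) (by omega) (ht4.trans hm1)
  have hd1 : (p : ℤ) ∣ t := by
    have := dvd_add hd (hz p hp hpx).1
    have e : t - z - a p + (z + a p) = t := by ring
    rwa [e] at this
  have hd2 : (p : ℤ) ∣ (N013.P k : ℤ) := Int.natCast_dvd_natCast.2 (dvd_P h4 hp hpx)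
  have hu := ht3.isUnit_of_dvd' hd1 hd2
  exact (Nat.prime_iff_prime_int.1 hp).not_isUnit hu

theorem gap (h : Cover) : Gap := by
  obtain ⟨c, hc, h⟩ := h
  refine ⟨c / 400, by positivity, ?_⟩
  have hl : Tendsto (fun X : ℕ => log (X : ℝ)) atTop atTop :=
    tendsto_log_atTop.comp tendsto_natCast_atTop_atTop
  have ht : Tendsto (fun X : ℕ => ⌊log (X : ℝ) / 100⌋₊) atTop atTop :=
    tendsto_nat_floor_atTop.comp (Tendsto.atTop_div_const (by norm_num) hl)
  filter_upwards [ht.eventually h, hl.eventually asyG, hl.eventually_ge_atTop 100,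
    ht.eventually_ge_atTop 1, eventually_ge_atTop 1] with X hX h1 h2 hx0 hX1
  obtain ⟨a, ha⟩ := hX
  set x : ℕ := ⌊log (X : ℝ) / 100⌋₊ with hx
  have hx1 : (x : ℝ) ≤ log X / 100 := Nat.floor_le (by positivity)
  have hx2 : log X / 100 - 1 ≤ x := (Nat.sub_one_lt_floor _).le
  have h3 := h1 x hx2 hx1
  obtain ⟨z, -, hz2, hz⟩ := crt' (64 * x) a
  have hz3 : 2 ≤ z := (hz 2 Nat.prime_two (by omega)).2
  have hinf := Nat.infinite_setOfPred_prime
  obtain ⟨n, hn⟩ : ∃ n, Nat.count Nat.Prime (z + 1) = n + 1 := by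
    have h5 : Nat.count Nat.Prime 3 ≤ Nat.count Nat.Prime (z + 1) := Nat.count_monotone _ (by omega)
    have h6 : Nat.count Nat.Prime 3 = 1 := by
      rw [Nat.count_succ, if_pos Nat.prime_two, Nat.count_succ, if_neg Nat.not_prime_one,
        Nat.count_succ, if_neg Nat.not_prime_zero, Nat.count_zero]
    exact ⟨Nat.count Nat.Prime (z + 1) - 1, by omega⟩
  have k1 : Nat.nth Nat.Prime n < z + 1 := Nat.nth_lt_of_lt_count (by omega)
  have k2 : z + 1 ≤ Nat.nth Nat.Prime (n + 1) := hn ▸ Nat.le_nth_count hinf (z + 1)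
  have k3 : Nat.nth Nat.Prime (n + 1) ≤ 2 * z := by
    obtain ⟨q, hq, hq1, hq2⟩ := Nat.exists_prime_lt_and_le_two_mul z (by omega)
    have h5 : n + 1 ≤ Nat.count Nat.Prime q := hn ▸ Nat.count_monotone _ (by omega)
    have h6 := Nat.nth_monotone hinf h5
    rw [Nat.nth_count hq] at h6
    exact h6.trans hq2
  refine ⟨n, ?_, ?_⟩
  · have h5 := primorial_le_four_pow (64 * x)
    have h6 : Nat.nth Nat.Prime (n + 1) ≤ 2 ^ (128 * x + 2) := by
      have : 2 ^ (128 * x + 2) = 4 * 4 ^ (64 * x) := by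
        rw [show (4 : ℕ) ^ (64 * x) = (2 ^ 2) ^ (64 * x) by norm_num, ← pow_mul]
        ring
      omega
    have h7 : (2 : ℝ) ^ (128 * x + 2) ≤ X := by
      have hX0 : (0 : ℝ) < X := by exact_mod_cast hX1
      rw [← log_le_log_iff (by positivity) hX0, log_pow]
      push_cast
      have := log_two_lt_d9
      have hx3 : (0 : ℝ) ≤ x := Nat.cast_nonneg x
      nlinarith
    exact h6.trans (by exact_mod_cast h7)
  · have hq := Nat.prime_nth_prime (n + 1)
    set q := Nat.nth Nat.Prime (n + 1)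
    have k4 : (Nat.nth Nat.Prime n : ℝ) ≤ z := by exact_mod_cast Nat.lt_succ_iff.1 k1
    by_contra hlt
    have hm1 : (((q : ℤ) - z : ℤ) : ℝ) ≤ c * x * log x / log (log (log x)) ^ 2 := by
      have e1 : c / 400 * log X * log (log X) / log (log (log (log X))) ^ 2 =
          c / 400 * (log X * log (log X) / log (log (log (log X))) ^ 2) := by ring
      have e2 : c * x * log x / log (log (log x)) ^ 2 =
          c / 400 * (400 * (x * log x / log (log (log x)) ^ 2)) := by ring
      rw [e1] at hlt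
      rw [e2]
      have := (not_le.1 hlt).le.trans (mul_le_mul_of_nonneg_left h3 (by positivity))
      push_cast
      linarith
    obtain ⟨p, hp, hpx, hd⟩ := ha ((q : ℤ) - z) (by omega) hm1
    have hd1 : (p : ℤ) ∣ (q : ℤ) := by
      have := dvd_add hd (hz p hp hpx).1
      have e : (q : ℤ) - z - a p + (z + a p) = q := by ring
      rwa [e] at this
    have hpq := (Nat.prime_dvd_prime_iff_eq hp hq).1 (Int.natCast_dvd_natCast.1 hd1)
    have := (hz p hp hpx).2
    omega

end Vale.Agent.N013L
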