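import Vale.Agent.N013L.DefK

/-! Second stage: covering in rounds. Definitions and statements of the blocks. -/

namespace Vale.Agent.N013L

open Finset Real Filter

/-! ### Abstract covering in rounds -/

/-- mass of the sets `U ⊆ V` containing `f`, weighted by `g` -/
noncomputable def Ef (V : Finset ℤ) (μ : Finset ℤ → ℝ) (f : Finset ℤ) (g : Finset ℤ → ℝ) : ℝ :=
  ∑ U ∈ V.powerset, if f ⊆ U then μ U * g U else 0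

/-- mass of the edges of `p` containing `f` -/
noncomputable def dg (V : Finset ℤ) (ν : ℕ → Finset ℤ → ℝ) (p : ℕ) (f : Finset ℤ) : ℝ :=
  ∑ T ∈ V.powerset, if f ⊆ T then ν p T else 0

/-- sparse random edges -/
structure Edges (V : Finset ℤ) (PP : Finset ℕ) (ν : ℕ → Finset ℤ → ℝ) (K : ℕ) (δ : ℝ) : Prop where
  K1 : 1 ≤ K
  nonneg : ∀ p T, 0 ≤ ν p T
  supp : ∀ p T, ν p T ≠ 0 → T ⊆ V ∧ T.card ≤ K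
  mass : ∀ p, ∑ T ∈ V.powerset, ν p T ≤ 1
  vert : ∀ p a, dg V ν p {a} ≤ δ
  codeg : ∀ a b, a ≠ b → ∑ p ∈ PP, dg V ν p {a, b} ≤ δ

/-- a law on subsets of `V` under which small sets survive almost independently -/
structure Law (V : Finset ℤ) (μ : Finset ℤ → ℝ) (m : ℕ) (ρ η : ℝ) : Prop where
  nonneg : ∀ U, 0 ≤ μ U
  total : ∑ U ∈ V.powerset, μ U = 1
  inv : ∀ f ⊆ V, f.card ≤ m → |Ef V μ f (fun _ => 1) - ρ ^ f.card| ≤ η * ρ ^ f.card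

/-- Block Thin: exact degrees -/
def StmtThin : Prop := ∀ (V : Finset ℤ) (PP : Finset ℕ) (ν : ℕ → Finset ℤ → ℝ) (K : ℕ) (δ g : ℝ),
  Edges V PP ν K δ → 0 < g → (∀ a ∈ V, g ≤ ∑ p ∈ PP, dg V ν p {a}) →
  ∃ ν' : ℕ → Finset ℤ → ℝ, Edges V PP ν' K δ ∧ (∀ a ∈ V, ∑ p ∈ PP, dg V ν' p {a} = g) ∧
    ∀ p T', ν' p T' ≠ 0 → ∃ T, T' ⊆ T ∧ ν p T ≠ 0

noncomputable def wT (ρ : ℝ) (T U : Finset ℤ) : ℝ := if T ⊆ U then 1 / ρ ^ T.card else 0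

noncomputable def ZZ (V : Finset ℤ) (ν : ℕ → Finset ℤ → ℝ) (ρ : ℝ) (p : ℕ) (U : Finset ℤ) : ℝ :=
  ∑ T ∈ V.powerset, ν p T * wT ρ T U

noncomputable def YY (V : Finset ℤ) (PP : Finset ℕ) (ν : ℕ → Finset ℤ → ℝ) (ρ : ℝ)
    (f U : Finset ℤ) : ℝ :=
  1 / 2 * ∑ p ∈ PP, ∑ T ∈ V.powerset, if Disjoint T f then 0 else ν p T * wT ρ T U

/-- the data of one round -/
structure Rd (V : Finset ℤ) (PP : Finset ℕ) (ν : ℕ → Finset ℤ → ℝ) (K : ℕ) (δ : ℝ)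
    (μ : Finset ℤ → ℝ) (m : ℕ) (ρ η Δ : ℝ) : Prop where
  edges : Edges V PP ν K δ
  law : Law V μ (m + 3 * K) ρ η
  deg : ∀ a ∈ V, ∑ p ∈ PP, dg V ν p {a} = 4 * ρ
  r0 : 0 < ρ
  r1 : ρ ≤ 1
  e0 : 0 ≤ η
  e1 : η ≤ 1
  d0 : 0 ≤ δ
  hΔ : (m + 3 * K : ℝ) * δ / ρ ^ (2 * K) ≤ Δ
  d1 : Δ ≤ 1

/-- Block Mom1 -/
def StmtMom1 : Prop := ∀ V PP ν K δ μ m ρ η Δ, Rd V PP ν K δ μ m ρ η Δ → ∀ f ⊆ V, f.card ≤ m →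
  Ef V μ f (fun U => (YY V PP ν ρ f U - 2 * f.card) ^ 2) ≤
    16 * (f.card : ℝ) ^ 2 * (η + Δ) * ρ ^ f.card

/-- Block Mom2 -/
def StmtMom2 : Prop := ∀ V PP ν K δ μ m ρ η Δ, Rd V PP ν K δ μ m ρ η Δ →
  (∀ g ⊆ V, g.card ≤ m + K → ∀ p,
    Ef V μ g (fun U => (ZZ V ν ρ p U - ∑ T ∈ V.powerset, ν p T) ^ 2) ≤ 6 * (η + Δ) * ρ ^ g.card) ∧
  ∀ f ⊆ V, f.card ≤ m →
    Ef V μ f (fun U => 1 / 2 * ∑ p ∈ PP, if ZZ V ν ρ p U ≤ 2 then 0 else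
      ∑ T ∈ V.powerset, if Disjoint T f then 0 else ν p T * wT ρ T U) ≤
    18 * f.card * (η + Δ) * ρ ^ f.card

/-- Block Round -/
def StmtRound : Prop := ∀ V PP ν K δ μ m ρ η Δ (lam : ℝ), Rd V PP ν K δ μ m ρ η Δ → 0 < lam →
  lam ≤ 1 → η ≤ lam ^ 2 → Δ ≤ lam ^ 2 →
  ∃ μ' : Finset ℤ → ℝ, Law V μ' m (ρ * exp (-2)) (exp (4 * m + 5) * lam) ∧
    ∀ U', μ' U' ≠ 0 → ∃ U, μ U ≠ 0 ∧ ∃ ch : ℕ → Finset ℤ, (∀ p, ch p = ∅ ∨ ν p (ch p) ≠ 0) ∧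
      U' = U \ PP.biUnion ch

/-- Block Nib -/
def StmtNib : Prop := ∀ (V : Finset ℤ) (J K : ℕ) (PP : ℕ → Finset ℕ) (ν : ℕ → ℕ → Finset ℤ → ℝ)
  (δ : ℝ), 0 ≤ δ → δ ≤ exp (-(50 * 2 ^ J * K * (J + 1))) → (∀ j < J, Edges V (PP j) (ν j) K δ) →
  (∀ j < J, ∀ a ∈ V, 4 * exp (-(2 * j)) ≤ ∑ p ∈ PP j, dg V (ν j) p {a}) →
  ∃ ch : ℕ → ℕ → Finset ℤ, (∀ j < J, ∀ p, ch j p = ∅ ∨ ∃ T, ch j p ⊆ T ∧ ν j p T ≠ 0) ∧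
    ∀ U ⊆ V, (∀ a ∈ U, ∀ j < J, ∀ p ∈ PP j, a ∉ ch j p) →
      (U.card : ℝ) ≤ 2 * exp (-(2 * J)) * V.card

/-! ### Weights with large degrees -/

def StmtA2 : Prop := ∀ (Ω : Type) (s : Finset Ω) (pw : Ω → ℝ) (S : ℤ → Ω → Prop) (E I : Finset ℤ)
  (PP : Finset ℕ) (e : ℕ → ℤ → Finset ℤ) (W : ℕ → ℤ → ℝ) (L : ℕ) (η d₀ : ℝ),
  (∀ ω ∈ s, 0 ≤ pw ω) → ∑ ω ∈ s, pw ω = 1 →
  (∀ p n, e p n ⊆ E ∧ (e p n).card ≤ L ∧ 0 ≤ W p n ∧ 0 < Pr s pw S (e p n)) →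
  (∀ a ∈ E, 0 < Pr s pw S {a}) → (∀ p ∈ PP, ∑ n ∈ I, W p n ≤ 1) → 0 < d₀ → 0 ≤ η →
  (∀ p ∈ PP, ∑ n ∈ I, ∑ n' ∈ I,
      W p n * W p n' * (Pr s pw S (e p n ∪ e p n') / (Pr s pw S (e p n) * Pr s pw S (e p n'))) ≤
    (∑ n ∈ I, W p n) ^ 2 + η) →
  (∀ a ∈ E, ∑ p ∈ PP, ∑ n ∈ I, ∑ p' ∈ PP, ∑ n' ∈ I,
      (if a ∈ e p n then W p n else 0) * (if a ∈ e p' n' then W p' n' else 0) *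
        (Pr s pw S (e p n ∪ e p' n') / (Pr s pw S (e p n) * Pr s pw S (e p' n'))) ≤
    (1 + η) * (∑ p ∈ PP, ∑ n ∈ I, if a ∈ e p n then W p n else 0) ^ 2 / Pr s pw S {a}) →
  (∀ a ∈ E, d₀ * Pr s pw S {a} ≤ ∑ p ∈ PP, ∑ n ∈ I, if a ∈ e p n then W p n else 0) →
  ∃ F : Ω → ℝ, ∑ ω ∈ s, pw ω * F ω ≤
      4 * η * ∑ a ∈ E, Pr s pw S {a} + 8 / d₀ * L * PP.card * η ∧
    ∀ ω ∈ s, ∃ q : ℕ → ℤ → ℝ, (∀ p n, 0 ≤ q p n ∧ q p n ≤ W p n / Pr s pw S (e p n)) ∧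
      (∀ p, ∑ n ∈ I, q p n ≤ 1) ∧ ∀ U : Finset ℤ,
      (∀ a ∈ U, a ∈ E ∧ S a ω ∧
        (∑ p ∈ PP, ∑ n ∈ I, if a ∈ e p n then q p n else 0) < d₀ / 8) → (U.card : ℝ) ≤ F ω

structure Fam2 (LL : Finset ℕ) (κ : ℕ → ℝ) (κ₁ w : ℝ) (L : ℕ) (E : Finset ℤ) (y : ℕ)
    (H PP : Finset ℕ) (Hm : ℕ) (W : ℕ → ℤ → ℝ) (Wm ζ Λ₀ d₀ η : ℝ) : Prop where
  model : Model LL κ κ₁ w L
  hE : E ⊆ Icc (1 : ℤ) y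
  hH : H.card ≤ L
  hHm : ∀ h ∈ H, h ≤ Hm
  hP : ∀ p ∈ PP, p.Prime ∧ Hm < p ∧ p ≤ y ∧ Hm * p ≤ y
  hζ : (Hm : ℝ) < ζ
  hW : ∀ p n, 0 ≤ W p n ∧ W p n ≤ Wm
  hW1 : ∀ p ∈ PP, ∑ n ∈ Icc (-(y : ℤ)) y, W p n ≤ 1
  hdiv : ∀ ℓ ∈ LL, κ ℓ < 1 → ∀ b ∈ E, (ℓ : ℤ) ∣ b → ζ ≤ (ℓ : ℝ)
  hΛ : ∀ e ⊆ E, e.card ≤ L → 1 ≤ Λ₀ * Pb LL κ e
  hd : 0 < d₀
  hη : exp (4 * L ^ 2 * log y / (w * κ₁ ^ 2)) - 1 +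
    Λ₀ * Wm * L ^ 3 * (1 + log y * ((2 * y + 1) / ζ + 1)) * (1 + 1 / d₀) ≤ η
  hdeg : ∀ a ∈ E, d₀ * Pb LL κ {a} ≤ ∑ p ∈ PP, ∑ h ∈ H, W p (a - (h : ℤ) * p)

def StmtH1b : Prop := ∀ (LL : Finset ℕ) (κ : ℕ → ℝ) (κ₁ w : ℝ) (L : ℕ) (E : Finset ℤ) (y : ℕ)
    (H PP : Finset ℕ) (Hm : ℕ) (W : ℕ → ℤ → ℝ) (Wm ζ Λ₀ d₀ η : ℝ),
  Fam2 LL κ κ₁ w L E y H PP Hm W Wm ζ Λ₀ d₀ η →
  ∀ p ∈ PP, ∑ n ∈ Icc (-(y : ℤ)) y, ∑ n' ∈ Icc (-(y : ℤ)) y,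
      W p n * W p n' * (Pb LL κ (edge E H p n ∪ edge E H p n') /
        (Pb LL κ (edge E H p n) * Pb LL κ (edge E H p n'))) ≤
    (∑ n ∈ Icc (-(y : ℤ)) y, W p n) ^ 2 + η

def StmtH2b : Prop := ∀ (LL : Finset ℕ) (κ : ℕ → ℝ) (κ₁ w : ℝ) (L : ℕ) (E : Finset ℤ) (y : ℕ)
    (H PP : Finset ℕ) (Hm : ℕ) (W : ℕ → ℤ → ℝ) (Wm ζ Λ₀ d₀ η : ℝ),
  Fam2 LL κ κ₁ w L E y H PP Hm W Wm ζ Λ₀ d₀ η →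
  ∀ a ∈ E, ∑ p ∈ PP, ∑ h ∈ H, ∑ p' ∈ PP, ∑ h' ∈ H,
      W p (a - (h : ℤ) * p) * W p' (a - (h' : ℤ) * p') *
        (Pb LL κ (edge E H p (a - (h : ℤ) * p) ∪ edge E H p' (a - (h' : ℤ) * p')) /
          (Pb LL κ (edge E H p (a - (h : ℤ) * p)) * Pb LL κ (edge E H p' (a - (h' : ℤ) * p')))) ≤
    (1 + η) * (∑ p ∈ PP, ∑ h ∈ H, W p (a - (h : ℤ) * p)) ^ 2 / Pb LL κ {a}

/-- for each outcome there are small weights with degree at least `dm` at all survivors in `E`, with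
at most `B` exceptions on average -/
def Good2 (LL : Finset ℕ) (κ : ℕ → ℝ) (E : Finset ℤ) (H PP : Finset ℕ) (y : ℕ) (dm δq B : ℝ) :
    Prop :=
  ∃ F : (LL → ℕ) → ℝ, ∑ ω ∈ Om LL, wt LL κ ω * F ω ≤ B ∧
    ∀ ω ∈ Om LL, ∃ q : ℕ → ℤ → ℝ, (∀ p n, 0 ≤ q p n ∧ q p n ≤ δq) ∧
      (∀ p, ∑ n ∈ Icc (-(y : ℤ)) y, q p n ≤ 1) ∧ ∀ U : Finset ℤ,
      (∀ a ∈ U, a ∈ E ∧ Sv LL a ω ∧ ∑ p ∈ PP, ∑ h ∈ H, q p (a - (h : ℤ) * p) < dm) →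
        (U.card : ℝ) ≤ F ω

def StmtC2 : Prop := ∀ (LL : Finset ℕ) (κ : ℕ → ℝ) (κ₁ w : ℝ) (L : ℕ) (E : Finset ℤ) (y : ℕ)
    (H PP : Finset ℕ) (Hm : ℕ) (W : ℕ → ℤ → ℝ) (Wm ζ Λ₀ d₀ η : ℝ),
  Fam2 LL κ κ₁ w L E y H PP Hm W Wm ζ Λ₀ d₀ η →
  Good2 LL κ E H PP y (d₀ / 8) (Wm * Λ₀)
    (4 * η * ∑ a ∈ E, Pb LL κ {a} + 8 / d₀ * L * PP.card * η)

/-- Block G: from the weights to a covering -/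
def StmtG : Prop := ∀ (LL : Finset ℕ) (κ : ℕ → ℝ) (E : Finset ℤ) (y J L : ℕ) (H PP : ℕ → Finset ℕ)
  (δq : ℝ) (B : ℕ → ℝ), E ⊆ Icc (1 : ℤ) y → 1 ≤ L → 0 ≤ δq →
  L * δq ≤ exp (-(50 * 2 ^ J * L * (J + 1))) →
  (∀ i < J, ∀ j < J, i ≠ j → Disjoint (PP i) (PP j)) →
  (∀ j < J, (H j).card ≤ L ∧ ∀ p ∈ PP j, p.Prime ∧ y < p ^ 2 ∧ ∀ h ∈ H j, h * p ≤ y) →
  (∀ j < J, Good2 LL κ E (H j) (PP j) y (4 * exp (-(2 * j))) δq (B j)) →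
  Good LL κ E ((range J).biUnion PP)
    (∑ j ∈ range J, B j + 2 * exp (-(2 * J)) * ∑ a ∈ E, Pb LL κ {a})

/-! ### Parameters: base scale `x`, top scale `4 ^ J * x` -/

def StmtDb : Prop := ∀ᶠ x : ℕ in atTop, ∀ U : Finset ℤ,
  (∀ a ∈ U, 1 ≤ a ∧ (a : ℝ) ≤ x * log x ^ 2 ∧ (∀ ℓ : ℕ, ℓ.Prime → (ℓ : ℤ) ∣ a → ℓ ∈ LLx x) ∧
    cc x a < (x : ℝ) ^ (1 / 3 : ℝ)) → (U.card : ℝ) ≤ 3 * x / log x ^ 2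

def StmtSb : Prop := ∀ᶠ x : ℕ in atTop,
  ∀ (L : ℕ) (e : Finset ℤ), 1 ≤ L → (L : ℝ) ≤ log x / tt x ^ 3 → e.card ≤ L →
    (∀ a ∈ e, 1 ≤ a ∧ (a : ℝ) ≤ x * log x ^ 2) →
    1 ≤ exp (5 * log x / tt x ^ 2) * Pb (LLx x) (ka x) e

def StmtF1b : Prop := ∀ᶠ x : ℕ in atTop, ∀ J X y : ℕ, (J : ℝ) ≤ log (tt x) + 3 → X = 4 ^ J * x →
  X * log x / tt x ≤ y → (y : ℝ) ≤ X * log x →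
  Good (LLx x) (ka x) (E1 x y) (pr (4 * X) (16 * X)) (X / (8 * log x))

def StmtF2b : Prop := ∃ c : ℝ, 0 < c ∧ ∀ᶠ x : ℕ in atTop, ∀ J X y : ℕ, log (tt x) ≤ J →
  (J : ℝ) ≤ log (tt x) + 3 → X = 4 ^ J * x → X * log x / tt x ≤ y → (y : ℝ) ≤ X * log x →
  (y : ℝ) ≤ c * X * log x / log (tt x) →
  Good (LLx x) (ka x) (E2 X y) (pr (4 * x) (4 * X)) (X / (8 * log x))

def Cover2 : Prop := ∃ c : ℝ, 0 < c ∧ ∀ᶠ x : ℕ in atTop, ∀ J X : ℕ, log (tt x) ≤ J →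
  (J : ℝ) ≤ log (tt x) + 3 → X = 4 ^ J * x → ∃ a : ℕ → ℤ, ∀ m : ℤ, 1 ≤ m →
  (m : ℝ) ≤ c * X * log x / log (tt x) → ∃ p : ℕ, p.Prime ∧ p ≤ 64 * X ∧ (p : ℤ) ∣ m - a p

def Cover3 : Prop := ∃ c : ℝ, 0 < c ∧ ∀ᶠ x : ℕ in atTop, ∃ a : ℕ → ℤ, ∀ m : ℤ, 1 ≤ m →
  (m : ℝ) ≤ c * x * log x / log (log (log x)) →
  ∃ p : ℕ, p.Prime ∧ p ≤ 64 * x ∧ (p : ℤ) ∣ m - a p

def Jac3 : Prop := ∃ c : ℝ, 0 < c ∧ ∀ᶠ k : ℕ in atTop,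
  ENNReal.ofReal (c * k * log k ^ 2 / log (log (log k))) ≤ N013.j (N013.P k)

def Gap3 : Prop := ∃ c : ℝ, 0 < c ∧ ∀ᶠ X : ℕ in atTop, ∃ n : ℕ, Nat.nth Nat.Prime (n + 1) ≤ X ∧
  c * log X * log (log X) / log (log (log (log X))) ≤
    (Nat.nth Nat.Prime (n + 1) : ℝ) - Nat.nth Nat.Prime n

end Vale.Agent.N013L
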