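import Vale.Agent.N013L.Def

/-! Block A: covering with likelihood-ratio weights. -/

namespace Vale.Agent.N013L

open Finset Real

namespace A

/-- one step of the derandomisation -/
lemma step (E I : Finset ℤ) (e : ℤ → Finset ℤ) (q : ℤ → ℝ) (g : ℤ → ℝ)
    (hq : ∀ n ∈ I, 0 ≤ q n) (hq1 : ∑ n ∈ I, q n ≤ 1) (hg : ∀ a ∈ E, 0 ≤ g a) :
    ∃ n₀ : ℤ, ∑ a ∈ E, g a * (if a ∈ e n₀ then 0 else 1) ≤
      ∑ a ∈ E, g a * (1 - ∑ n ∈ I, if a ∈ e n then q n else 0) := by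
  set c : ℤ → ℝ := fun n => ∑ a ∈ E, g a * (if a ∈ e n then 1 else 0) with hc
  have hc0 : ∀ n, 0 ≤ c n := fun n =>
    sum_nonneg fun a ha => mul_nonneg (hg a ha) (by split_ifs <;> norm_num)
  have key : ∃ n₀, ∑ n ∈ I, q n * c n ≤ c n₀ := by
    rcases I.eq_empty_or_nonempty with rfl | hI
    · exact ⟨0, by simpa using hc0 0⟩
    · obtain ⟨n₀, -, hn₀⟩ := exists_max_image I c hI
      refine ⟨n₀, ?_⟩
      calc ∑ n ∈ I, q n * c n ≤ ∑ n ∈ I, q n * c n₀ :=
            sum_le_sum fun n hn => mul_le_mul_of_nonneg_left (hn₀ n hn) (hq n hn)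
        _ = (∑ n ∈ I, q n) * c n₀ := (sum_mul ..).symm
        _ ≤ 1 * c n₀ := mul_le_mul_of_nonneg_right hq1 (hc0 n₀)
        _ = c n₀ := one_mul _
  obtain ⟨n₀, hn₀⟩ := key
  refine ⟨n₀, ?_⟩
  have h1 : ∑ a ∈ E, g a * (if a ∈ e n₀ then 0 else 1) = ∑ a ∈ E, g a - c n₀ := by
    rw [hc, ← sum_sub_distrib]
    refine sum_congr rfl fun a _ => ?_
    split_ifs <;> ring
  have h2 : ∑ a ∈ E, g a * (1 - ∑ n ∈ I, if a ∈ e n then q n else 0) =
      ∑ a ∈ E, g a - ∑ n ∈ I, q n * c n := by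
    simp only [hc, mul_sum]
    rw [sum_comm, ← sum_sub_distrib]
    refine sum_congr rfl fun a _ => ?_
    rw [mul_sub, mul_one, mul_sum]
    congr 1
    refine sum_congr rfl fun n _ => ?_
    split_ifs <;> ring
  linarith

lemma u_le (I : Finset ℤ) (e : ℤ → Finset ℤ) (q : ℤ → ℝ) (a : ℤ)
    (hq : ∀ n ∈ I, 0 ≤ q n) (hq1 : ∑ n ∈ I, q n ≤ 1) :
    0 ≤ (∑ n ∈ I, if a ∈ e n then q n else 0) ∧ (∑ n ∈ I, if a ∈ e n then q n else 0) ≤ 1 := by
  refine ⟨sum_nonneg fun n hn => ?_, le_trans (sum_le_sum fun n hn => ?_) hq1⟩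
  · split_ifs
    · exact hq n hn
    · exact le_rfl
  · split_ifs
    · exact le_rfl
    · exact hq n hn

/-- the derandomisation -/
lemma derand (E I : Finset ℤ) (e : ℕ → ℤ → Finset ℤ) (q : ℕ → ℤ → ℝ)
    (hq : ∀ p, ∀ n ∈ I, 0 ≤ q p n) (hq1 : ∀ p, ∑ n ∈ I, q p n ≤ 1) (PP : Finset ℕ) :
    ∀ g : ℤ → ℝ, (∀ a ∈ E, 0 ≤ g a) → ∃ n : ℕ → ℤ,
      ∑ a ∈ E, g a * ∏ p ∈ PP, (if a ∈ e p (n p) then (0 : ℝ) else 1) ≤
        ∑ a ∈ E, g a * ∏ p ∈ PP, (1 - ∑ n ∈ I, if a ∈ e p n then q p n else 0) := by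
  induction PP using Finset.induction_on with
  | empty => intro g _; exact ⟨fun _ => 0, by simp⟩
  | insert p₀ PP hp₀ ih =>
    intro g hg
    obtain ⟨n₀, hn₀⟩ := step E I (e p₀) (q p₀)
      (fun a => g a * ∏ p ∈ PP, (1 - ∑ n ∈ I, if a ∈ e p n then q p n else 0)) (hq p₀) (hq1 p₀)
      (fun a ha => mul_nonneg (hg a ha) (prod_nonneg fun p _ =>
        sub_nonneg.2 (u_le I (e p) (q p) a (hq p) (hq1 p)).2))
    obtain ⟨n, hn⟩ := ih (fun a => g a * (if a ∈ e p₀ n₀ then 0 else 1))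
      (fun a ha => mul_nonneg (hg a ha) (by split_ifs <;> norm_num))
    refine ⟨Function.update n p₀ n₀, ?_⟩
    have h1 : ∑ a ∈ E, g a * ∏ p ∈ insert p₀ PP,
        (if a ∈ e p (Function.update n p₀ n₀ p) then (0 : ℝ) else 1) =
        ∑ a ∈ E, (g a * (if a ∈ e p₀ n₀ then 0 else 1)) *
          ∏ p ∈ PP, (if a ∈ e p (n p) then (0 : ℝ) else 1) := by
      refine sum_congr rfl fun a _ => ?_
      rw [prod_insert hp₀, Function.update_self, mul_assoc]
      congr 2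
      refine prod_congr rfl fun p hp => ?_
      rw [Function.update_of_ne (ne_of_mem_of_not_mem hp hp₀)]
    have h2 : ∑ a ∈ E, g a * ∏ p ∈ insert p₀ PP, (1 - ∑ n ∈ I, if a ∈ e p n then q p n else 0) =
        ∑ a ∈ E, (g a * ∏ p ∈ PP, (1 - ∑ n ∈ I, if a ∈ e p n then q p n else 0)) *
          (1 - ∑ n ∈ I, if a ∈ e p₀ n then q p₀ n else 0) := by
      refine sum_congr rfl fun a _ => ?_
      rw [prod_insert hp₀]; ring
    have h3 : ∑ a ∈ E, (g a * (if a ∈ e p₀ n₀ then 0 else 1)) *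
        ∏ p ∈ PP, (1 - ∑ n ∈ I, if a ∈ e p n then q p n else 0) =
        ∑ a ∈ E, (g a * ∏ p ∈ PP, (1 - ∑ n ∈ I, if a ∈ e p n then q p n else 0)) *
          (if a ∈ e p₀ n₀ then 0 else 1) := sum_congr rfl fun a _ => by ring
    rw [h1, h2]
    exact hn.trans (h3.le.trans hn₀)

variable {Ω : Type} (s : Finset Ω) (pw : Ω → ℝ) (S : ℤ → Ω → Prop)

lemma ind_nonneg (e : Finset ℤ) (ω : Ω) : 0 ≤ ind S e ω := by
  unfold ind; split_ifs <;> norm_num

lemma ind_le_one (e : Finset ℤ) (ω : Ω) : ind S e ω ≤ 1 := by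
  unfold ind; split_ifs <;> norm_num

lemma ind_mul (e e' : Finset ℤ) (ω : Ω) : ind S e ω * ind S e' ω = ind S (e ∪ e') ω := by
  unfold ind
  by_cases h : ∀ a ∈ e, S a ω
  · by_cases h' : ∀ a ∈ e', S a ω
    · have : ∀ a ∈ e ∪ e', S a ω := fun a ha => (mem_union.1 ha).elim (h a) (h' a)
      rw [if_pos h, if_pos h', if_pos this, one_mul]
    · have : ¬ ∀ a ∈ e ∪ e', S a ω := fun hh => h' fun a ha => hh a (mem_union_right _ ha)
      rw [if_neg h', if_neg this, mul_zero]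
  · have : ¬ ∀ a ∈ e ∪ e', S a ω := fun hh => h fun a ha => hh a (mem_union_left _ ha)
    rw [if_neg h, if_neg this, zero_mul]

lemma ind_single_mul {a : ℤ} {e : Finset ℤ} (ha : a ∈ e) (ω : Ω) :
    ind S {a} ω * ind S e ω = ind S e ω := by
  rw [ind_mul, union_eq_right.2 (singleton_subset_iff.2 ha)]

/-- a sum of likelihood ratios -/
noncomputable def V {ι : Type} (J : Finset ι) (w : ι → ℝ) (f : ι → Finset ℤ) (ω : Ω) : ℝ :=
  ∑ j ∈ J, w j * ind S (f j) ω / Pr s pw S (f j)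

lemma mean_V {ι : Type} (J : Finset ι) (w : ι → ℝ) (f : ι → Finset ℤ)
    (hf : ∀ j, 0 < Pr s pw S (f j)) : ∑ ω ∈ s, pw ω * V s pw S J w f ω = ∑ j ∈ J, w j := by
  simp only [V, mul_sum]
  rw [sum_comm]
  refine sum_congr rfl fun j _ => ?_
  have h : ∑ ω ∈ s, pw ω * (w j * ind S (f j) ω / Pr s pw S (f j)) =
      w j / Pr s pw S (f j) * ∑ ω ∈ s, pw ω * ind S (f j) ω := by
    rw [mul_sum]; exact sum_congr rfl fun ω _ => by ring
  rw [h]
  exact div_mul_cancel₀ _ (hf j).ne'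

lemma sq_V {ι : Type} (J : Finset ι) (w : ι → ℝ) (f : ι → Finset ℤ) :
    ∑ ω ∈ s, pw ω * V s pw S J w f ω ^ 2 = ∑ j ∈ J, ∑ j' ∈ J, w j * w j' *
      (Pr s pw S (f j ∪ f j') / (Pr s pw S (f j) * Pr s pw S (f j'))) := by
  simp only [V, sq, sum_mul_sum]
  simp only [mul_sum]
  rw [sum_comm]
  refine sum_congr rfl fun j _ => ?_
  rw [sum_comm]
  refine sum_congr rfl fun j' _ => ?_
  have h : ∀ ω, pw ω * (w j * ind S (f j) ω / Pr s pw S (f j) *
      (w j' * ind S (f j') ω / Pr s pw S (f j'))) =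
      w j * w j' / (Pr s pw S (f j) * Pr s pw S (f j')) * (pw ω * ind S (f j ∪ f j') ω) := by
    intro ω; rw [← ind_mul]; ring
  rw [sum_congr rfl fun ω _ => h ω, ← mul_sum]
  change _ * Pr s pw S (f j ∪ f j') = _
  ring

/-- the pointwise bound for the product -/
lemma prod_le (PP : Finset ℕ) (u : ℕ → ℝ) (hu : ∀ p ∈ PP, 0 ≤ u p ∧ u p ≤ 1) (Y T d d₀ : ℝ)
    (hd₀ : 0 < d₀) (hd : d₀ ≤ d) (hT : 0 ≤ T) (hs : ∑ p ∈ PP, u p = (Y - T) / 2) :
    ∏ p ∈ PP, (1 - u p) ≤ exp (-d₀ / 8) + 4 * (Y / d - 1) ^ 2 + 4 / d₀ * T := by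
  have h1 : ∏ p ∈ PP, (1 - u p) ≤ 1 :=
    prod_le_one (fun p hp => sub_nonneg.2 (hu p hp).2) (fun p hp => by linarith [(hu p hp).1])
  have h2 : ∏ p ∈ PP, (1 - u p) ≤ exp (-((Y - T) / 2)) := by
    rw [← hs, ← sum_neg_distrib, exp_sum]
    exact prod_le_prod (fun p hp => sub_nonneg.2 (hu p hp).2)
      (fun p _ => by linarith [add_one_le_exp (-u p)])
  have he : 0 < exp (-d₀ / 8) := exp_pos _
  have h3 : 0 ≤ 4 * (Y / d - 1) ^ 2 := by positivity
  have h4 : 0 ≤ 4 / d₀ * T := by positivity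
  by_cases hA : 1 ≤ 4 * (Y / d - 1) ^ 2
  · linarith
  by_cases hB : 1 ≤ 4 / d₀ * T
  · linarith
  have hd0 : 0 < d := hd₀.trans_le hd
  have h5 : 1 / 2 ≤ Y / d := by nlinarith
  have h6 : d / 2 ≤ Y := by rw [le_div_iff₀ hd0] at h5; linarith
  have h7 : T ≤ d₀ / 4 := by
    have : 4 / d₀ * T = 4 * T / d₀ := by ring
    rw [this, not_le, div_lt_one hd₀] at hB; linarith
  have h8 : exp (-((Y - T) / 2)) ≤ exp (-d₀ / 8) := exp_le_exp.2 (by linarith)
  linarith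

end A

open A in
theorem stmtA : StmtA := by
  intro Ω s pw S E I PP e W L η d₀ hpw hsum he hE hW1 hd₀ hη H1 H2 hdeg
  have hd0 : 0 < d₀ := by linarith
  set X : ℕ → ℤ → Ω → ℝ := fun p n ω => W p n * ind S (e p n) ω / Pr s pw S (e p n) with hX
  have hX0 : ∀ p n ω, 0 ≤ X p n ω := fun p n ω =>
    div_nonneg (mul_nonneg (he p n).2.2.1 (ind_nonneg S _ _)) (he p n).2.2.2.le
  set Z : ℕ → Ω → ℝ := fun p ω => ∑ n ∈ I, X p n ω with hZ
  set m : ℕ → ℝ := fun p => ∑ n ∈ I, W p n with hm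
  set Y : ℤ → Ω → ℝ := fun a ω => ∑ p ∈ PP, ∑ n ∈ I, if a ∈ e p n then X p n ω else 0 with hY
  set D : ℤ → ℝ := fun a => ∑ p ∈ PP, ∑ n ∈ I, if a ∈ e p n then W p n else 0 with hD
  set d : ℤ → ℝ := fun a => D a / Pr s pw S {a} with hd
  have hdd : ∀ a ∈ E, d₀ ≤ d a := fun a ha => (le_div_iff₀ (hE a ha)).2 (hdeg a ha)
  -- the variance of `Z`
  have hZv : ∀ p ∈ PP, ∑ ω ∈ s, pw ω * (Z p ω - m p) ^ 2 ≤ η := by
    intro p hp
    have h1 : ∑ ω ∈ s, pw ω * Z p ω = m p :=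
      mean_V s pw S I (W p) (e p) fun n => (he p n).2.2.2
    have h2 : ∑ ω ∈ s, pw ω * Z p ω ^ 2 ≤ m p ^ 2 + η :=
      (sq_V s pw S I (W p) (e p)).le.trans (H1 p hp)
    have h3 : ∑ ω ∈ s, pw ω * (Z p ω - m p) ^ 2 = ∑ ω ∈ s, pw ω * Z p ω ^ 2 -
        2 * m p * ∑ ω ∈ s, pw ω * Z p ω + m p ^ 2 * ∑ ω ∈ s, pw ω := by
      rw [mul_sum s, mul_sum s, ← sum_sub_distrib, ← sum_add_distrib]
      exact sum_congr rfl fun ω _ => by ring
    rw [h3, h1, hsum]; nlinarith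
  -- the variance of `Y`
  have hYv : ∀ a ∈ E, ∑ ω ∈ s, pw ω * (ind S {a} ω * (Y a ω / d a - 1) ^ 2) ≤
      η * Pr s pw S {a} := by
    intro a ha
    have hP := hE a ha
    have hda : 0 < d a := hd0.trans_le (hdd a ha)
    have hYV : ∀ ω, Y a ω = V s pw S (PP ×ˢ I) (fun j => if a ∈ e j.1 j.2 then W j.1 j.2 else 0)
        (fun j => e j.1 j.2) ω := by
      intro ω
      simp only [hY, V]
      rw [sum_product]
      refine sum_congr rfl fun p _ => sum_congr rfl fun n _ => ?_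
      split_ifs
      · rfl
      · simp
    have h1 : ∑ ω ∈ s, pw ω * Y a ω = D a := by
      rw [sum_congr rfl fun ω _ => by rw [hYV ω],
        mean_V s pw S _ _ (fun j : ℕ × ℤ => e j.1 j.2) fun j => (he j.1 j.2).2.2.2, sum_product]
    have h2 : ∑ ω ∈ s, pw ω * Y a ω ^ 2 ≤ (1 + η) * D a ^ 2 / Pr s pw S {a} := by
      rw [sum_congr rfl fun ω _ => by rw [hYV ω], sq_V]
      simp only [sum_product]
      exact H2 a ha
    have hi : ∀ ω, ind S {a} ω * Y a ω = Y a ω := by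
      intro ω
      simp only [hY, mul_sum]
      refine sum_congr rfl fun p _ => sum_congr rfl fun n _ => ?_
      split_ifs with h
      · simp only [hX]
        conv_rhs => rw [← ind_single_mul S h ω]
        ring
      · exact mul_zero _
    have h3 : ∑ ω ∈ s, pw ω * (ind S {a} ω * (Y a ω / d a - 1) ^ 2) =
        (1 / d a ^ 2) * ∑ ω ∈ s, pw ω * Y a ω ^ 2 - 2 / d a * ∑ ω ∈ s, pw ω * Y a ω +
          ∑ ω ∈ s, pw ω * ind S {a} ω := by
      rw [mul_sum, mul_sum, ← sum_sub_distrib, ← sum_add_distrib]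
      refine sum_congr rfl fun ω _ => ?_
      have h4 : ind S {a} ω * (Y a ω / d a - 1) ^ 2 =
          (ind S {a} ω * Y a ω) * Y a ω / d a ^ 2 - 2 * (ind S {a} ω * Y a ω) / d a +
            ind S {a} ω := by ring
      rw [h4, hi]; ring
    have hDa : D a = d a * Pr s pw S {a} := (div_mul_cancel₀ _ hP.ne').symm
    have h5 : (1 / d a ^ 2) * ∑ ω ∈ s, pw ω * Y a ω ^ 2 ≤ (1 + η) * Pr s pw S {a} := by
      refine (mul_le_mul_of_nonneg_left h2 (by positivity)).trans (le_of_eq ?_)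
      rw [hDa]; field_simp
    have h6 : 2 / d a * D a = 2 * Pr s pw S {a} := by rw [hDa]; field_simp
    rw [h3, h1, h6]
    change _ - _ + Pr s pw S {a} ≤ _
    linarith
  refine ⟨fun ω => ∑ a ∈ E, ind S {a} ω * (exp (-d₀ / 8) + 4 * (Y a ω / d a - 1) ^ 2) +
    4 / d₀ * (L * ∑ p ∈ PP, 2 * (Z p ω - m p) ^ 2), ?_, ?_⟩
  · have h1 : ∑ ω ∈ s, pw ω * (∑ a ∈ E, ind S {a} ω *
          (exp (-d₀ / 8) + 4 * (Y a ω / d a - 1) ^ 2) +
        4 / d₀ * (L * ∑ p ∈ PP, 2 * (Z p ω - m p) ^ 2)) =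
        ∑ a ∈ E, (exp (-d₀ / 8) * Pr s pw S {a} +
          4 * ∑ ω ∈ s, pw ω * (ind S {a} ω * (Y a ω / d a - 1) ^ 2)) +
        8 / d₀ * L * ∑ p ∈ PP, ∑ ω ∈ s, pw ω * (Z p ω - m p) ^ 2 := by
      simp only [mul_add, sum_add_distrib, Pr, mul_sum]
      congr 1
      · congr 1
        · rw [sum_comm]
          exact sum_congr rfl fun a _ => sum_congr rfl fun ω _ => by ring
        · rw [sum_comm]
          exact sum_congr rfl fun a _ => sum_congr rfl fun ω _ => by ring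
      · rw [sum_comm]
        exact sum_congr rfl fun a _ => sum_congr rfl fun ω _ => by ring
    have h2 : ∑ a ∈ E, (exp (-d₀ / 8) * Pr s pw S {a} +
          4 * ∑ ω ∈ s, pw ω * (ind S {a} ω * (Y a ω / d a - 1) ^ 2)) ≤
        (exp (-d₀ / 8) + 4 * η) * ∑ a ∈ E, Pr s pw S {a} := by
      rw [mul_sum]
      exact sum_le_sum fun a ha => by linarith [hYv a ha]
    have h3 : ∑ p ∈ PP, ∑ ω ∈ s, pw ω * (Z p ω - m p) ^ 2 ≤ PP.card * η := by
      have := sum_le_card_nsmul PP _ η hZv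
      rwa [nsmul_eq_mul] at this
    have h4 : 8 / d₀ ≤ 2 := by rw [div_le_iff₀ hd0]; linarith
    have h5 : 8 / d₀ * L * ∑ p ∈ PP, ∑ ω ∈ s, pw ω * (Z p ω - m p) ^ 2 ≤
        2 * L * (PP.card * η) :=
      (mul_le_mul_of_nonneg_left h3 (by positivity)).trans
        (mul_le_mul_of_nonneg_right (mul_le_mul_of_nonneg_right h4 (by positivity))
          (by positivity))
    rw [h1]
    linarith
  · intro ω _
    set q : ℕ → ℤ → ℝ := fun p n => if Z p ω ≤ 2 then X p n ω / 2 else 0 with hq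
    have hq0 : ∀ p, ∀ n ∈ I, 0 ≤ q p n := by
      intro p n _
      simp only [hq]
      split_ifs
      · exact div_nonneg (hX0 p n ω) (by norm_num)
      · exact le_rfl
    have hq1 : ∀ p, ∑ n ∈ I, q p n ≤ 1 := by
      intro p
      simp only [hq]
      split_ifs with h
      · rw [← sum_div]
        change Z p ω / 2 ≤ 1
        linarith
      · simp
    obtain ⟨n, hn⟩ := derand E I e q hq0 hq1 PP (fun a => ind S {a} ω) fun a _ => ind_nonneg S _ _
    refine ⟨n, fun U hU => ?_⟩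
    set T : ℤ → ℝ := fun a => ∑ p ∈ PP, ∑ n ∈ I,
      if a ∈ e p n then (if Z p ω ≤ 2 then 0 else X p n ω) else 0 with hT
    have hT0 : ∀ a, 0 ≤ T a := fun a => sum_nonneg fun p _ => sum_nonneg fun n _ => by
      split_ifs
      · exact le_rfl
      · exact hX0 p n ω
      · exact le_rfl
    have h1 : (U.card : ℝ) ≤
        ∑ a ∈ E, ind S {a} ω * ∏ p ∈ PP, (if a ∈ e p (n p) then (0 : ℝ) else 1) := by
      have h : (U.card : ℝ) =
          ∑ a ∈ U, ind S {a} ω * ∏ p ∈ PP, (if a ∈ e p (n p) then (0 : ℝ) else 1) := by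
        rw [card_eq_sum_ones, Nat.cast_sum]
        refine sum_congr rfl fun a ha => ?_
        obtain ⟨-, h2, h3⟩ := hU a ha
        have h4 : ind S {a} ω = 1 := by
          unfold ind
          rw [if_pos (by simpa using h2)]
        rw [h4, prod_eq_one fun p hp => if_neg (h3 p hp)]
        simp
      rw [h]
      refine sum_le_sum_of_subset_of_nonneg (fun a ha => (hU a ha).1) fun a _ _ =>
        mul_nonneg (ind_nonneg S _ _) (prod_nonneg fun p _ => by split_ifs <;> norm_num)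
    have h2 : ∀ a ∈ E, ind S {a} ω * ∏ p ∈ PP, (1 - ∑ n ∈ I, if a ∈ e p n then q p n else 0) ≤
        ind S {a} ω * (exp (-d₀ / 8) + 4 * (Y a ω / d a - 1) ^ 2) + 4 / d₀ * T a := by
      intro a ha
      have h3 := prod_le PP (fun p => ∑ n ∈ I, if a ∈ e p n then q p n else 0)
        (fun p _ => u_le I (e p) (q p) a (hq0 p) (hq1 p)) (Y a ω) (T a) (d a) d₀ hd0 (hdd a ha)
        (hT0 a) (by
          simp only [hY, hT, hq]
          rw [← sum_sub_distrib, sum_div]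
          refine sum_congr rfl fun p _ => ?_
          rw [← sum_sub_distrib, sum_div]
          refine sum_congr rfl fun n _ => ?_
          split_ifs <;> ring)
      have h4 := mul_le_mul_of_nonneg_left h3 (ind_nonneg S {a} ω)
      have h5 : ind S {a} ω * (4 / d₀ * T a) ≤ 4 / d₀ * T a :=
        mul_le_of_le_one_left (mul_nonneg (by positivity) (hT0 a)) (ind_le_one S _ _)
      linarith
    have h3 : ∑ a ∈ E, T a ≤ L * ∑ p ∈ PP, 2 * (Z p ω - m p) ^ 2 := by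
      simp only [hT]
      rw [sum_comm, mul_sum]
      refine sum_le_sum fun p hp => ?_
      rw [sum_comm]
      have h4 : ∀ n ∈ I, (∑ a ∈ E, if a ∈ e p n then (if Z p ω ≤ 2 then 0 else X p n ω) else 0) ≤
          L * (if Z p ω ≤ 2 then 0 else X p n ω) := by
        intro n _
        rw [← sum_filter, sum_const, nsmul_eq_mul]
        refine mul_le_mul_of_nonneg_right ?_ (by
          split_ifs
          · exact le_rfl
          · exact hX0 p n ω)
        exact_mod_cast (card_le_card fun a ha => (mem_filter.1 ha).2).trans (he p n).2.1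
      refine (sum_le_sum h4).trans ?_
      rw [← mul_sum]
      refine mul_le_mul_of_nonneg_left ?_ (by positivity)
      split_ifs with h
      · simp only [sum_const_zero]; positivity
      · change Z p ω ≤ _
        have h5 : m p ≤ 1 := hW1 p hp
        rw [not_le] at h
        nlinarith
    have h4 := sum_le_sum h2
    rw [sum_add_distrib, ← mul_sum] at h4
    have h5 := mul_le_mul_of_nonneg_left h3 (show (0 : ℝ) ≤ 4 / d₀ by positivity)
    linarith

end Vale.Agent.N013L
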