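import Vale.Agent.N013L.Def2
import Vale.Agent.N013L.A

/-! Block A2: likelihood-ratio weights with large degrees. -/

namespace Vale.Agent.N013L

open Finset Real

lemma A.one_le (Y T d d₀ : ℝ) (hd₀ : 0 < d₀) (hd : d₀ ≤ d) (hT : 0 ≤ T)
    (hs : (Y - T) / 2 < d₀ / 8) : 1 ≤ 4 * (Y / d - 1) ^ 2 + 4 / d₀ * T := by
  have h3 : 0 ≤ 4 * (Y / d - 1) ^ 2 := by positivity
  have h4 : 0 ≤ 4 / d₀ * T := by positivity
  by_cases hA : 1 ≤ 4 * (Y / d - 1) ^ 2
  · linarith
  by_cases hB : 1 ≤ 4 / d₀ * T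
  · linarith
  have hd0 : 0 < d := hd₀.trans_le hd
  have h5 : 1 / 2 ≤ Y / d := by nlinarith
  have h6 : d / 2 ≤ Y := by rw [le_div_iff₀ hd0] at h5; linarith
  have h7 : T ≤ d₀ / 4 := by
    have : 4 / d₀ * T = 4 * T / d₀ := by ring
    rw [this, not_le, div_lt_one hd₀] at hB; linarith
  linarith

open A in
theorem stmtA2 : StmtA2 := by
  intro Ω s pw S E I PP e W L η d₀ hpw hsum he hE hW1 hd0 hη H1 H2 hdeg
  set X : ℕ → ℤ → Ω → ℝ := fun p n ω => W p n * ind S (e p n) ω / Pr s pw S (e p n) with hX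
  have hX0 : ∀ p n ω, 0 ≤ X p n ω := fun p n ω =>
    div_nonneg (mul_nonneg (he p n).2.2.1 (ind_nonneg S _ _)) (he p n).2.2.2.le
  set Z : ℕ → Ω → ℝ := fun p ω => ∑ n ∈ I, X p n ω with hZ
  set m : ℕ → ℝ := fun p => ∑ n ∈ I, W p n with hm
  set Y : ℤ → Ω → ℝ := fun a ω => ∑ p ∈ PP, ∑ n ∈ I, if a ∈ e p n then X p n ω else 0 with hY
  set D : ℤ → ℝ := fun a => ∑ p ∈ PP, ∑ n ∈ I, if a ∈ e p n then W p n else 0 with hD
  set d : ℤ → ℝ := fun a => D a / Pr s pw S {a} with hd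
  have hdd : ∀ a ∈ E, d₀ ≤ d a := fun a ha => (le_div_iff₀ (hE a ha)).2 (hdeg a ha)
  -- the variance of `Z`
  have hZv : ∀ p ∈ PP, ∑ ω ∈ s, pw ω * (Z p ω - m p) ^ 2 ≤ η := by
    intro p hp
    have h1 : ∑ ω ∈ s, pw ω * Z p ω = m p :=
      mean_V s pw S I (W p) (e p) fun n => (he p n).2.2.2
    have h2 : ∑ ω ∈ s, pw ω * Z p ω ^ 2 ≤ m p ^ 2 + η :=
      (sq_V s pw S I (W p) (e p)).le.trans (H1 p hp)
    have h3 : ∑ ω ∈ s, pw ω * (Z p ω - m p) ^ 2 = ∑ ω ∈ s, pw ω * Z p ω ^ 2 -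
        2 * m p * ∑ ω ∈ s, pw ω * Z p ω + m p ^ 2 * ∑ ω ∈ s, pw ω := by
      rw [mul_sum s, mul_sum s, ← sum_sub_distrib, ← sum_add_distrib]
      exact sum_congr rfl fun ω _ => by ring
    rw [h3, h1, hsum]; nlinarith
  -- the variance of `Y`
  have hYv : ∀ a ∈ E, ∑ ω ∈ s, pw ω * (ind S {a} ω * (Y a ω / d a - 1) ^ 2) ≤
      η * Pr s pw S {a} := by
    intro a ha
    have hP := hE a ha
    have hda : 0 < d a := hd0.trans_le (hdd a ha)
    have hYV : ∀ ω, Y a ω = V s pw S (PP ×ˢ I) (fun j => if a ∈ e j.1 j.2 then W j.1 j.2 else 0)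
        (fun j => e j.1 j.2) ω := by
      intro ω
      simp only [hY, V]
      rw [sum_product]
      refine sum_congr rfl fun p _ => sum_congr rfl fun n _ => ?_
      split_ifs
      · rfl
      · simp
    have h1 : ∑ ω ∈ s, pw ω * Y a ω = D a := by
      rw [sum_congr rfl fun ω _ => by rw [hYV ω],
        mean_V s pw S _ _ (fun j : ℕ × ℤ => e j.1 j.2) fun j => (he j.1 j.2).2.2.2, sum_product]
    have h2 : ∑ ω ∈ s, pw ω * Y a ω ^ 2 ≤ (1 + η) * D a ^ 2 / Pr s pw S {a} := by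
      rw [sum_congr rfl fun ω _ => by rw [hYV ω], sq_V]
      simp only [sum_product]
      exact H2 a ha
    have hi : ∀ ω, ind S {a} ω * Y a ω = Y a ω := by
      intro ω
      simp only [hY, mul_sum]
      refine sum_congr rfl fun p _ => sum_congr rfl fun n _ => ?_
      split_ifs with h
      · simp only [hX]
        conv_rhs => rw [← ind_single_mul S h ω]
        ring
      · exact mul_zero _
    have h3 : ∑ ω ∈ s, pw ω * (ind S {a} ω * (Y a ω / d a - 1) ^ 2) =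
        (1 / d a ^ 2) * ∑ ω ∈ s, pw ω * Y a ω ^ 2 - 2 / d a * ∑ ω ∈ s, pw ω * Y a ω +
          ∑ ω ∈ s, pw ω * ind S {a} ω := by
      rw [mul_sum, mul_sum, ← sum_sub_distrib, ← sum_add_distrib]
      refine sum_congr rfl fun ω _ => ?_
      have h4 : ind S {a} ω * (Y a ω / d a - 1) ^ 2 =
          (ind S {a} ω * Y a ω) * Y a ω / d a ^ 2 - 2 * (ind S {a} ω * Y a ω) / d a +
            ind S {a} ω := by ring
      rw [h4, hi]; ring
    have hDa : D a = d a * Pr s pw S {a} := (div_mul_cancel₀ _ hP.ne').symm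
    have h5 : (1 / d a ^ 2) * ∑ ω ∈ s, pw ω * Y a ω ^ 2 ≤ (1 + η) * Pr s pw S {a} := by
      refine (mul_le_mul_of_nonneg_left h2 (by positivity)).trans (le_of_eq ?_)
      rw [hDa]; field_simp
    have h6 : 2 / d a * D a = 2 * Pr s pw S {a} := by rw [hDa]; field_simp
    rw [h3, h1, h6]
    change _ - _ + Pr s pw S {a} ≤ _
    linarith
  refine ⟨fun ω => ∑ a ∈ E, ind S {a} ω * (4 * (Y a ω / d a - 1) ^ 2) +
    4 / d₀ * (L * ∑ p ∈ PP, 2 * (Z p ω - m p) ^ 2), ?_, ?_⟩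
  · have h1 : ∑ ω ∈ s, pw ω * (∑ a ∈ E, ind S {a} ω * (4 * (Y a ω / d a - 1) ^ 2) +
        4 / d₀ * (L * ∑ p ∈ PP, 2 * (Z p ω - m p) ^ 2)) =
        ∑ a ∈ E, (4 * ∑ ω ∈ s, pw ω * (ind S {a} ω * (Y a ω / d a - 1) ^ 2)) +
        8 / d₀ * L * ∑ p ∈ PP, ∑ ω ∈ s, pw ω * (Z p ω - m p) ^ 2 := by
      simp only [mul_add, sum_add_distrib, mul_sum]
      congr 1
      · rw [sum_comm]
        exact sum_congr rfl fun a _ => sum_congr rfl fun ω _ => by ring
      · rw [sum_comm]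
        exact sum_congr rfl fun a _ => sum_congr rfl fun ω _ => by ring
    have h2 : ∑ a ∈ E, (4 * ∑ ω ∈ s, pw ω * (ind S {a} ω * (Y a ω / d a - 1) ^ 2)) ≤
        4 * η * ∑ a ∈ E, Pr s pw S {a} := by
      rw [mul_sum]
      exact sum_le_sum fun a ha => by linarith [hYv a ha]
    have h3 : ∑ p ∈ PP, ∑ ω ∈ s, pw ω * (Z p ω - m p) ^ 2 ≤ PP.card * η := by
      have := sum_le_card_nsmul PP _ η hZv
      rwa [nsmul_eq_mul] at this
    have h5 : 8 / d₀ * L * ∑ p ∈ PP, ∑ ω ∈ s, pw ω * (Z p ω - m p) ^ 2 ≤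
        8 / d₀ * L * (PP.card * η) := mul_le_mul_of_nonneg_left h3 (by positivity)
    rw [h1]
    linarith
  · intro ω _
    set q : ℕ → ℤ → ℝ := fun p n => if Z p ω ≤ 2 then X p n ω / 2 else 0 with hq
    have hq0 : ∀ p n, 0 ≤ q p n ∧ q p n ≤ W p n / Pr s pw S (e p n) := by
      intro p n
      have hP := (he p n).2.2.2
      have hW := (he p n).2.2.1
      have h1 : X p n ω ≤ W p n / Pr s pw S (e p n) :=
        div_le_div_of_nonneg_right (mul_le_of_le_one_right hW (ind_le_one S _ _)) hP.le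
      have h2 := hX0 p n ω
      simp only [hq]
      split_ifs
      · exact ⟨by linarith, by linarith⟩
      · exact ⟨le_rfl, by linarith⟩
    have hq1 : ∀ p, ∑ n ∈ I, q p n ≤ 1 := by
      intro p
      simp only [hq]
      split_ifs with h
      · rw [← sum_div]
        change Z p ω / 2 ≤ 1
        linarith
      · simp
    refine ⟨q, hq0, hq1, fun U hU => ?_⟩
    set T : ℤ → ℝ := fun a => ∑ p ∈ PP, ∑ n ∈ I,
      if a ∈ e p n then (if Z p ω ≤ 2 then 0 else X p n ω) else 0 with hT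
    have hT0 : ∀ a, 0 ≤ T a := fun a => sum_nonneg fun p _ => sum_nonneg fun n _ => by
      split_ifs
      · exact le_rfl
      · exact hX0 p n ω
      · exact le_rfl
    have h2 : ∀ a ∈ U, (1 : ℝ) ≤
        ind S {a} ω * (4 * (Y a ω / d a - 1) ^ 2) + 4 / d₀ * T a := by
      intro a ha
      obtain ⟨h1, h2, h3⟩ := hU a ha
      have h4 : ind S {a} ω = 1 := by
        unfold ind
        rw [if_pos (by simpa using h2)]
      rw [h4, one_mul]
      refine A.one_le (Y a ω) (T a) (d a) d₀ hd0 (hdd a h1) (hT0 a) (lt_of_eq_of_lt ?_ h3)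
      simp only [hY, hT, hq]
      rw [← sum_sub_distrib, sum_div]
      refine sum_congr rfl fun p _ => ?_
      rw [← sum_sub_distrib, sum_div]
      refine sum_congr rfl fun n _ => ?_
      split_ifs <;> ring
    have h1 : (U.card : ℝ) ≤
        ∑ a ∈ E, (ind S {a} ω * (4 * (Y a ω / d a - 1) ^ 2) + 4 / d₀ * T a) := by
      rw [card_eq_sum_ones, Nat.cast_sum]
      refine (sum_le_sum fun a ha => ?_).trans (sum_le_sum_of_subset_of_nonneg
        (fun a ha => (hU a ha).1) fun a _ _ => add_nonneg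
          (mul_nonneg (ind_nonneg S _ _) (by positivity)) (mul_nonneg (by positivity) (hT0 a)))
      simpa using h2 a ha
    have h3 : ∑ a ∈ E, T a ≤ L * ∑ p ∈ PP, 2 * (Z p ω - m p) ^ 2 := by
      simp only [hT]
      rw [sum_comm, mul_sum]
      refine sum_le_sum fun p hp => ?_
      rw [sum_comm]
      have h4 : ∀ n ∈ I, (∑ a ∈ E, if a ∈ e p n then (if Z p ω ≤ 2 then 0 else X p n ω) else 0) ≤
          L * (if Z p ω ≤ 2 then 0 else X p n ω) := by
        intro n _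
        rw [← sum_filter, sum_const, nsmul_eq_mul]
        refine mul_le_mul_of_nonneg_right ?_ (by
          split_ifs
          · exact le_rfl
          · exact hX0 p n ω)
        exact_mod_cast (card_le_card fun a ha => (mem_filter.1 ha).2).trans (he p n).2.1
      refine (sum_le_sum h4).trans ?_
      rw [← mul_sum]
      refine mul_le_mul_of_nonneg_left ?_ (by positivity)
      split_ifs with h
      · simp only [sum_const_zero]; positivity
      · change Z p ω ≤ _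
        have h5 : m p ≤ 1 := hW1 p hp
        rw [not_le] at h
        nlinarith
    rw [sum_add_distrib, ← mul_sum] at h1
    have h5 := mul_le_mul_of_nonneg_left h3 (show (0 : ℝ) ≤ 4 / d₀ by positivity)
    linarith

end Vale.Agent.N013L
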