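import Vale.Agent.N013L.Def

/-! Block B1: the tilted product law, its survival probabilities and their bounds. -/

namespace Vale.Agent.N013L

open Finset Real

namespace B1

/-- residues modulo `ℓ` of the members of `e` -/
def res (ℓ : ℕ) (e : Finset ℤ) : Finset ℕ :=
  (range ℓ).filter (fun r : ℕ => ∃ a ∈ e, (ℓ : ℤ) ∣ a - (r : ℤ))

theorem mu_nonneg {κ : ℕ → ℝ} {ℓ : ℕ} (h0 : 0 ≤ κ ℓ) (h1 : κ ℓ ≤ 1) (r : ℕ) : 0 ≤ mu κ ℓ r := by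
  unfold mu
  have : 0 ≤ κ ℓ / ℓ := div_nonneg h0 (Nat.cast_nonneg _)
  split_ifs <;> linarith

theorem sum_mu (κ : ℕ → ℝ) (ℓ : ℕ) (A : Finset ℕ) :
    ∑ r ∈ A, mu κ ℓ r = A.card * (κ ℓ / ℓ) + if 0 ∈ A then 1 - κ ℓ else 0 := by
  unfold mu
  rw [sum_add_distrib, sum_const, nsmul_eq_mul, sum_ite_eq']

theorem sum_mu_range (κ : ℕ → ℝ) {ℓ : ℕ} (h : 0 < ℓ) : ∑ r ∈ range ℓ, mu κ ℓ r = 1 := by
  rw [sum_mu, if_pos (mem_range.2 h), card_range]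
  have : (ℓ : ℝ) ≠ 0 := Nat.cast_ne_zero.2 h.ne'
  field_simp
  ring

theorem card_res {ℓ : ℕ} (e : Finset ℤ) : (res ℓ e).card ≤ e.card := by
  refine le_trans (card_le_card ?_) (card_image_le (s := e) (f := fun a : ℤ => (a % (ℓ : ℤ)).toNat))
  intro r hr
  obtain ⟨h1, a, ha, h2⟩ := mem_filter.1 hr
  refine mem_image.2 ⟨a, ha, ?_⟩
  have hr' : (r : ℤ) < ℓ := by exact_mod_cast mem_range.1 h1
  have h3 : a % (ℓ : ℤ) = (r : ℤ) % ℓ := (Int.emod_emod_of_dvd a (dvd_refl _)).symm.trans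
    (by rw [Int.emod_emod_of_dvd a (dvd_refl _)]; exact (Int.modEq_iff_dvd.2 h2).symm)
  rw [h3, Int.emod_eq_of_lt (Int.natCast_nonneg r) hr', Int.toNat_natCast]

theorem res_nonempty {ℓ : ℕ} (h : 0 < ℓ) (a : ℤ) : 1 ≤ (res ℓ {a}).card := by
  refine card_pos.2 ⟨(a % (ℓ : ℤ)).toNat, mem_filter.2 ⟨mem_range.2 ?_, a, mem_singleton_self a, ?_⟩⟩
  · have h1 : a % (ℓ : ℤ) < ℓ := Int.emod_lt_of_pos a (by exact_mod_cast h)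
    have h2 : 0 ≤ a % (ℓ : ℤ) := Int.emod_nonneg a (by exact_mod_cast h.ne')
    omega
  · have h2 : 0 ≤ a % (ℓ : ℤ) := Int.emod_nonneg a (by exact_mod_cast h.ne')
    rw [Int.toNat_of_nonneg h2]
    exact Int.dvd_self_sub_emod

theorem zero_mem_res {ℓ : ℕ} (h : 0 < ℓ) (e : Finset ℤ) :
    0 ∈ res ℓ e ↔ ∃ a ∈ e, (ℓ : ℤ) ∣ a := by
  simp [res, h]

theorem ind_eq (LL : Finset ℕ) (e : Finset ℤ) (ω : LL → ℕ) :
    ind (Sv LL) e ω =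
      ∏ ℓ : LL, if ∃ a ∈ e, ((ℓ : ℕ) : ℤ) ∣ a - (ω ℓ : ℤ) then (0 : ℝ) else 1 := by
  unfold ind
  split_ifs with h
  · refine (prod_eq_one fun ℓ _ => if_neg ?_).symm
    rintro ⟨a, ha, h2⟩
    exact h a ha ℓ h2
  · unfold Sv at h
    push Not at h
    obtain ⟨a, ha, ℓ, h2⟩ := h
    symm
    refine prod_eq_zero (mem_univ ℓ) ?_
    exact if_pos ⟨a, ha, h2⟩

theorem pb_eq (LL : Finset ℕ) (κ : ℕ → ℝ) (hp : ∀ ℓ ∈ LL, 0 < ℓ) (e : Finset ℤ) :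
    Pb LL κ e = ∏ ℓ ∈ LL, (1 - ∑ r ∈ res ℓ e, mu κ ℓ r) := by
  unfold Pb Pr Om wt
  simp only [ind_eq, ← prod_mul_distrib]
  rw [← prod_univ_sum (fun ℓ : LL => range (ℓ : ℕ)) (fun (ℓ : LL) (r : ℕ) =>
    mu κ ℓ r * if ∃ a ∈ e, ((ℓ : ℕ) : ℤ) ∣ a - (r : ℤ) then (0 : ℝ) else 1),
    ← prod_coe_sort LL]
  refine prod_congr rfl fun ℓ _ => ?_
  rw [eq_sub_iff_add_eq, res, sum_filter, ← sum_add_distrib]
  refine Eq.trans (sum_congr rfl fun r _ => ?_) (sum_mu_range κ (hp ℓ ℓ.2))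
  split_ifs <;> simp

theorem exp_le {u : ℝ} (h0 : 0 ≤ u) (h1 : u ≤ 1 / 2) : exp (-(2 * u)) ≤ 1 - u := by
  have h2 : 1 + 2 * u ≤ exp (2 * u) := by linarith [add_one_le_exp (2 * u)]
  rw [exp_neg, inv_le_iff_one_le_mul₀ (exp_pos _)]
  nlinarith [mul_le_mul_of_nonneg_left h2 (show 0 ≤ 1 - u by linarith)]

theorem loc_lower {κ : ℕ → ℝ} {ℓ L : ℕ} (h : 0 < ℓ) (h0 : 0 ≤ κ ℓ) (h1 : κ ℓ ≤ 1)
    (hL : 2 * (L : ℝ) ≤ ℓ) (e : Finset ℤ) (he : e.card ≤ L) :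
    exp (-(2 * L * ((1 : ℝ) / ℓ))) * ∏ a ∈ e, (if (ℓ : ℤ) ∣ a then κ ℓ else 1) ≤
      1 - ∑ r ∈ res ℓ e, mu κ ℓ r := by
  have hl : (0 : ℝ) < ℓ := by exact_mod_cast h
  have hu0 : (0 : ℝ) ≤ L / ℓ := by positivity
  have hu1 : (L : ℝ) / ℓ ≤ 1 / 2 := by rw [div_le_iff₀ hl]; linarith
  have hE := exp_le hu0 hu1
  rw [show 2 * (L : ℝ) * ((1 : ℝ) / ℓ) = 2 * (L / ℓ) by ring, sum_mu]
  have hc : ((res ℓ e).card : ℝ) ≤ L := by exact_mod_cast (card_res e).trans he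
  have hA : ((res ℓ e).card : ℝ) * (κ ℓ / ℓ) ≤ κ ℓ * (L / ℓ) := by
    have := mul_le_mul_of_nonneg_right hc (div_nonneg h0 hl.le)
    calc _ ≤ L * (κ ℓ / ℓ) := this
      _ = _ := by ring
  have hf0 : ∀ a ∈ e, 0 ≤ (if (ℓ : ℤ) ∣ a then κ ℓ else 1) := fun a _ => by
    split_ifs <;> linarith
  have hf1 : ∀ a ∈ e, (if (ℓ : ℤ) ∣ a then κ ℓ else 1) ≤ 1 := fun a _ => by
    split_ifs <;> linarith
  split_ifs with hz
  · obtain ⟨a, ha, hd⟩ := (zero_mem_res h e).1 hz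
    have hP : ∏ a ∈ e, (if (ℓ : ℤ) ∣ a then κ ℓ else 1) ≤ κ ℓ := by
      rw [← mul_prod_erase e _ ha, if_pos hd]
      exact mul_le_of_le_one_right h0 (prod_le_one (fun b hb => hf0 b (mem_of_mem_erase hb))
        fun b hb => hf1 b (mem_of_mem_erase hb))
    have := mul_le_mul hE hP (prod_nonneg hf0) (by linarith)
    nlinarith
  · have hP : ∏ a ∈ e, (if (ℓ : ℤ) ∣ a then κ ℓ else 1) ≤ 1 := prod_le_one hf0 hf1
    have := mul_le_mul hE hP (prod_nonneg hf0) (by linarith)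
    nlinarith [mul_le_mul_of_nonneg_right h1 hu0]

theorem loc_upper {κ : ℕ → ℝ} {ℓ : ℕ} (h : 0 < ℓ) (h0 : 0 ≤ κ ℓ) (h1 : κ ℓ ≤ 1) (a : ℤ) :
    1 - ∑ r ∈ res ℓ {a}, mu κ ℓ r ≤ (1 - κ ℓ / ℓ) * if (ℓ : ℤ) ∣ a then κ ℓ else 1 := by
  have hl : (0 : ℝ) < ℓ := by exact_mod_cast h
  have hc : (1 : ℝ) ≤ (res ℓ {a}).card := by exact_mod_cast res_nonempty h a
  have hk : 0 ≤ κ ℓ / ℓ := div_nonneg h0 hl.le
  have hA : κ ℓ / ℓ ≤ ((res ℓ {a}).card : ℝ) * (κ ℓ / ℓ) := le_mul_of_one_le_left hk hc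
  rw [sum_mu]
  by_cases hd : (ℓ : ℤ) ∣ a
  · rw [if_pos hd, if_pos ((zero_mem_res h _).2 ⟨a, mem_singleton_self a, hd⟩)]
    nlinarith [mul_le_mul_of_nonneg_left h1 hk]
  · rw [if_neg hd, if_neg]
    · linarith
    · rw [zero_mem_res h]
      simpa using hd

end B1

open B1 in
theorem stmtB1 : StmtB1 := by
  intro LL κ κ₁ w L hM
  have hp : ∀ ℓ ∈ LL, 0 < ℓ := fun ℓ h => (hM.prime ℓ h).pos
  have h0 : ∀ ℓ ∈ LL, 0 ≤ κ ℓ := fun ℓ h => hM.k0.le.trans (hM.kge ℓ h)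
  refine ⟨fun ω _ => prod_nonneg fun ℓ _ => mu_nonneg (h0 ℓ ℓ.2) (hM.kle ℓ ℓ.2) _, ?_,
    pb_eq LL κ hp, fun e he => ?_, fun a => ?_⟩
  · unfold Om wt
    rw [← prod_univ_sum (fun ℓ : LL => range (ℓ : ℕ)) (fun (ℓ : LL) (r : ℕ) => mu κ ℓ r)]
    exact prod_eq_one fun ℓ _ => sum_mu_range κ (hp ℓ ℓ.2)
  · rw [pb_eq LL κ hp, mul_sum, ← sum_neg_distrib, exp_sum]
    simp only [kap, prod_filter]
    rw [prod_comm, ← prod_mul_distrib]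
    refine prod_le_prod (fun ℓ h => mul_nonneg (exp_pos _).le (prod_nonneg fun a _ => ?_))
      fun ℓ h => loc_lower (hp ℓ h) (h0 ℓ h) (hM.kle ℓ h) (hM.wL.trans (hM.big ℓ h)) e he
    have := h0 ℓ h
    split_ifs <;> linarith
  · rw [pb_eq LL κ hp, sig, kap, prod_filter, ← prod_mul_distrib]
    refine prod_le_prod (fun ℓ h => ?_) fun ℓ h => loc_upper (hp ℓ h) (h0 ℓ h) (hM.kle ℓ h) a
    rw [sub_nonneg, ← sum_mu_range κ (hp ℓ h)]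
    exact sum_le_sum_of_subset_of_nonneg (filter_subset _ _)
      fun r _ _ => mu_nonneg (h0 ℓ h) (hM.kle ℓ h) r

end Vale.Agent.N013L
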