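import Vale.Agent.N013L.Def

/-! Block B2: the correlation inequality. -/

namespace Vale.Agent.N013L

open Finset Real Filter

namespace B2

open Classical in
/-- residues modulo `ℓ` of the members of `e` -/
noncomputable def res (ℓ : ℕ) (e : Finset ℤ) : Finset ℕ :=
  (range ℓ).filter fun r : ℕ => ∃ a ∈ e, (ℓ : ℤ) ∣ a - (r : ℤ)

theorem mem_res {ℓ r : ℕ} {e : Finset ℤ} : r ∈ res ℓ e ↔ r < ℓ ∧ ∃ a ∈ e, (ℓ : ℤ) ∣ a - (r : ℤ) := by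
  simp [res]

theorem toNat_mod {ℓ r : ℕ} {a : ℤ} (hr : r < ℓ) (h : (ℓ : ℤ) ∣ a - (r : ℤ)) :
    (a % (ℓ : ℤ)).toNat = r := by
  have h1 : a % (ℓ : ℤ) = (r : ℤ) % ℓ := (Int.emod_emod_of_dvd a dvd_rfl).symm.trans
    ((Int.emod_emod_of_dvd a dvd_rfl).trans (Int.emod_eq_emod_iff_emod_sub_eq_zero.2
      (Int.emod_eq_zero_of_dvd h)))
  rw [h1, Int.emod_eq_of_lt (by positivity) (by exact_mod_cast hr), Int.toNat_natCast]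

theorem card_res (ℓ : ℕ) (e : Finset ℤ) : (res ℓ e).card ≤ e.card := by
  refine le_trans (card_le_card ?_) (card_image_le (f := fun a : ℤ => (a % (ℓ : ℤ)).toNat))
  intro r hr
  obtain ⟨h1, a, ha, h2⟩ := mem_res.1 hr
  exact mem_image.2 ⟨a, ha, toNat_mod h1 h2⟩

theorem res_union (ℓ : ℕ) (e e' : Finset ℤ) : res ℓ (e ∪ e') = res ℓ e ∪ res ℓ e' := by
  ext r
  simp only [mem_union, mem_res]
  constructor
  · rintro ⟨h, a, ha | ha, h2⟩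
    · exact Or.inl ⟨h, a, ha, h2⟩
    · exact Or.inr ⟨h, a, ha, h2⟩
  · rintro (⟨h, a, ha, h2⟩ | ⟨h, a, ha, h2⟩)
    · exact ⟨h, a, Or.inl ha, h2⟩
    · exact ⟨h, a, Or.inr ha, h2⟩

theorem res_inter (ℓ : ℕ) (e e' : Finset ℤ) : res ℓ (e ∩ e') ⊆ res ℓ e ∩ res ℓ e' := by
  intro r hr
  obtain ⟨h, a, ha, h2⟩ := mem_res.1 hr
  exact mem_inter.2 ⟨mem_res.2 ⟨h, a, (mem_inter.1 ha).1, h2⟩,
    mem_res.2 ⟨h, a, (mem_inter.1 ha).2, h2⟩⟩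

theorem mu_nonneg {κ : ℕ → ℝ} {ℓ : ℕ} (h0 : 0 ≤ κ ℓ) (h1 : κ ℓ ≤ 1) (r : ℕ) : 0 ≤ mu κ ℓ r := by
  unfold mu
  have : 0 ≤ κ ℓ / ℓ := by positivity
  split_ifs <;> linarith

theorem sum_mu_le {κ : ℕ → ℝ} {ℓ : ℕ} (h1 : κ ℓ ≤ 1) (S : Finset ℕ) :
    ∑ r ∈ S, mu κ ℓ r ≤ κ ℓ * (S.card / ℓ) + (1 - κ ℓ) := by
  unfold mu
  rw [sum_add_distrib, sum_const, nsmul_eq_mul, sum_ite_eq']
  have : (S.card : ℝ) * (κ ℓ / ℓ) = κ ℓ * (S.card / ℓ) := by ring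
  split_ifs <;> linarith

/-- number of pairs in the two differences that agree modulo `ℓ` -/
def nn (ℓ : ℕ) (e e' : Finset ℤ) : ℕ :=
  (((e \ e') ×ˢ (e' \ e)).filter fun b : ℤ × ℤ => (ℓ : ℤ) ∣ b.1 - b.2).card

theorem extra {κ : ℕ → ℝ} {ℓ : ℕ} {w : ℝ} (h1 : κ ℓ ≤ 1) (hw : 0 < w) (hℓ : w ≤ ℓ)
    (e e' : Finset ℤ)
    (hb : κ ℓ < 1 → ∀ b ∈ e \ e', ∀ b' ∈ e' \ e, ¬ ((ℓ : ℤ) ∣ b ∧ (ℓ : ℤ) ∣ b')) :
    ∑ r ∈ (res ℓ e ∩ res ℓ e') \ res ℓ (e ∩ e'), mu κ ℓ r ≤ nn ℓ e e' / w := by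
  have key : ∀ r ∈ (res ℓ e ∩ res ℓ e') \ res ℓ (e ∩ e'), r < ℓ ∧ ∃ b ∈ e \ e', ∃ b' ∈ e' \ e,
      (ℓ : ℤ) ∣ b - r ∧ (ℓ : ℤ) ∣ b' - r := by
    intro r hr
    obtain ⟨h2, h3⟩ := mem_sdiff.1 hr
    obtain ⟨h4, b, hb1, hb2⟩ := mem_res.1 (mem_inter.1 h2).1
    obtain ⟨-, b', hb3, hb4⟩ := mem_res.1 (mem_inter.1 h2).2
    exact ⟨h4, b, mem_sdiff.2 ⟨hb1, fun h => h3 (mem_res.2 ⟨h4, b, mem_inter.2 ⟨hb1, h⟩, hb2⟩)⟩,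
      b', mem_sdiff.2 ⟨hb3, fun h => h3 (mem_res.2 ⟨h4, b', mem_inter.2 ⟨h, hb3⟩, hb4⟩)⟩, hb2, hb4⟩
  have hcard : ((res ℓ e ∩ res ℓ e') \ res ℓ (e ∩ e')).card ≤ nn ℓ e e' := by
    refine le_trans (card_le_card ?_)
      (card_image_le (f := fun b : ℤ × ℤ => (b.1 % (ℓ : ℤ)).toNat))
    intro r hr
    obtain ⟨h4, b, hb1, b', hb3, hb2, hb4⟩ := key r hr
    refine mem_image.2 ⟨(b, b'), mem_filter.2 ⟨mem_product.2 ⟨hb1, hb3⟩, ?_⟩, toNat_mod h4 hb2⟩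
    have := dvd_sub hb2 hb4
    rwa [sub_sub_sub_cancel_right] at this
  have hmu : ∀ r ∈ (res ℓ e ∩ res ℓ e') \ res ℓ (e ∩ e'), mu κ ℓ r ≤ 1 / w := by
    intro r hr
    obtain ⟨h4, b, hb1, b', hb3, hb2, hb4⟩ := key r hr
    have h5 : κ ℓ / ℓ ≤ 1 / w := div_le_div₀ zero_le_one h1 hw hℓ
    unfold mu
    split_ifs with h
    · subst h
      have h6 : 1 ≤ κ ℓ := not_lt.1 fun h7 => hb h7 b hb1 b' hb3 ⟨by simpa using hb2,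
        by simpa using hb4⟩
      linarith
    · linarith
  calc _ ≤ ((res ℓ e ∩ res ℓ e') \ res ℓ (e ∩ e')).card • (1 / w) := sum_le_card_nsmul _ _ _ hmu
    _ ≤ nn ℓ e e' / w := by
      rw [nsmul_eq_mul, mul_one_div]
      exact div_le_div_of_nonneg_right (by exact_mod_cast hcard) hw.le

theorem alg {a b c g u k t : ℝ} (hu : u = a + b - c - g) (hca : c ≤ a) (hcb : c ≤ b) (hc : 0 ≤ c)
    (hg : 0 ≤ g) (hk : 0 < k) (ha : k / 2 ≤ 1 - a) (hb : k / 2 ≤ 1 - b) (ht : g ≤ t) :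
    (1 - u) * (1 - c) ≤ (1 - a) * (1 - b) * exp (4 * t / k ^ 2) := by
  have h1 : (1 - u) * (1 - c) ≤ (1 - a) * (1 - b) + g := by
    have := mul_nonneg (sub_nonneg.2 hca) (sub_nonneg.2 hcb)
    have := mul_nonneg hg hc
    subst hu
    nlinarith
  have h2 : k / 2 * (k / 2) ≤ (1 - a) * (1 - b) := mul_le_mul ha hb (by positivity) (by linarith)
  have h3 : 0 ≤ 4 * t / k ^ 2 := div_nonneg (by linarith) (by positivity)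
  have h4 : k / 2 * (k / 2) * (4 * t / k ^ 2) = t := by field_simp; ring
  have h5 := mul_le_mul_of_nonneg_right h2 h3
  have h6 : 0 ≤ (1 - a) * (1 - b) := le_trans (by positivity) h2
  have h7 := mul_le_mul_of_nonneg_left (add_one_le_exp (4 * t / k ^ 2)) h6
  nlinarith

theorem loc {LL : Finset ℕ} {κ : ℕ → ℝ} {κ₁ w : ℝ} {L : ℕ} (hm : Model LL κ κ₁ w L) {ℓ : ℕ}
    (hℓ : ℓ ∈ LL) (e e' : Finset ℤ) (he : e.card ≤ L) (he' : e'.card ≤ L)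
    (hb : κ ℓ < 1 → ∀ b ∈ e \ e', ∀ b' ∈ e' \ e, ¬ ((ℓ : ℤ) ∣ b ∧ (ℓ : ℤ) ∣ b')) :
    (1 - ∑ r ∈ res ℓ (e ∪ e'), mu κ ℓ r) * (1 - ∑ r ∈ res ℓ (e ∩ e'), mu κ ℓ r) ≤
      (1 - ∑ r ∈ res ℓ e, mu κ ℓ r) * (1 - ∑ r ∈ res ℓ e', mu κ ℓ r) *
        exp (4 * (nn ℓ e e' / w) / κ₁ ^ 2) := by
  have hw : 0 < w := by linarith [hm.w3]
  have k1 := hm.kge ℓ hℓ
  have k2 := hm.kle ℓ hℓ
  have k0 : 0 ≤ κ ℓ := hm.k0.le.trans k1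
  have hl : 0 < (ℓ : ℝ) := hw.trans_le (hm.big ℓ hℓ)
  have hmu := mu_nonneg k0 k2
  have half : ∀ f : Finset ℤ, f.card ≤ L → κ₁ / 2 ≤ 1 - ∑ r ∈ res ℓ f, mu κ ℓ r := by
    intro f hf
    have h1 := sum_mu_le k2 (res ℓ f)
    have h2 : ((res ℓ f).card : ℝ) / ℓ ≤ 1 / 2 := by
      rw [div_le_div_iff₀ hl two_pos]
      have : ((res ℓ f).card : ℝ) ≤ L := by exact_mod_cast (card_res ℓ f).trans hf
      linarith [hm.wL, hm.big ℓ hℓ]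
    have h3 := mul_le_mul_of_nonneg_left h2 k0
    linarith
  refine alg (g := ∑ r ∈ (res ℓ e ∩ res ℓ e') \ res ℓ (e ∩ e'), mu κ ℓ r) ?_
    (sum_le_sum_of_subset_of_nonneg ((res_inter ℓ e e').trans inter_subset_left)
      fun r _ _ => hmu r)
    (sum_le_sum_of_subset_of_nonneg ((res_inter ℓ e e').trans inter_subset_right)
      fun r _ _ => hmu r)
    (sum_nonneg fun r _ => hmu r) (sum_nonneg fun r _ => hmu r) hm.k0 (half e he) (half e' he')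
    (extra k2 hw (hm.big ℓ hℓ) e e' hb)
  have h1 := sum_union_inter (s₁ := res ℓ e) (s₂ := res ℓ e') (f := mu κ ℓ)
  have h2 := sum_sdiff (f := mu κ ℓ) (res_inter ℓ e e')
  rw [res_union]
  linarith

theorem loc_nonneg {LL : Finset ℕ} {κ : ℕ → ℝ} {κ₁ w : ℝ} {L : ℕ} (hm : Model LL κ κ₁ w L)
    {ℓ : ℕ} (hℓ : ℓ ∈ LL) (e : Finset ℤ) : 0 ≤ 1 - ∑ r ∈ res ℓ e, mu κ ℓ r := by
  have k0 : 0 ≤ κ ℓ := hm.k0.le.trans (hm.kge ℓ hℓ)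
  have hl : 0 < (ℓ : ℝ) := by exact_mod_cast (hm.prime ℓ hℓ).pos
  have h1 := sum_mu_le (hm.kle ℓ hℓ) (res ℓ e)
  have h2 : ((res ℓ e).card : ℝ) / ℓ ≤ 1 := by
    rw [div_le_one hl]
    have := card_le_card (show res ℓ e ⊆ range ℓ from fun r hr => mem_range.2 (mem_res.1 hr).1)
    rw [card_range] at this
    exact_mod_cast this
  have h3 := mul_le_mul_of_nonneg_left h2 k0
  linarith

/-- A nonzero integer of size at most `y` has at most `log y` prime divisors that are `≥ 3`. -/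
theorem card_div (LL : Finset ℕ) (hp : ∀ ℓ ∈ LL, ℓ.Prime ∧ (3 : ℝ) ≤ ℓ) (d : ℤ) (y : ℕ)
    (h0 : d ≠ 0) (hy : d.natAbs ≤ y) :
    ((LL.filter fun ℓ : ℕ => (ℓ : ℤ) ∣ d).card : ℝ) ≤ log y := by
  set S := LL.filter fun ℓ : ℕ => (ℓ : ℤ) ∣ d with hS
  have hN : d.natAbs ≠ 0 := Int.natAbs_ne_zero.2 h0
  have h1 : S ⊆ d.natAbs.primeFactors := fun ℓ hℓ => Nat.mem_primeFactors.2
    ⟨(hp ℓ (mem_filter.1 hℓ).1).1, Int.natCast_dvd.1 (mem_filter.1 hℓ).2, hN⟩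
  have h2 : ∏ ℓ ∈ S, ℓ ≤ y := (Nat.le_of_dvd (Nat.pos_of_ne_zero hN)
    ((prod_dvd_prod_of_subset _ _ _ h1).trans (Nat.prod_primeFactors_dvd _))).trans hy
  have h3 : exp (S.card : ℝ) ≤ y := by
    calc exp (S.card : ℝ) = ∏ ℓ ∈ S, exp 1 := by rw [prod_const, ← exp_nat_mul, mul_one]
      _ ≤ ∏ ℓ ∈ S, (ℓ : ℝ) := prod_le_prod (fun _ _ => (exp_pos _).le) fun ℓ hℓ => by
          linarith [exp_one_lt_d9, (hp ℓ (mem_filter.1 hℓ).1).2]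
      _ ≤ y := by rw [← Nat.cast_prod]; exact Nat.cast_le.2 h2
  exact (le_log_iff_exp_le ((exp_pos _).trans_le h3)).2 h3

theorem sum_nn (LL : Finset ℕ) (hp : ∀ ℓ ∈ LL, ℓ.Prime ∧ (3 : ℝ) ≤ ℓ) (y L : ℕ) (e e' : Finset ℤ)
    (h1 : e ⊆ Icc (1 : ℤ) y) (h2 : e' ⊆ Icc (1 : ℤ) y) (he : e.card ≤ L) (he' : e'.card ≤ L) :
    ∑ ℓ ∈ LL, (nn ℓ e e' : ℝ) ≤ L ^ 2 * log y := by
  have e1 : ∑ ℓ ∈ LL, (nn ℓ e e' : ℝ) = ∑ b ∈ (e \ e') ×ˢ (e' \ e),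
      ((LL.filter fun ℓ : ℕ => (ℓ : ℤ) ∣ b.1 - b.2).card : ℝ) := by
    simp only [nn, card_filter]
    push_cast
    exact sum_comm
  rw [e1]
  refine (sum_le_card_nsmul _ _ (log y) fun b hb => ?_).trans ?_
  · obtain ⟨hb1, hb2⟩ := mem_product.1 hb
    have h3 := mem_Icc.1 (h1 (mem_sdiff.1 hb1).1)
    have h4 := mem_Icc.1 (h2 (mem_sdiff.1 hb2).1)
    refine card_div LL hp _ y (sub_ne_zero.2 fun h => ?_) (by omega)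
    exact (mem_sdiff.1 hb1).2 (h ▸ (mem_sdiff.1 hb2).1)
  · rw [nsmul_eq_mul, card_product]
    refine mul_le_mul_of_nonneg_right ?_ (log_natCast_nonneg y)
    rw [sq]
    exact_mod_cast Nat.mul_le_mul ((card_le_card sdiff_subset).trans he)
      ((card_le_card sdiff_subset).trans he')

end B2

theorem stmtB2 (h : StmtB1) : StmtB2 := by
  intro LL κ κ₁ w L hm y e e' h1 h2 he he' hb
  have hP : ∀ f : Finset ℤ, Pb LL κ f = ∏ ℓ ∈ LL, (1 - ∑ r ∈ B2.res ℓ f, mu κ ℓ r) := by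
    intro f
    rw [(h LL κ κ₁ w L hm).2.2.1 f]
    refine prod_congr rfl fun ℓ _ => ?_
    congr 2
  have hw : 0 < w := by linarith [hm.w3]
  have hk := hm.k0
  rw [hP, hP, hP, hP, ← prod_mul_distrib, ← prod_mul_distrib]
  refine (prod_le_prod
    (fun ℓ hℓ => mul_nonneg (B2.loc_nonneg hm hℓ _) (B2.loc_nonneg hm hℓ _))
    fun ℓ hℓ => B2.loc hm hℓ e e' he he' (hb ℓ hℓ)).trans ?_
  rw [prod_mul_distrib, ← exp_sum]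
  refine mul_le_mul_of_nonneg_left (exp_le_exp.2 ?_) (prod_nonneg fun ℓ hℓ =>
    mul_nonneg (B2.loc_nonneg hm hℓ _) (B2.loc_nonneg hm hℓ _))
  have h3 := B2.sum_nn LL (fun ℓ hℓ => ⟨hm.prime ℓ hℓ, hm.w3.trans (hm.big ℓ hℓ)⟩) y L e e'
    h1 h2 he he'
  calc ∑ ℓ ∈ LL, 4 * ((B2.nn ℓ e e' : ℝ) / w) / κ₁ ^ 2
      = 4 * (∑ ℓ ∈ LL, (B2.nn ℓ e e' : ℝ)) / (w * κ₁ ^ 2) := by
        rw [mul_sum, sum_div]
        exact sum_congr rfl fun ℓ _ => by field_simp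
    _ ≤ _ := by
        rw [mul_assoc]
        exact div_le_div_of_nonneg_right (by linarith) (by positivity)

end Vale.Agent.N013L
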