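import Vale.Agent.N013L.Def

/-! Block C: the covering lemma for families of arithmetic patterns. -/

namespace Vale.Agent.N013L

open Finset Real Filter

namespace C

theorem mem_edge {E : Finset ℤ} {H : Finset ℕ} {p : ℕ} {n a : ℤ} :
    a ∈ edge E H p n ↔ (∃ h ∈ H, n + (h : ℤ) * p = a) ∧ a ∈ E := by
  rw [edge, mem_inter, mem_image]

theorem sum_edge {E : Finset ℤ} {H : Finset ℕ} {p y Hm : ℕ} {a : ℤ} (ha : a ∈ E)
    (hE : E ⊆ Icc (1 : ℤ) y) (hH : ∀ h ∈ H, h ≤ Hm) (hp : 0 < p) (hy : Hm * p ≤ y) (W g : ℤ → ℝ) :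
    ∑ n ∈ Icc (-(y : ℤ)) y, (if a ∈ edge E H p n then W n else 0) * g n =
      ∑ h ∈ H, W (a - (h : ℤ) * p) * g (a - (h : ℤ) * p) := by
  have e : (Icc (-(y : ℤ)) y).filter (fun n => a ∈ edge E H p n) =
      H.image fun h : ℕ => a - (h : ℤ) * p := by
    ext n
    rw [mem_filter, mem_edge, mem_image, mem_Icc]
    refine ⟨fun ⟨_, ⟨h, m, k⟩, _⟩ => ⟨h, m, by omega⟩, fun ⟨h, m, k⟩ => ?_⟩
    have a1 := mem_Icc.1 (hE ha)
    have a2 : h * p ≤ y := (Nat.mul_le_mul_right p (hH h m)).trans hy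
    have a3 : (h : ℤ) * p ≤ y := by exact_mod_cast a2
    have a4 : (0 : ℤ) ≤ (h : ℤ) * p := by positivity
    exact ⟨⟨by omega, by omega⟩, ⟨h, m, by omega⟩, ha⟩
  simp only [ite_mul, zero_mul]
  rw [← sum_filter, e, sum_image fun h _ h' _ k => ?_]
  have : (h : ℤ) * p = h' * p := by omega
  exact_mod_cast mul_right_cancel₀ (by exact_mod_cast hp.ne') this

end C

open C

theorem stmtC (hA : StmtA) (h1 : StmtB1) (hH1 : StmtH1) (hH2 : StmtH2) : StmtC := by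
  intro LL κ κ₁ w L E y H PP Hm W Wm ζ Λ₀ d₀ η f
  obtain ⟨b1, b2, -, b4, -⟩ := h1 _ _ _ _ _ f.model
  have pos : ∀ e : Finset ℤ, e.card ≤ L → 0 < Pb LL κ e := fun e c =>
    lt_of_lt_of_le (mul_pos (exp_pos _) (prod_pos fun a _ => prod_pos fun ℓ m =>
      f.model.k0.trans_le (f.model.kge ℓ (mem_filter.1 m).1))) (b4 e c)
  have cd : ∀ p n, (edge E H p n).card ≤ L := fun p n =>
    (card_le_card inter_subset_left).trans (card_image_le.trans f.hH)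
  have se : ∀ a ∈ E, ∀ p ∈ PP, ∀ g : ℤ → ℝ,
      ∑ n ∈ Icc (-(y : ℤ)) y, (if a ∈ edge E H p n then W p n else 0) * g n =
        ∑ h ∈ H, W p (a - (h : ℤ) * p) * g (a - (h : ℤ) * p) := fun a m p k g =>
    sum_edge m f.hE f.hHm (f.hP p k).1.pos (f.hP p k).2.2.2 (W p) g
  have s1 : ∀ a ∈ E, ∑ p ∈ PP, ∑ n ∈ Icc (-(y : ℤ)) y, (if a ∈ edge E H p n then W p n else 0) =
      ∑ p ∈ PP, ∑ h ∈ H, W p (a - (h : ℤ) * p) := fun a m => sum_congr rfl fun p k => by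
    simpa only [mul_one] using se a m p k fun _ => 1
  have η0 : 0 ≤ η := by
    refine le_trans ?_ f.hη
    have a1 : 0 < Λ₀ := (mul_pos_iff_of_pos_right (pos ∅ (Nat.zero_le _))).1
      (one_pos.trans_le (f.hΛ ∅ (empty_subset _) (Nat.zero_le _)))
    have a2 : 0 ≤ Wm := (f.hW 0 0).1.trans (f.hW 0 0).2
    have a3 : 0 < ζ := (Nat.cast_nonneg _).trans_lt f.hζ
    have a4 : 0 ≤ log (y : ℝ) := log_natCast_nonneg y
    have a5 : 0 < w := by linarith [f.model.w3]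
    exact add_nonneg (sub_nonneg.2 (one_le_exp (by positivity))) (by positivity)
  obtain ⟨F, p, q⟩ := hA _ (Om LL) (wt LL κ) (Sv LL) E (Icc (-(y : ℤ)) y) PP (edge E H) W L η d₀
    b1 b2 (fun p n => ⟨inter_subset_right, cd p n, (f.hW p n).1, pos _ (cd p n)⟩)
    (fun a _ => pos _ (by simpa using f.model.L1)) f.hW1 f.hd η0 (hH1 _ _ _ _ _ _ _ _ _ _ _ _ _ _ _ _ f)
    (fun a m => by
      rw [s1 a m]
      refine le_of_eq_of_le (sum_congr rfl fun p k => ?_) (hH2 _ _ _ _ _ _ _ _ _ _ _ _ _ _ _ _ f a m)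
      simp only [mul_assoc, ← mul_sum]
      rw [se a m p k]
      exact sum_congr rfl fun h _ => congrArg _ (sum_congr rfl fun p' k' => se a m p' k' _))
    fun a m => (s1 a m).symm ▸ f.hdeg a m
  refine ⟨F, p, fun ω m => (q ω m).imp fun n k U u => k U fun a c =>
    ⟨(u a c).1, (u a c).2.1, fun p r e => (u a c).2.2 p r ?_⟩⟩
  obtain ⟨⟨h, -, e⟩, -⟩ := mem_edge.1 e
  exact ⟨h, by rw [← e]; ring⟩

end Vale.Agent.N013L
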