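import Vale.Agent.N013L.Def2
import Vale.Agent.N013L.C

/-! Block C2: weights with large degrees for families of arithmetic patterns. -/

namespace Vale.Agent.N013L

open Finset Real Filter C

theorem stmtC2 (hA : StmtA2) (h1 : StmtB1) (hH1 : StmtH1b) (hH2 : StmtH2b) : StmtC2 := by
  intro LL κ κ₁ w L E y H PP Hm W Wm ζ Λ₀ d₀ η f
  obtain ⟨b1, b2, -, b4, -⟩ := h1 _ _ _ _ _ f.model
  have pos : ∀ e : Finset ℤ, e.card ≤ L → 0 < Pb LL κ e := fun e c =>
    lt_of_lt_of_le (mul_pos (exp_pos _) (prod_pos fun a _ => prod_pos fun ℓ m =>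
      f.model.k0.trans_le (f.model.kge ℓ (mem_filter.1 m).1))) (b4 e c)
  have cd : ∀ p n, (edge E H p n).card ≤ L := fun p n =>
    (card_le_card inter_subset_left).trans (card_image_le.trans f.hH)
  have se : ∀ a ∈ E, ∀ p ∈ PP, ∀ g : ℤ → ℝ,
      ∑ n ∈ Icc (-(y : ℤ)) y, (if a ∈ edge E H p n then W p n else 0) * g n =
        ∑ h ∈ H, W p (a - (h : ℤ) * p) * g (a - (h : ℤ) * p) := fun a m p k g =>
    sum_edge m f.hE f.hHm (f.hP p k).1.pos (f.hP p k).2.2.2 (W p) g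
  have s1 : ∀ a ∈ E, ∑ p ∈ PP, ∑ n ∈ Icc (-(y : ℤ)) y, (if a ∈ edge E H p n then W p n else 0) =
      ∑ p ∈ PP, ∑ h ∈ H, W p (a - (h : ℤ) * p) := fun a m => sum_congr rfl fun p k => by
    simpa only [mul_one] using se a m p k fun _ => 1
  have a1 : 0 < Λ₀ := (mul_pos_iff_of_pos_right (pos ∅ (Nat.zero_le _))).1
    (one_pos.trans_le (f.hΛ ∅ (empty_subset _) (Nat.zero_le _)))
  have a2 : 0 ≤ Wm := (f.hW 0 0).1.trans (f.hW 0 0).2
  have η0 : 0 ≤ η := by
    refine le_trans ?_ f.hη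
    have a0 := f.hd
    have a3 : 0 < ζ := (Nat.cast_nonneg _).trans_lt f.hζ
    have a4 : 0 ≤ log (y : ℝ) := log_natCast_nonneg y
    have a5 : 0 < w := by linarith [f.model.w3]
    exact add_nonneg (sub_nonneg.2 (one_le_exp (by positivity))) (by positivity)
  obtain ⟨F, p, q⟩ := hA _ (Om LL) (wt LL κ) (Sv LL) E (Icc (-(y : ℤ)) y) PP (edge E H) W L η d₀
    b1 b2 (fun p n => ⟨inter_subset_right, cd p n, (f.hW p n).1, pos _ (cd p n)⟩)
    (fun a _ => pos _ (by simpa using f.model.L1)) f.hW1 f.hd η0 (hH1 _ _ _ _ _ _ _ _ _ _ _ _ _ _ _ _ f)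
    (fun a m => by
      rw [s1 a m]
      refine le_of_eq_of_le (sum_congr rfl fun p k => ?_) (hH2 _ _ _ _ _ _ _ _ _ _ _ _ _ _ _ _ f a m)
      simp only [mul_assoc, ← mul_sum]
      rw [se a m p k]
      exact sum_congr rfl fun h _ => congrArg _ (sum_congr rfl fun p' k' => se a m p' k' _))
    fun a m => (s1 a m).symm ▸ f.hdeg a m
  refine ⟨F, p, fun ω m => (q ω m).imp fun r k => ⟨fun p n => ⟨(k.1 p n).1, (k.1 p n).2.trans ?_⟩,
    k.2.1, fun U u => k.2.2 U fun a c => ⟨(u a c).1, (u a c).2.1, ?_⟩⟩⟩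
  · have h0 : 0 < Pb LL κ (edge E H p n) := pos _ (cd p n)
    have h3 := f.hΛ _ (inter_subset_right : edge E H p n ⊆ E) (cd p n)
    change W p n / Pb LL κ (edge E H p n) ≤ _
    rw [div_le_iff₀ h0, mul_assoc]
    exact (f.hW p n).2.trans (le_mul_of_one_le_right a2 h3)
  · refine lt_of_eq_of_lt (sum_congr rfl fun p k' => ?_) (u a c).2.2
    simpa only [mul_one] using sum_edge (u a c).1 f.hE f.hHm (f.hP p k').1.pos (f.hP p k').2.2.2
      (r p) fun _ => 1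

end Vale.Agent.N013L
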