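import Vale.Agent.N013L.Def
import Vale.Agent.P031.Mertens

/-! Block D: the exceptional set (Rankin's trick). -/

namespace Vale.Agent.N013L

open Finset Real Filter

namespace D

lemma card_mult (y b : ℕ) : ((((Ioc 0 y).filter fun a => b ∣ a).card : ℕ) : ℝ) ≤ (y : ℝ) / b := by
  rw [Nat.Ioc_filter_dvd_card_eq_div]
  exact Nat.cast_div_le

lemma card_union_mult (y : ℕ) (S : Finset ℕ) (g : ℕ → ℕ) :
    (((S.biUnion fun b => (Ioc 0 y).filter fun a => g b ∣ a).card : ℕ) : ℝ) ≤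
      ∑ b ∈ S, (y : ℝ) / g b := by
  refine le_trans (Nat.cast_le.2 card_biUnion_le) ?_
  rw [Nat.cast_sum]
  exact sum_le_sum fun b _ => card_mult y (g b)

/-- the completely multiplicative function `n ↦ n ^ r` -/
noncomputable def pw (r : ℝ) : ℕ →* ℝ where
  toFun n := (n : ℝ) ^ r
  map_one' := by simp
  map_mul' m n := by
    rw [Nat.cast_mul, Real.mul_rpow (Nat.cast_nonneg _) (Nat.cast_nonneg _)]

lemma sum_factored (s : Finset ℕ) {r : ℝ} (hr : r < 0) (B : Finset ℕ)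
    (hB : ∀ b ∈ B, b ∈ Nat.factoredNumbers s) :
    ∑ b ∈ B, (b : ℝ) ^ r ≤ ∏ p ∈ s with p.Prime, (1 - (p : ℝ) ^ r)⁻¹ := by
  have h := (EulerProduct.summable_and_hasSum_factoredNumbers_prod_filter_prime_geometric
    (f := pw r) (fun {p} hp => by
      show ‖(p : ℝ) ^ r‖ < 1
      rw [Real.norm_of_nonneg (Real.rpow_nonneg (Nat.cast_nonneg _) _)]
      exact Real.rpow_lt_one_of_one_lt_of_neg (by exact_mod_cast hp.one_lt) hr) s).2
  have h2 := sum_le_hasSum (B.subtype fun b => b ∈ Nat.factoredNumbers s)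
    (fun b _ => Real.rpow_nonneg (Nat.cast_nonneg (b : ℕ)) r) h
  have h3 := Finset.sum_subtype_of_mem (fun b : ℕ => (b : ℝ) ^ r) hB
  exact h3.symm.le.trans h2

lemma inv_le_exp {u : ℝ} (h0 : 0 ≤ u) (h1 : u ≤ 1 / 2) : (1 - u)⁻¹ ≤ exp (2 * u) := by
  have h2 : 0 < 1 - u := by linarith only [h1]
  have h3 := Real.add_one_le_exp (2 * u)
  rw [inv_le_iff_one_le_mul₀ h2]
  nlinarith only [h0, h1, h3, mul_le_mul_of_nonneg_right h3 h2.le]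

/-- Rankin's bound. -/
lemma rankin (s : Finset ℕ) {η B₀ : ℝ} (h0 : 0 ≤ η) (h1 : η < 1) (hB₀ : 0 < B₀)
    (hs : ∀ p ∈ s, 6 ≤ p ∧ (p : ℝ) ^ η ≤ 3) (B : Finset ℕ)
    (hB : ∀ b ∈ B, b ∈ Nat.factoredNumbers s ∧ B₀ ≤ b) :
    ∑ b ∈ B, 1 / (b : ℝ) ≤ B₀ ^ (-η) * exp (6 * ∑ p ∈ s with p.Prime, 1 / (p : ℝ)) := by
  have e1 : ∑ b ∈ B, 1 / (b : ℝ) ≤ B₀ ^ (-η) * ∑ b ∈ B, (b : ℝ) ^ (η - 1) := by
    rw [mul_sum]
    refine sum_le_sum fun b hb => ?_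
    have hb0 : (0 : ℝ) < b := hB₀.trans_le (hB b hb).2
    have e : 1 / (b : ℝ) = (b : ℝ) ^ (-η) * (b : ℝ) ^ (η - 1) := by
      rw [← Real.rpow_add hb0, show -η + (η - 1) = -1 by ring, Real.rpow_neg_one, one_div]
    rw [e]
    exact mul_le_mul_of_nonneg_right
      (Real.rpow_le_rpow_of_nonpos hB₀ (hB b hb).2 (by linarith only [h0]))
      (Real.rpow_nonneg hb0.le _)
  refine e1.trans (mul_le_mul_of_nonneg_left ?_ (Real.rpow_nonneg hB₀.le _))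
  refine (sum_factored s (by linarith only [h1]) B fun b hb => (hB b hb).1).trans ?_
  rw [mul_sum, Real.exp_sum]
  have key : ∀ p ∈ s, 0 ≤ (p : ℝ) ^ (η - 1) ∧ (p : ℝ) ^ (η - 1) ≤ 3 * (1 / (p : ℝ)) ∧
      3 * (1 / (p : ℝ)) ≤ 1 / 2 := by
    intro p hp
    have h6 : (6 : ℝ) ≤ p := by exact_mod_cast (hs p hp).1
    have hp0 : (0 : ℝ) < p := by linarith only [h6]
    refine ⟨Real.rpow_nonneg hp0.le _, ?_, ?_⟩
    · rw [Real.rpow_sub_one hp0.ne', div_eq_mul_one_div]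
      exact mul_le_mul_of_nonneg_right (hs p hp).2 (by positivity)
    · rw [mul_one_div, div_le_iff₀ hp0]
      linarith only [h6]
  refine prod_le_prod (fun p hp => ?_) fun p hp => ?_
  · obtain ⟨-, k2, k3⟩ := key p (mem_filter.1 hp).1
    exact inv_nonneg.2 (by linarith only [k2, k3])
  · obtain ⟨k1, k2, k3⟩ := key p (mem_filter.1 hp).1
    exact (inv_le_exp k1 (k2.trans k3)).trans (exp_le_exp.2 (by linarith only [k2]))

/-- The three cases. -/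
lemma cover (y : ℕ) (LL : Finset ℕ) (hL : ∀ ℓ ∈ LL, ℓ.Prime) {z X B₀ : ℝ} (hz : 0 ≤ z)
    {a : ℕ} (h1 : 1 ≤ a) (hy : a ≤ y) (hp : ∀ ℓ : ℕ, ℓ.Prime → ℓ ∣ a → ℓ ∈ LL)
    (hc : ∏ ℓ ∈ LL.filter (fun ℓ : ℕ => z < (ℓ : ℝ) ∧ ℓ ∣ a), (ℓ : ℝ) < X) :
    a ∈ Ioc 0 ⌊X * B₀⌋₊ ∪
      ((Ioo ⌊z⌋₊ (y + 1)).biUnion fun ℓ => (Ioc 0 y).filter fun a => ℓ ^ 2 ∣ a) ∪
      (((Ioc 0 y).filter fun b : ℕ =>
          b ∈ Nat.factoredNumbers (LL.filter fun ℓ : ℕ => (ℓ : ℝ) ≤ z) ∧ B₀ ≤ (b : ℝ)).biUnion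
        fun b => (Ioc 0 y).filter fun a => b ∣ a) := by
  set T := LL.filter (fun ℓ : ℕ => z < (ℓ : ℝ) ∧ ℓ ∣ a) with hT
  obtain ⟨b, hb⟩ : ∏ ℓ ∈ T, ℓ ∣ a :=
    Finset.prod_primes_dvd a (fun ℓ h => (hL ℓ (mem_filter.1 h).1).prime)
      fun ℓ h => (mem_filter.1 h).2.2
  have ha : a ∈ Ioc 0 y := mem_Ioc.2 ⟨h1, hy⟩
  have hba : b ∣ a := Dvd.intro_left _ hb.symm
  have hb0 : 0 < b := Nat.pos_of_dvd_of_pos hba h1
  rw [mem_union, mem_union]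
  by_cases k1 : B₀ ≤ (b : ℝ)
  · by_cases k2 : b ∈ Nat.factoredNumbers (LL.filter fun ℓ : ℕ => (ℓ : ℝ) ≤ z)
    · right
      refine mem_biUnion.2 ⟨b, mem_filter.2 ⟨mem_Ioc.2 ⟨hb0, (Nat.le_of_dvd h1 hba).trans hy⟩,
        k2, k1⟩, mem_filter.2 ⟨ha, hba⟩⟩
    · left; right
      rw [Nat.mem_factoredNumbers'] at k2
      push Not at k2
      obtain ⟨ℓ, l1, l2, l3⟩ := k2
      have l4 : ℓ ∈ LL := hp ℓ l1 (l2.trans hba)
      have l5 : z < (ℓ : ℝ) := by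
        by_contra l6
        exact l3 (mem_filter.2 ⟨l4, not_lt.1 l6⟩)
      have l7 : ℓ ∈ T := mem_filter.2 ⟨l4, l5, l2.trans hba⟩
      have l8 : ℓ ^ 2 ∣ a := by
        rw [hb, sq]
        exact mul_dvd_mul (dvd_prod_of_mem _ l7) l2
      refine mem_biUnion.2 ⟨ℓ, mem_Ioo.2 ⟨(Nat.floor_lt hz).2 l5, ?_⟩, mem_filter.2 ⟨ha, l8⟩⟩
      exact Nat.lt_succ_of_le ((Nat.le_of_dvd h1 (l2.trans hba)).trans hy)
  · left; left
    refine mem_Ioc.2 ⟨h1, Nat.le_floor ?_⟩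
    have e : (a : ℝ) = (∏ ℓ ∈ T, (ℓ : ℝ)) * b := by
      rw [← Nat.cast_prod, ← Nat.cast_mul, ← hb]
    have e0 : 0 ≤ ∏ ℓ ∈ T, (ℓ : ℝ) := prod_nonneg fun _ _ => Nat.cast_nonneg _
    rw [e]
    exact mul_le_mul hc.le (not_le.1 k1).le (Nat.cast_nonneg _) (e0.trans hc.le)

lemma count (y : ℕ) (LL : Finset ℕ) (hL : ∀ ℓ ∈ LL, ℓ.Prime ∧ 6 ≤ ℓ) {z X B₀ : ℝ}
    (hz : 1 < log z) (hz0 : 0 < z) (hX : 0 ≤ X) (hB₀ : 0 < B₀) (V : Finset ℕ)
    (hV : ∀ a ∈ V, 1 ≤ a ∧ a ≤ y ∧ (∀ ℓ : ℕ, ℓ.Prime → ℓ ∣ a → ℓ ∈ LL) ∧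
      ∏ ℓ ∈ LL.filter (fun ℓ : ℕ => z < (ℓ : ℝ) ∧ ℓ ∣ a), (ℓ : ℝ) < X) :
    (V.card : ℝ) ≤ X * B₀ + 2 * y / z +
      y * (B₀ ^ (-(log z)⁻¹) * exp (6 * ∑ p ∈ LL, 1 / (p : ℝ))) := by
  have hsub := fun a (h : a ∈ V) => cover y LL (fun ℓ h => (hL ℓ h).1) (B₀ := B₀) hz0.le (hV a h).1
    (hV a h).2.1 (hV a h).2.2.1 (hV a h).2.2.2
  have hl0 : 0 < log z := by linarith only [hz]
  refine le_trans (Nat.cast_le.2 ((card_le_card hsub).trans ((card_union_le _ _).trans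
    (Nat.add_le_add_right (card_union_le _ _) _)))) ?_
  rw [Nat.cast_add, Nat.cast_add]
  refine add_le_add (add_le_add ?_ ?_) ?_
  · rw [Nat.card_Ioc, Nat.sub_zero]
    exact Nat.floor_le (mul_nonneg hX hB₀.le)
  · refine (card_union_mult y _ fun ℓ => ℓ ^ 2).trans ?_
    have e : ∑ ℓ ∈ Ioo ⌊z⌋₊ (y + 1), (y : ℝ) / ((ℓ ^ 2 : ℕ) : ℝ) =
        y * ∑ ℓ ∈ Ioo ⌊z⌋₊ (y + 1), ((ℓ : ℝ) ^ 2)⁻¹ := by
      rw [mul_sum]
      exact sum_congr rfl fun ℓ _ => by rw [Nat.cast_pow, div_eq_mul_inv]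
    rw [e]
    have h2 : (2 : ℝ) / (⌊z⌋₊ + 1) ≤ 2 / z :=
      div_le_div_of_nonneg_left zero_le_two hz0 (Nat.lt_floor_add_one z).le
    calc _ ≤ (y : ℝ) * (2 / z) :=
          mul_le_mul_of_nonneg_left ((sum_Ioo_inv_sq_le _ _).trans h2) (Nat.cast_nonneg _)
      _ = 2 * y / z := by ring
  · refine (card_union_mult y _ fun b => b).trans ?_
    simp only [div_eq_mul_one_div (y : ℝ)]
    rw [← mul_sum]
    refine mul_le_mul_of_nonneg_left ?_ (Nat.cast_nonneg _)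
    refine (rankin (LL.filter fun ℓ : ℕ => (ℓ : ℝ) ≤ z) (η := (log z)⁻¹) (inv_nonneg.2 hl0.le)
      (inv_lt_one_of_one_lt₀ hz) hB₀ (fun p hp => ⟨(hL p (mem_filter.1 hp).1).2, ?_⟩) _
      fun b hb => (mem_filter.1 hb).2).trans ?_
    · refine (Real.rpow_le_rpow (Nat.cast_nonneg _) (mem_filter.1 hp).2
        (inv_nonneg.2 hl0.le)).trans ?_
      rw [Real.rpow_def_of_pos hz0, mul_inv_cancel₀ hl0.ne']
      exact Real.exp_one_lt_three.le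
    · refine mul_le_mul_of_nonneg_left (exp_le_exp.2 ?_) (Real.rpow_nonneg hB₀.le _)
      refine mul_le_mul_of_nonneg_left ?_ (by norm_num)
      exact sum_le_sum_of_subset_of_nonneg ((filter_subset _ _).trans (filter_subset _ _))
        fun _ _ _ => by positivity

lemma sum_LL (x : ℕ) (hx : 3 ≤ x) : ∑ p ∈ LLx x, 1 / (p : ℝ) ≤ tt x + 21 := by
  have h := (abs_le.1 (P031.mertens_explicit (x : ℝ) (by exact_mod_cast hx))).2
  rw [Nat.floor_natCast] at h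
  have h2 : ∑ p ∈ LLx x, 1 / (p : ℝ) ≤ ∑ p ∈ (range (x + 1)).filter Nat.Prime, (1 : ℝ) / p := by
    refine sum_le_sum_of_subset_of_nonneg (fun p hp => ?_) fun _ _ _ => by positivity
    have h3 := mem_filter.1 (mem_filter.1 hp).1
    exact mem_filter.2 ⟨mem_range.2 (Nat.lt_succ_of_le (mem_Ioc.1 h3.1).2), h3.2⟩
  unfold tt
  linarith only [h, h2]

end D

theorem stmtD : StmtD := by
  have ht : Tendsto (fun x : ℕ => tt x) atTop atTop :=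
    Real.tendsto_log_atTop.comp (Real.tendsto_log_atTop.comp tendsto_natCast_atTop_atTop)
  filter_upwards [ht.eventually_ge_atTop 500, eventually_ge_atTop 3] with x ht hx U hU
  have hx3 : (3 : ℝ) ≤ x := by exact_mod_cast hx
  have hx0 : (0 : ℝ) < x := by linarith only [hx3]
  have hΛ0 : 0 < log (x : ℝ) := Real.log_pos (by linarith only [hx3])
  have hS := D.sum_LL x hx
  have hΛ : log (x : ℝ) = exp (tt x) := (Real.exp_log hΛ0).symm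
  have hxe : (x : ℝ) = exp (log x) := (Real.exp_log hx0).symm
  have hzl : log (zz x) = log x / (20 * tt x) := Real.log_exp _
  have hz0 : 0 < zz x := Real.exp_pos _
  set t := tt x with ht_def
  set Λ := log (x : ℝ) with hΛ_def
  have ht0 : 0 < t := by linarith only [ht]
  have hbig : 80 * t ^ 2 ≤ Λ := by
    have h1 := Real.pow_div_factorial_le_exp t ht0.le 3
    rw [← hΛ] at h1
    norm_num [Nat.factorial] at h1
    nlinarith only [h1, ht, mul_le_mul_of_nonneg_left ht (sq_nonneg t)]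
  have hz4 : 4 * t ≤ Λ / (20 * t) := by
    rw [le_div_iff₀ (by positivity)]
    nlinarith only [hbig]
  have hinj : Set.InjOn Int.toNat (U : Set ℤ) := by
    intro a ha b hb h
    have h1 := (hU a ha).1
    have h2 := (hU b hb).1
    omega
  have hcount := D.count ⌊(x : ℝ) * Λ⌋₊ (LLx x) (fun ℓ h => ⟨(mem_filter.1 (mem_filter.1 h).1).2, by
      have h1 : Λ ^ 7 < (ℓ : ℝ) := (mem_filter.1 h).2
      have h2 : (6 : ℝ) ≤ Λ := by nlinarith only [hbig, ht]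
      have h3 : Λ ≤ Λ ^ 7 := le_self_pow₀ (by linarith only [h2]) (by norm_num)
      have h4 : (6 : ℝ) ≤ ℓ := by linarith only [h1, h2, h3]
      exact_mod_cast h4⟩)
    (z := zz x) (X := (x : ℝ) ^ (1 / 3 : ℝ)) (B₀ := (x : ℝ) ^ (1 / 2 : ℝ))
    (by rw [hzl]; linarith only [hz4, ht]) hz0 (Real.rpow_nonneg hx0.le _)
    (Real.rpow_pos_of_pos hx0 _) (U.image Int.toNat) (by
      intro n hn
      obtain ⟨a, ha, rfl⟩ := mem_image.1 hn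
      obtain ⟨a1, a2, a3, a4⟩ := hU a ha
      have e : ((a.toNat : ℕ) : ℤ) = a := Int.toNat_of_nonneg (by omega)
      have e2 : ((a.toNat : ℕ) : ℝ) = (a : ℝ) := by exact_mod_cast congrArg (Int.cast (R := ℝ)) e
      have e3 : ∀ ℓ : ℕ, ℓ ∣ a.toNat ↔ (ℓ : ℤ) ∣ a := fun ℓ => by
        rw [← Int.natCast_dvd_natCast, e]
      refine ⟨by omega, Nat.le_floor (e2 ▸ a2), fun ℓ l1 l2 => a3 ℓ l1 ((e3 ℓ).1 l2), ?_⟩
      simp only [e3]
      exact a4)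
  rw [card_image_of_injOn hinj] at hcount
  have hy : ((⌊(x : ℝ) * Λ⌋₊ : ℕ) : ℝ) ≤ exp (Λ + t) := by
    rw [Real.exp_add, ← hxe, ← hΛ]
    exact Nat.floor_le (by positivity)
  have hT : (x : ℝ) / Λ ^ 2 = exp (Λ - 2 * t) := by
    rw [Real.exp_sub, ← hxe, show 2 * t = (2 : ℕ) * t by norm_num, Real.exp_nat_mul, ← hΛ]
  have c1 : (x : ℝ) ^ (1 / 3 : ℝ) * (x : ℝ) ^ (1 / 2 : ℝ) ≤ exp (Λ - 2 * t) := by
    rw [← Real.rpow_add hx0, Real.rpow_def_of_pos hx0]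
    exact exp_le_exp.2 (by nlinarith only [hbig, ht])
  have c2 : 2 * ((⌊(x : ℝ) * Λ⌋₊ : ℕ) : ℝ) / zz x ≤ exp (Λ - 2 * t) := by
    rw [div_le_iff₀ hz0]
    have h1 : exp (4 * t) ≤ zz x := exp_le_exp.2 hz4
    have h2 : (2 : ℝ) ≤ exp t := by linarith only [Real.add_one_le_exp t, ht]
    calc _ ≤ exp t * exp (Λ + t) := mul_le_mul h2 hy (Nat.cast_nonneg _) (Real.exp_pos _).le
      _ = exp (Λ - 2 * t) * exp (4 * t) := by
        rw [← Real.exp_add, ← Real.exp_add]; congr 1; ring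
      _ ≤ _ := mul_le_mul_of_nonneg_left h1 (Real.exp_pos _).le
  have c3 : ((⌊(x : ℝ) * Λ⌋₊ : ℕ) : ℝ) * (((x : ℝ) ^ (1 / 2 : ℝ)) ^ (-(log (zz x))⁻¹) *
      exp (6 * ∑ p ∈ LLx x, 1 / (p : ℝ))) ≤ exp (Λ - 2 * t) := by
    have h1 : ((x : ℝ) ^ (1 / 2 : ℝ)) ^ (-(log (zz x))⁻¹) = exp (-(10 * t)) := by
      rw [← Real.rpow_mul hx0.le, Real.rpow_def_of_pos hx0, hzl]
      congr 1
      field_simp
      ring
    rw [h1, ← Real.exp_add]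
    refine (mul_le_mul_of_nonneg_right hy (Real.exp_pos _).le).trans ?_
    rw [← Real.exp_add]
    exact exp_le_exp.2 (by linarith only [hS, ht])
  rw [mul_div_assoc, hT]
  linarith only [hcount, c1, c2, c3]

end Vale.Agent.N013L
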