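import Vale.Agent.N013L.Def
import Vale.Agent.P031.Mertens

/-! Block S: facts on the parameters, and the Chebyshev bounds. -/

namespace Vale.Agent.N013L

open Finset Real Filter

namespace S

theorem mem_pr {a b p : ℕ} : p ∈ pr a b ↔ (a < p ∧ p ≤ b) ∧ p.Prime := by simp [pr]

/-- primes in `(n, 4 n]` -/
theorem cheb : ∀ᶠ n : ℕ in atTop, (n : ℝ) ≤ (pr n (4 * n)).card * log (4 * n) := by
  have h1 := (isLittleO_log_rpow_atTop (r := 1 / 2) (by norm_num)).bound (c := 1 / 100)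
    (by norm_num)
  filter_upwards [(tendsto_natCast_atTop_atTop.const_mul_atTop (r := (4 : ℝ))
    (by norm_num)).eventually h1, eventually_ge_atTop 100] with n a hn
  have n1 : (100 : ℝ) ≤ n := by exact_mod_cast hn
  have l0 : 0 ≤ log (4 * n : ℝ) := log_nonneg (by linarith)
  rw [norm_of_nonneg l0, ← sqrt_eq_rpow, norm_of_nonneg (sqrt_nonneg _)] at a
  have b := Chebyshev.theta_ge (4 * n)
  have c := Chebyshev.theta_le_log4_mul_x (x := n) (by linarith)
  have d : Chebyshev.theta (4 * n : ℕ) =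
      Chebyshev.theta n + ∑ p ∈ pr n (4 * n), log (p : ℝ) := by
    rw [Chebyshev.theta, Chebyshev.theta, Nat.floor_natCast, Nat.floor_natCast, pr, sum_filter,
      sum_filter, sum_filter, sum_Ioc_consecutive _ (Nat.zero_le _) (by omega)]
  have e : ∑ p ∈ pr n (4 * n), log (p : ℝ) ≤ (pr n (4 * n)).card * log (4 * n) := by
    rw [← nsmul_eq_mul]
    refine sum_le_card_nsmul _ _ _ fun p m => ?_
    rw [mem_pr] at m
    exact log_le_log (by exact_mod_cast m.2.pos) (by exact_mod_cast m.1.2)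
  push_cast at b d
  have s := sq_sqrt (x := (4 * n : ℝ)) (by linarith)
  have s0 := sqrt_nonneg (4 * n : ℝ)
  have f : log (4 * n + 1 : ℝ) ≤ 2 * log (4 * n) := by
    rw [← show log ((4 * n : ℝ) ^ 2) = 2 * log (4 * n) by rw [log_pow]; norm_num]
    exact log_le_log (by linarith) (by nlinarith)
  have g : log 4 = 2 * log 2 := by
    rw [show (4 : ℝ) = 2 ^ 2 by norm_num, log_pow]
    norm_num
  have k := log_two_gt_d9
  have s1 : 1 ≤ √(4 * n : ℝ) := by nlinarith
  have u : √(4 * n : ℝ) * log (4 * n) ≤ 1 / 100 * (4 * n) := by nlinarith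
  rw [g] at c
  nlinarith

theorem card_pr (y : ℕ) : (pr 0 y).card = Nat.primeCounting y := by
  rw [← Nat.primesLE_card_eq_primeCounting]
  congr 1
  ext p
  simp only [mem_pr, Nat.mem_primesLE]
  exact ⟨fun h => ⟨h.1.2, h.2⟩, fun h => ⟨⟨h.2.pos, h.1⟩, h.2⟩⟩

theorem ev : ∀ᶠ x : ℕ in atTop,
    100 ≤ tt x ∧ 36 * log (tt x) ≤ tt x ∧ exp (tt x) = log x ∧ exp (log x) = x := by
  have a : Tendsto (fun x : ℕ => log x) atTop atTop :=
    tendsto_log_atTop.comp tendsto_natCast_atTop_atTop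
  have b : Tendsto tt atTop atTop := tendsto_log_atTop.comp a
  filter_upwards [b.eventually_ge_atTop 100, b.eventually
    (isLittleO_log_id_atTop.bound (c := 1 / 36) (by norm_num)), a.eventually_gt_atTop 0,
    eventually_gt_atTop 0] with x p q r s
  refine ⟨p, ?_, exp_log r, exp_log (by exact_mod_cast s)⟩
  rw [id, norm_of_nonneg (by linarith : 0 ≤ tt x)] at q
  linarith [le_norm_self (log (tt x))]

theorem recip (z : ℝ) (hz : 3 ≤ z) :
    |∑ p ∈ pr 0 ⌊z⌋₊, (1 : ℝ) / p - log (log z)| ≤ 21 := by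
  convert P031.mertens_explicit z hz using 4
  ext p
  simp only [mem_pr, mem_filter, mem_range, Nat.lt_succ_iff]
  exact ⟨fun h => ⟨h.1.2, h.2⟩, fun h => ⟨⟨h.2.pos, h.1⟩, h.2⟩⟩

theorem logs (n : ℕ) (hn : 1 ≤ n) : ∑ p ∈ pr 0 n, log (p : ℝ) / p ≤ log n + log 4 := by
  convert P003.sum_log_div_le n hn using 2
  ext p
  simp only [mem_pr, P003.PLE, mem_filter, mem_range, Nat.lt_succ_iff]
  exact ⟨fun h => ⟨h.1.2, h.2⟩, fun h => ⟨⟨h.2.pos, h.1⟩, h.2⟩⟩

theorem mem_LL {x ℓ : ℕ} : ℓ ∈ LLx x ↔ ((0 < ℓ ∧ ℓ ≤ x) ∧ ℓ.Prime) ∧ log x ^ 7 < (ℓ : ℝ) := by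
  rw [LLx, mem_filter, mem_pr]

theorem ka_ge {x ℓ : ℕ} (s : 0 ≤ ss x) (h : 0 < ℓ) : exp (-(ss x * log ℓ)) ≤ ka x ℓ := by
  have l : 0 ≤ log (ℓ : ℝ) := log_natCast_nonneg ℓ
  unfold ka
  split_ifs
  · exact exp_le_one_iff.2 (neg_nonpos.2 (mul_nonneg s l))
  · rw [rpow_def_of_pos (by exact_mod_cast h)]
    exact le_of_eq (congrArg _ (by ring))

theorem ka_le {x ℓ : ℕ} (s : 0 ≤ ss x) (h : 0 < ℓ) : ka x ℓ ≤ 1 := by
  unfold ka
  split_ifs
  · exact le_rfl
  · exact rpow_le_one_of_one_le_of_nonpos (by exact_mod_cast h) (neg_nonpos.2 s)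

theorem cc_pos (x : ℕ) (a : ℤ) : 0 < cc x a :=
  prod_pos fun ℓ m => by exact_mod_cast (mem_LL.1 (mem_filter.1 m).1).1.1.1

theorem kap_eq (x : ℕ) (a : ℤ) : kap (LLx x) (ka x) a = exp (-(ss x * log (cc x a))) := by
  rw [neg_mul_eq_neg_mul, mul_comm, ← rpow_def_of_pos (cc_pos x a), cc,
    ← finsetProd_rpow _ _ fun _ _ => Nat.cast_nonneg _, kap, prod_filter, prod_filter]
  refine prod_congr rfl fun ℓ _ => ?_
  unfold ka
  by_cases p : (ℓ : ℤ) ∣ a <;> by_cases q : zz x < (ℓ : ℝ) <;> simp [p, q, not_le.2, not_lt.1]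

theorem cc_le (x : ℕ) {a : ℤ} (h : 1 ≤ a) : cc x a ≤ a := by
  have : ∏ ℓ ∈ (LLx x).filter (fun ℓ : ℕ => zz x < (ℓ : ℝ) ∧ (ℓ : ℤ) ∣ a), ℓ ∣ a.natAbs :=
    Finset.prod_primes_dvd _ (fun ℓ m => (mem_LL.1 (mem_filter.1 m).1).1.2.prime)
      fun ℓ m => Int.natCast_dvd.1 (mem_filter.1 m).2.2
  have k := Nat.le_of_dvd (by omega) this
  rw [cc, ← Nat.cast_prod]
  calc _ ≤ (a.natAbs : ℝ) := by exact_mod_cast k
    _ = a := by rw [← Int.cast_natCast, Int.natAbs_of_nonneg (by omega)]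

end S

open S

theorem stmtCh : StmtCh := by
  have m : ∀ c : ℕ, 0 < c → Tendsto (fun n : ℕ => c * n) atTop atTop := fun c h =>
    tendsto_id.const_mul_atTop' h
  have h := (tendsto_natCast_atTop_atTop (R := ℝ)).eventually
    (Chebyshev.eventually_primeCounting_le one_pos)
  filter_upwards [cheb, (m 4 (by norm_num)).eventually cheb, (m 16 (by norm_num)).eventually cheb,
    eventually_forall_ge_atTop.2 h, eventually_ge_atTop 64] with x a b c d hx
  have x1 : (64 : ℝ) ≤ x := by exact_mod_cast hx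
  have l : 0 < log (x : ℝ) := log_pos (by linarith)
  have k : ∀ r : ℝ, 0 < r → r ≤ 64 * x → log r ≤ 2 * log x := fun r p q => by
    rw [← show log ((x : ℝ) ^ 2) = 2 * log x by rw [log_pow]; norm_num]
    exact log_le_log p (by nlinarith)
  rw [← mul_assoc] at b c
  push_cast at a b c
  refine ⟨?_, ?_, ?_, fun y hy => ?_⟩
  · rw [div_le_iff₀ (by positivity)]
    exact a.trans (mul_le_mul_of_nonneg_left (k _ (by linarith) (by linarith)) (Nat.cast_nonneg _))
  · have := b.trans (mul_le_mul_of_nonneg_left (k _ (by linarith) (by linarith))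
      (Nat.cast_nonneg _))
    rw [div_le_iff₀ l]
    linarith
  · have := c.trans (mul_le_mul_of_nonneg_left (k _ (by linarith) (by linarith))
      (Nat.cast_nonneg _))
    rw [div_le_iff₀ l]
    linarith
  · have e := d y hy
    have y1 : (x : ℝ) ≤ y := by exact_mod_cast hy
    have g : log 4 + 1 ≤ 4 := by linarith [log_le_sub_one_of_pos (show (0 : ℝ) < 4 by norm_num)]
    rw [Nat.floor_natCast] at e
    rw [card_pr]
    refine e.trans ?_
    gcongr

theorem stmtS (h : StmtB1) : StmtS := by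
  refine ⟨126 * exp 46, by positivity, ev.mono fun x ⟨t1, t2, t3, t4⟩ => ?_⟩
  have t0 : 0 < tt x := by linarith
  have lt1 : 1 ≤ log (tt x) := by
    rw [le_log_iff_exp_le t0]
    linarith [exp_one_lt_d9]
  have L4 : tt x ^ 4 / 24 ≤ log x := by
    have := pow_div_factorial_le_exp (tt x) t0.le 4
    rwa [t3, show ((Nat.factorial 4 : ℕ) : ℝ) = 24 by norm_num [Nat.factorial]] at this
  have t5 : 10000 ≤ tt x ^ 2 := by nlinarith
  have L2 : 400 * tt x ^ 2 ≤ log x := by nlinarith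
  have L1 : 3 ≤ log x := by linarith
  have L0 : 0 < log x := by linarith
  have sL : ss x * log x = 18 * log (tt x) := div_mul_cancel₀ _ L0.ne'
  have s0 : 0 < ss x := div_pos (by linarith) L0
  have s1 : ss x ≤ 1 := (div_le_one L0).2 (by nlinarith)
  have L7 : 2 * log x ≤ log x ^ 7 := by
    have : 3 ≤ log x ^ 6 := L1.trans (le_self_pow₀ (by linarith) (by norm_num))
    nlinarith
  have x3 : (3 : ℝ) ≤ x := by linarith [add_one_le_exp (log x)]
  have M : ∀ L : ℕ, 1 ≤ L → (L : ℝ) ≤ log x →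
      Model (LLx x) (ka x) (1 / tt x ^ 18) (log x ^ 7) L := fun L a b =>
    ⟨fun ℓ m => (mem_LL.1 m).1.2, fun ℓ m => (mem_LL.1 m).2.le, by linarith, by linarith, a,
      by positivity, fun ℓ m => by
        have m := (mem_LL.1 m).1.1
        refine le_trans ?_ (ka_ge s0.le m.1)
        have : log (ℓ : ℝ) ≤ log x := log_le_log (by exact_mod_cast m.1) (by exact_mod_cast m.2)
        rw [one_div, ← exp_log (pow_pos t0 18), ← exp_neg, log_pow, exp_le_exp]
        push_cast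
        nlinarith, fun ℓ m => ka_le s0.le (mem_LL.1 m).1.1.1⟩
  have k0 : ∀ ℓ, 0 < ℓ → 0 ≤ ka x ℓ := fun ℓ m => (exp_pos _).le.trans (ka_ge s0.le m)
  refine ⟨?_, M, fun L e a b c d => ?_, fun a b => ?_, fun a => ⟨prod_nonneg fun ℓ m => ?_,
    prod_le_one (fun ℓ m => ?_) fun ℓ m => ka_le s0.le (mem_LL.1 (mem_filter.1 m).1).1.1.1⟩⟩
  · have si : 1 ≤ (ss x)⁻¹ := one_le_inv₀ s0 |>.2 s1
    have su : (ss x)⁻¹ ≤ log x := by
      rw [inv_le_iff_one_le_mul₀' s0]
      linarith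
    have s3 : 3 ≤ (ss x)⁻¹ := by
      rw [le_inv_comm₀ (by norm_num) s0, ss, div_le_iff₀ L0]
      nlinarith
    set u := exp (ss x)⁻¹
    have u3 : 3 ≤ u := by linarith [add_one_le_exp (ss x)⁻¹]
    have ux : ⌊u⌋₊ ≤ x := Nat.floor_le_of_le (t4 ▸ exp_le_exp.2 su)
    have u1 : 1 ≤ ⌊u⌋₊ := Nat.le_floor (by push_cast; linarith)
    have a1 := (abs_le.1 (recip u u3)).1
    have a2 := (abs_le.1 (recip (log x ^ 7) (by linarith))).2
    have a3 := logs _ u1
    have a4 : log (⌊u⌋₊ : ℝ) ≤ (ss x)⁻¹ := by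
      rw [← log_exp (ss x)⁻¹]
      exact log_le_log (by exact_mod_cast u1) (Nat.floor_le (by linarith))
    have a5 : log 4 ≤ 3 := by linarith [log_le_sub_one_of_pos (show (0 : ℝ) < 4 by norm_num)]
    have b1 : ∑ p ∈ pr 0 ⌊u⌋₊, ((1 : ℝ) / p - ss x * (log p / p)) ≤
        ∑ p ∈ pr 0 ⌊u⌋₊, ka x p / p := sum_le_sum fun p m => by
      have m := (mem_pr.1 m).1.1
      rw [← mul_div_assoc, ← sub_div]
      refine div_le_div_of_nonneg_right (le_trans ?_ (ka_ge s0.le m)) (Nat.cast_nonneg _)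
      linarith [add_one_le_exp (-(ss x * log p))]
    have b2 : ∑ p ∈ pr 0 ⌊u⌋₊, ka x p / p ≤
        ∑ p ∈ pr 0 ⌊log x ^ 7⌋₊, (1 : ℝ) / p + ∑ p ∈ LLx x, ka x p / p := by
      rw [← sum_filter_add_sum_filter_not _ fun p : ℕ => (p : ℝ) ≤ log x ^ 7]
      refine add_le_add ((sum_le_sum fun p m => div_le_div_of_nonneg_right
        (ka_le s0.le (mem_pr.1 (mem_filter.1 m).1).1.1) (Nat.cast_nonneg _)).trans
        (sum_le_sum_of_subset_of_nonneg (fun p m => ?_) fun _ _ _ => by positivity))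
        (sum_le_sum_of_subset_of_nonneg (fun p m => ?_) fun p m _ =>
          div_nonneg (k0 p (mem_LL.1 m).1.1.1) (Nat.cast_nonneg _))
      · rw [mem_filter, mem_pr] at m
        exact mem_pr.2 ⟨⟨m.1.1.1, Nat.le_floor m.2⟩, m.1.2⟩
      · rw [mem_filter, mem_pr] at m
        exact mem_LL.2 ⟨⟨⟨m.1.1.1, m.1.1.2.trans ux⟩, m.1.2⟩, not_le.1 m.2⟩
    have b3 : sig (LLx x) (ka x) ≤ exp (-∑ p ∈ LLx x, ka x p / p) := by
      rw [← sum_neg_distrib, exp_sum]
      refine prod_le_prod (fun p m => ?_) fun p _ => by linarith [add_one_le_exp (-(ka x p / p))]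
      have m := (mem_LL.1 m).1.1.1
      rw [sub_nonneg, div_le_one (by exact_mod_cast m)]
      exact (ka_le s0.le m).trans (by exact_mod_cast m)
    rw [sum_sub_distrib, ← mul_sum] at b1
    have b4 : ss x * ∑ p ∈ pr 0 ⌊u⌋₊, log (p : ℝ) / p ≤ 4 := by
      refine (mul_le_mul_of_nonneg_left (a3.trans (add_le_add a4 a5)) s0.le).trans ?_
      rw [mul_add, mul_inv_cancel₀ s0.ne']
      linarith
    rw [log_exp, log_inv] at a1
    rw [log_pow] at a2
    refine b3.trans ?_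
    have e : 126 * exp 46 * tt x * log (tt x) / log x =
        exp (46 + log (ss x) + log ((7 : ℕ) * tt x)) := by
      rw [exp_add, exp_add, exp_log s0, exp_log (by positivity), ss]
      push_cast
      ring
    rw [e, exp_le_exp]
    unfold tt at *
    linarith
  · have t6 : 1 ≤ tt x ^ 3 := one_le_pow₀ (by linarith)
    have p := (h _ _ _ _ _ (M L a (b.trans (div_le_self L0.le t6)))).2.2.2.1 e c
    have r : ∑ ℓ ∈ LLx x, (1 : ℝ) / ℓ ≤ 2 * tt x := by
      have := (abs_le.1 (recip x x3)).2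
      rw [Nat.floor_natCast] at this
      refine (sum_le_sum_of_subset_of_nonneg (filter_subset _ _) fun _ _ _ => by positivity).trans ?_
      unfold tt at *
      linarith
    have q : exp (-tt x) ^ e.card ≤ ∏ a ∈ e, kap (LLx x) (ka x) a := by
      rw [← prod_const]
      refine prod_le_prod (fun _ _ => (exp_pos _).le) fun a m => ?_
      have : log (cc x a) ≤ 2 * log x := by
        rw [log_le_iff_le_exp (cc_pos x a), two_mul, exp_add, t4]
        refine (cc_le x (d a m).1).trans ((d a m).2.trans ?_)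
        gcongr
        linarith [add_one_le_exp (log x)]
      rw [kap_eq, exp_le_exp]
      nlinarith
    refine le_trans ?_ (mul_le_mul_of_nonneg_left
      ((mul_le_mul_of_nonneg_left q (exp_pos _).le).trans p) (exp_pos _).le)
    rw [← exp_nat_mul, ← exp_add, ← exp_add, one_le_exp_iff]
    have c' : (e.card : ℝ) ≤ L := by exact_mod_cast c
    have z : L * tt x ≤ log x / tt x ^ 2 := by
      rw [le_div_iff₀ (by positivity)] at b ⊢
      linarith [show L * tt x * tt x ^ 2 = L * tt x ^ 3 by ring]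
    have L' : (0 : ℝ) ≤ L := Nat.cast_nonneg _
    rw [mul_div_assoc]
    nlinarith [mul_le_mul_of_nonneg_left r L', mul_le_mul_of_nonneg_right c' t0.le]
  · have := log_le_log (rpow_pos_of_pos (by linarith) _) b
    rw [log_rpow (by linarith)] at this
    rw [kap_eq, one_div, ← exp_log (pow_pos t0 6), ← exp_neg, log_pow, exp_le_exp]
    push_cast
    nlinarith
  · exact k0 ℓ (mem_LL.1 (mem_filter.1 m).1).1.1.1
  · exact k0 ℓ (mem_LL.1 (mem_filter.1 m).1).1.1.1

end Vale.Agent.N013L
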