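import Vale.Agent.N013L.Def2
import Vale.Agent.N013L.D
import Vale.Agent.N013L.S

/-! Blocks D and S for the longer interval. -/

namespace Vale.Agent.N013L

open Finset Real Filter

lemma DSb.pow7 : ∀ᶠ x : ℕ in atTop, 3 ≤ log x ^ 7 ∧ log x ^ 7 ≤ x := by
  have a : Tendsto (fun x : ℕ => log x) atTop atTop :=
    tendsto_log_atTop.comp tendsto_natCast_atTop_atTop
  filter_upwards [a.eventually_ge_atTop 40320, eventually_gt_atTop 0] with x h hx
  have h1 := pow_div_factorial_le_exp (log x) (by linarith) 8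
  rw [exp_log (by exact_mod_cast hx), show ((Nat.factorial 8 : ℕ) : ℝ) = 40320 by
    norm_num [Nat.factorial]] at h1
  have h2 : log x ≤ log x ^ 7 := le_self_pow₀ (by linarith) (by norm_num)
  refine ⟨by linarith, le_trans ?_ h1⟩
  rw [le_div_iff₀ (by norm_num), pow_succ (log x) 7]
  exact mul_le_mul_of_nonneg_left h (by positivity)

lemma DSb.sum_LL (x : ℕ) (hx : 3 ≤ x) (ht : exp 42 ≤ tt x)
    (h7 : 3 ≤ log x ^ 7 ∧ log x ^ 7 ≤ x) : ∑ p ∈ LLx x, 1 / (p : ℝ) ≤ tt x := by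
  have a1 := (abs_le.1 (S.recip x (by exact_mod_cast hx))).2
  have a2 := (abs_le.1 (S.recip (log x ^ 7) h7.1)).1
  rw [Nat.floor_natCast] at a1
  have b : ∑ p ∈ pr 0 ⌊log x ^ 7⌋₊, (1 : ℝ) / p + ∑ p ∈ LLx x, 1 / (p : ℝ) =
      ∑ p ∈ pr 0 x, (1 : ℝ) / p := by
    rw [← sum_filter_add_sum_filter_not (pr 0 x) fun p : ℕ => (p : ℝ) ≤ log x ^ 7]
    congr 2
    · ext p
      simp only [mem_filter, S.mem_pr]
      constructor
      · intro m
        have h1 := (Nat.le_floor_iff (by linarith [h7.1])).1 m.1.2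
        exact ⟨⟨⟨m.1.1, by exact_mod_cast h1.trans h7.2⟩, m.2⟩, h1⟩
      · exact fun m => ⟨⟨m.1.1.1, Nat.le_floor m.2⟩, m.1.2⟩
    · ext p
      simp only [LLx, mem_filter, not_le]
  have e0 : 0 < exp (42 : ℝ) := exp_pos _
  have c : 42 ≤ log (log (log x ^ 7)) := by
    rw [log_pow, le_log_iff_exp_le (by unfold tt at ht; push_cast; linarith)]
    unfold tt at ht
    push_cast
    linarith
  unfold tt
  linarith

theorem stmtDb : StmtDb := by
  have ht : Tendsto (fun x : ℕ => tt x) atTop atTop :=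
    Real.tendsto_log_atTop.comp (Real.tendsto_log_atTop.comp tendsto_natCast_atTop_atTop)
  filter_upwards [ht.eventually_ge_atTop 800, ht.eventually_ge_atTop (exp 42), eventually_ge_atTop 3,
    DSb.pow7] with x ht ht2 hx h7 U hU
  have hx3 : (3 : ℝ) ≤ x := by exact_mod_cast hx
  have hx0 : (0 : ℝ) < x := by linarith only [hx3]
  have hΛ0 : 0 < log (x : ℝ) := Real.log_pos (by linarith only [hx3])
  have hS := DSb.sum_LL x hx ht2 h7
  have hΛ : log (x : ℝ) = exp (tt x) := (Real.exp_log hΛ0).symm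
  have hxe : (x : ℝ) = exp (log x) := (Real.exp_log hx0).symm
  have hzl : log (zz x) = log x / (20 * tt x) := Real.log_exp _
  have hz0 : 0 < zz x := Real.exp_pos _
  set t := tt x with ht_def
  set Λ := log (x : ℝ) with hΛ_def
  have ht0 : 0 < t := by linarith only [ht]
  have hbig : 120 * t ^ 2 ≤ Λ := by
    have h1 := Real.pow_div_factorial_le_exp t ht0.le 3
    rw [← hΛ] at h1
    norm_num [Nat.factorial] at h1
    nlinarith only [h1, ht, mul_le_mul_of_nonneg_left ht (sq_nonneg t), sq_nonneg t]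
  have hz4 : 5 * t ≤ Λ / (20 * t) := by
    rw [le_div_iff₀ (by positivity)]
    nlinarith only [hbig, sq_nonneg t]
  have hinj : Set.InjOn Int.toNat (U : Set ℤ) := by
    intro a ha b hb h
    have h1 := (hU a ha).1
    have h2 := (hU b hb).1
    omega
  have hcount := D.count ⌊(x : ℝ) * Λ ^ 2⌋₊ (LLx x) (fun ℓ h => ⟨(mem_filter.1 (mem_filter.1 h).1).2, by
      have h1 : Λ ^ 7 < (ℓ : ℝ) := (mem_filter.1 h).2
      have h2 : (6 : ℝ) ≤ Λ := by nlinarith only [hbig, ht]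
      have h3 : Λ ≤ Λ ^ 7 := le_self_pow₀ (by linarith only [h2]) (by norm_num)
      have h4 : (6 : ℝ) ≤ ℓ := by linarith only [h1, h2, h3]
      exact_mod_cast h4⟩)
    (z := zz x) (X := (x : ℝ) ^ (1 / 3 : ℝ)) (B₀ := (x : ℝ) ^ (1 / 2 : ℝ))
    (by rw [hzl]; linarith only [hz4, ht]) hz0 (Real.rpow_nonneg hx0.le _)
    (Real.rpow_pos_of_pos hx0 _) (U.image Int.toNat) (by
      intro n hn
      obtain ⟨a, ha, rfl⟩ := mem_image.1 hn
      obtain ⟨a1, a2, a3, a4⟩ := hU a ha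
      have e : ((a.toNat : ℕ) : ℤ) = a := Int.toNat_of_nonneg (by omega)
      have e2 : ((a.toNat : ℕ) : ℝ) = (a : ℝ) := by exact_mod_cast congrArg (Int.cast (R := ℝ)) e
      have e3 : ∀ ℓ : ℕ, ℓ ∣ a.toNat ↔ (ℓ : ℤ) ∣ a := fun ℓ => by
        rw [← Int.natCast_dvd_natCast, e]
      refine ⟨by omega, Nat.le_floor (e2 ▸ a2), fun ℓ l1 l2 => a3 ℓ l1 ((e3 ℓ).1 l2), ?_⟩
      simp only [e3]
      exact a4)
  rw [card_image_of_injOn hinj] at hcount
  have hy : ((⌊(x : ℝ) * Λ ^ 2⌋₊ : ℕ) : ℝ) ≤ exp (Λ + 2 * t) := by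
    rw [Real.exp_add, ← hxe, show 2 * t = (2 : ℕ) * t by norm_num, Real.exp_nat_mul, ← hΛ]
    exact Nat.floor_le (by positivity)
  have hT : (x : ℝ) / Λ ^ 2 = exp (Λ - 2 * t) := by
    rw [Real.exp_sub, ← hxe, show 2 * t = (2 : ℕ) * t by norm_num, Real.exp_nat_mul, ← hΛ]
  have c1 : (x : ℝ) ^ (1 / 3 : ℝ) * (x : ℝ) ^ (1 / 2 : ℝ) ≤ exp (Λ - 2 * t) := by
    rw [← Real.rpow_add hx0, Real.rpow_def_of_pos hx0]
    exact exp_le_exp.2 (by nlinarith only [hbig, ht])
  have c2 : 2 * ((⌊(x : ℝ) * Λ ^ 2⌋₊ : ℕ) : ℝ) / zz x ≤ exp (Λ - 2 * t) := by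
    rw [div_le_iff₀ hz0]
    have h1 : exp (5 * t) ≤ zz x := exp_le_exp.2 hz4
    have h2 : (2 : ℝ) ≤ exp t := by linarith only [Real.add_one_le_exp t, ht]
    calc _ ≤ exp t * exp (Λ + 2 * t) := mul_le_mul h2 hy (Nat.cast_nonneg _) (Real.exp_pos _).le
      _ = exp (Λ - 2 * t) * exp (5 * t) := by
        rw [← Real.exp_add, ← Real.exp_add]; congr 1; ring
      _ ≤ _ := mul_le_mul_of_nonneg_left h1 (Real.exp_pos _).le
  have c3 : ((⌊(x : ℝ) * Λ ^ 2⌋₊ : ℕ) : ℝ) * (((x : ℝ) ^ (1 / 2 : ℝ)) ^ (-(log (zz x))⁻¹) *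
      exp (6 * ∑ p ∈ LLx x, 1 / (p : ℝ))) ≤ exp (Λ - 2 * t) := by
    have h1 : ((x : ℝ) ^ (1 / 2 : ℝ)) ^ (-(log (zz x))⁻¹) = exp (-(10 * t)) := by
      rw [← Real.rpow_mul hx0.le, Real.rpow_def_of_pos hx0, hzl]
      congr 1
      field_simp
      ring
    rw [h1, ← Real.exp_add]
    refine (mul_le_mul_of_nonneg_right hy (Real.exp_pos _).le).trans ?_
    rw [← Real.exp_add]
    exact exp_le_exp.2 (by linarith only [hS, ht])
  rw [mul_div_assoc, hT]
  linarith only [hcount, c1, c2, c3]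

open S in
theorem stmtSb (h : StmtB1) : StmtSb := by
  obtain ⟨C, -, hS⟩ := stmtS h
  filter_upwards [ev, hS] with x ⟨t1, t2, t3, t4⟩ ⟨_, M, _⟩ L e a b c d
  have t0 : 0 < tt x := by linarith
  have lt1 : 1 ≤ log (tt x) := by
    rw [le_log_iff_exp_le t0]
    linarith [exp_one_lt_d9]
  have L4 : tt x ^ 4 / 24 ≤ log x := by
    have := pow_div_factorial_le_exp (tt x) t0.le 4
    rwa [t3, show ((Nat.factorial 4 : ℕ) : ℝ) = 24 by norm_num [Nat.factorial]] at this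
  have t5 : 10000 ≤ tt x ^ 2 := by nlinarith
  have L2 : 400 * tt x ^ 2 ≤ log x := by nlinarith
  have L1 : 6 ≤ log x := by linarith
  have L0 : 0 < log x := by linarith
  have sL : ss x * log x = 18 * log (tt x) := div_mul_cancel₀ _ L0.ne'
  have s0 : 0 < ss x := div_pos (by linarith) L0
  have x3 : (3 : ℝ) ≤ x := by linarith [add_one_le_exp (log x)]
  have L3 : log x ^ 2 ≤ x := by
    have := pow_div_factorial_le_exp (log x) L0.le 3
    rw [t4, show ((Nat.factorial 3 : ℕ) : ℝ) = 6 by norm_num [Nat.factorial]] at this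
    nlinarith [sq_nonneg (log x)]
  have t6 : 1 ≤ tt x ^ 3 := one_le_pow₀ (by linarith)
  have p := (h _ _ _ _ _ (M L a (b.trans (div_le_self L0.le t6)))).2.2.2.1 e c
  have r : ∑ ℓ ∈ LLx x, (1 : ℝ) / ℓ ≤ 2 * tt x := by
    have := (abs_le.1 (recip x x3)).2
    rw [Nat.floor_natCast] at this
    refine (sum_le_sum_of_subset_of_nonneg (filter_subset _ _) fun _ _ _ => by positivity).trans ?_
    unfold tt at *
    linarith
  have q : exp (-tt x) ^ e.card ≤ ∏ a ∈ e, kap (LLx x) (ka x) a := by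
    rw [← prod_const]
    refine prod_le_prod (fun _ _ => (exp_pos _).le) fun a m => ?_
    have : log (cc x a) ≤ 2 * log x := by
      rw [log_le_iff_le_exp (cc_pos x a), two_mul, exp_add, t4]
      refine (cc_le x (d a m).1).trans ((d a m).2.trans ?_)
      gcongr
    rw [kap_eq, exp_le_exp]
    nlinarith
  refine le_trans ?_ (mul_le_mul_of_nonneg_left
    ((mul_le_mul_of_nonneg_left q (exp_pos _).le).trans p) (exp_pos _).le)
  rw [← exp_nat_mul, ← exp_add, ← exp_add, one_le_exp_iff]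
  have c' : (e.card : ℝ) ≤ L := by exact_mod_cast c
  have z : L * tt x ≤ log x / tt x ^ 2 := by
    rw [le_div_iff₀ (by positivity)] at b ⊢
    linarith [show L * tt x * tt x ^ 2 = L * tt x ^ 3 by ring]
  have L' : (0 : ℝ) ≤ L := Nat.cast_nonneg _
  rw [mul_div_assoc]
  nlinarith [mul_le_mul_of_nonneg_left r L', mul_le_mul_of_nonneg_right c' t0.le]

end Vale.Agent.N013L
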