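import Mathlib

/-! A lower bound for Jacobsthal's function: definitions and the statements of the blocks. -/

namespace Vale.Agent.N013L

open Finset Real Filter

/-! ### Block A: covering with likelihood-ratio weights (abstract) -/

open Classical in
/-- indicator of: all members of `e` survive -/
noncomputable def ind {Ω : Type} (S : ℤ → Ω → Prop) (e : Finset ℤ) (ω : Ω) : ℝ :=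
  if ∀ a ∈ e, S a ω then 1 else 0

/-- probability that all members of `e` survive -/
noncomputable def Pr {Ω : Type} (s : Finset Ω) (pw : Ω → ℝ) (S : ℤ → Ω → Prop) (e : Finset ℤ) : ℝ :=
  ∑ ω ∈ s, pw ω * ind S e ω

def StmtA : Prop := ∀ (Ω : Type) (s : Finset Ω) (pw : Ω → ℝ) (S : ℤ → Ω → Prop) (E I : Finset ℤ)
  (PP : Finset ℕ) (e : ℕ → ℤ → Finset ℤ) (W : ℕ → ℤ → ℝ) (L : ℕ) (η d₀ : ℝ),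
  (∀ ω ∈ s, 0 ≤ pw ω) → ∑ ω ∈ s, pw ω = 1 →
  (∀ p n, e p n ⊆ E ∧ (e p n).card ≤ L ∧ 0 ≤ W p n ∧ 0 < Pr s pw S (e p n)) →
  (∀ a ∈ E, 0 < Pr s pw S {a}) → (∀ p ∈ PP, ∑ n ∈ I, W p n ≤ 1) → 4 ≤ d₀ → 0 ≤ η →
  (∀ p ∈ PP, ∑ n ∈ I, ∑ n' ∈ I,
      W p n * W p n' * (Pr s pw S (e p n ∪ e p n') / (Pr s pw S (e p n) * Pr s pw S (e p n'))) ≤
    (∑ n ∈ I, W p n) ^ 2 + η) →
  (∀ a ∈ E, ∑ p ∈ PP, ∑ n ∈ I, ∑ p' ∈ PP, ∑ n' ∈ I,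
      (if a ∈ e p n then W p n else 0) * (if a ∈ e p' n' then W p' n' else 0) *
        (Pr s pw S (e p n ∪ e p' n') / (Pr s pw S (e p n) * Pr s pw S (e p' n'))) ≤
    (1 + η) * (∑ p ∈ PP, ∑ n ∈ I, if a ∈ e p n then W p n else 0) ^ 2 / Pr s pw S {a}) →
  (∀ a ∈ E, d₀ * Pr s pw S {a} ≤ ∑ p ∈ PP, ∑ n ∈ I, if a ∈ e p n then W p n else 0) →
  ∃ F : Ω → ℝ, ∑ ω ∈ s, pw ω * F ω ≤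
      (exp (-d₀ / 8) + 4 * η) * ∑ a ∈ E, Pr s pw S {a} + 2 * L * PP.card * η ∧
    ∀ ω ∈ s, ∃ n : ℕ → ℤ, ∀ U : Finset ℤ,
      (∀ a ∈ U, a ∈ E ∧ S a ω ∧ ∀ p ∈ PP, a ∉ e p (n p)) → (U.card : ℝ) ≤ F ω

/-! ### Block B: tilted random residue classes -/

/-- choices of one residue for each `ℓ ∈ LL` -/
def Om (LL : Finset ℕ) : Finset (LL → ℕ) := Fintype.piFinset fun ℓ : LL => range (ℓ : ℕ)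

/-- the tilted law of the residue modulo `ℓ` -/
noncomputable def mu (κ : ℕ → ℝ) (ℓ r : ℕ) : ℝ := κ ℓ / ℓ + if r = 0 then 1 - κ ℓ else 0

noncomputable def wt (LL : Finset ℕ) (κ : ℕ → ℝ) (ω : LL → ℕ) : ℝ := ∏ ℓ : LL, mu κ ℓ (ω ℓ)

/-- `a` lies in none of the chosen classes -/
def Sv (LL : Finset ℕ) (a : ℤ) (ω : LL → ℕ) : Prop := ∀ ℓ : LL, ¬ ((ℓ : ℕ) : ℤ) ∣ a - (ω ℓ : ℤ)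

noncomputable def Pb (LL : Finset ℕ) (κ : ℕ → ℝ) (e : Finset ℤ) : ℝ :=
  Pr (Om LL) (wt LL κ) (Sv LL) e

noncomputable def kap (LL : Finset ℕ) (κ : ℕ → ℝ) (a : ℤ) : ℝ :=
  ∏ ℓ ∈ LL.filter (fun ℓ : ℕ => (ℓ : ℤ) ∣ a), κ ℓ

noncomputable def sig (LL : Finset ℕ) (κ : ℕ → ℝ) : ℝ := ∏ ℓ ∈ LL, (1 - κ ℓ / ℓ)

structure Model (LL : Finset ℕ) (κ : ℕ → ℝ) (κ₁ w : ℝ) (L : ℕ) : Prop where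
  prime : ∀ ℓ ∈ LL, ℓ.Prime
  big : ∀ ℓ ∈ LL, w ≤ (ℓ : ℝ)
  w3 : 3 ≤ w
  wL : 2 * (L : ℝ) ≤ w
  L1 : 1 ≤ L
  k0 : 0 < κ₁
  kge : ∀ ℓ ∈ LL, κ₁ ≤ κ ℓ
  kle : ∀ ℓ ∈ LL, κ ℓ ≤ 1

/-- probability law, lower bound for `Pb e`, upper bound for `Pb {a}` -/
def StmtB1 : Prop := ∀ (LL : Finset ℕ) (κ : ℕ → ℝ) (κ₁ w : ℝ) (L : ℕ), Model LL κ κ₁ w L →
  (∀ ω ∈ Om LL, 0 ≤ wt LL κ ω) ∧ ∑ ω ∈ Om LL, wt LL κ ω = 1 ∧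
  (∀ e : Finset ℤ, Pb LL κ e =
    ∏ ℓ ∈ LL, (1 - ∑ r ∈ (range ℓ).filter (fun r : ℕ => ∃ a ∈ e, (ℓ : ℤ) ∣ a - (r : ℤ)), mu κ ℓ r)) ∧
  (∀ e : Finset ℤ, e.card ≤ L →
    exp (-(2 * L * ∑ ℓ ∈ LL, (1 : ℝ) / ℓ)) * ∏ a ∈ e, kap LL κ a ≤ Pb LL κ e) ∧
  (∀ a : ℤ, Pb LL κ {a} ≤ sig LL κ * kap LL κ a)

/-- the correlation inequality -/
def StmtB2 : Prop := ∀ (LL : Finset ℕ) (κ : ℕ → ℝ) (κ₁ w : ℝ) (L : ℕ), Model LL κ κ₁ w L →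
  ∀ (y : ℕ) (e e' : Finset ℤ), e ⊆ Icc (1 : ℤ) y → e' ⊆ Icc (1 : ℤ) y → e.card ≤ L → e'.card ≤ L →
    (∀ ℓ ∈ LL, κ ℓ < 1 → ∀ b ∈ e \ e', ∀ b' ∈ e' \ e, ¬ ((ℓ : ℤ) ∣ b ∧ (ℓ : ℤ) ∣ b')) →
    Pb LL κ (e ∪ e') * Pb LL κ (e ∩ e') ≤
      Pb LL κ e * Pb LL κ e' * exp (4 * L ^ 2 * log y / (w * κ₁ ^ 2))

/-! ### Block C: families of arithmetic patterns -/

/-- the members of `E` of the form `n + h p`, `h ∈ H` -/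
def edge (E : Finset ℤ) (H : Finset ℕ) (p : ℕ) (n : ℤ) : Finset ℤ :=
  H.image (fun h : ℕ => n + (h : ℤ) * p) ∩ E

structure Fam (LL : Finset ℕ) (κ : ℕ → ℝ) (κ₁ w : ℝ) (L : ℕ) (E : Finset ℤ) (y : ℕ)
    (H PP : Finset ℕ) (Hm : ℕ) (W : ℕ → ℤ → ℝ) (Wm ζ Λ₀ d₀ η : ℝ) : Prop where
  model : Model LL κ κ₁ w L
  hE : E ⊆ Icc (1 : ℤ) y
  hH : H.card ≤ L
  hHm : ∀ h ∈ H, h ≤ Hm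
  hP : ∀ p ∈ PP, p.Prime ∧ Hm < p ∧ p ≤ y ∧ Hm * p ≤ y
  hζ : (Hm : ℝ) < ζ
  hW : ∀ p n, 0 ≤ W p n ∧ W p n ≤ Wm
  hW1 : ∀ p ∈ PP, ∑ n ∈ Icc (-(y : ℤ)) y, W p n ≤ 1
  hdiv : ∀ ℓ ∈ LL, κ ℓ < 1 → ∀ b ∈ E, (ℓ : ℤ) ∣ b → ζ ≤ (ℓ : ℝ)
  hΛ : ∀ e ⊆ E, e.card ≤ L → 1 ≤ Λ₀ * Pb LL κ e
  hd : 4 ≤ d₀
  hη : exp (4 * L ^ 2 * log y / (w * κ₁ ^ 2)) - 1 +
    Λ₀ * Wm * L ^ 3 * (1 + log y * ((2 * y + 1) / ζ + 1)) ≤ η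
  hdeg : ∀ a ∈ E, d₀ * Pb LL κ {a} ≤ ∑ p ∈ PP, ∑ h ∈ H, W p (a - (h : ℤ) * p)

def StmtH1 : Prop := ∀ (LL : Finset ℕ) (κ : ℕ → ℝ) (κ₁ w : ℝ) (L : ℕ) (E : Finset ℤ) (y : ℕ)
    (H PP : Finset ℕ) (Hm : ℕ) (W : ℕ → ℤ → ℝ) (Wm ζ Λ₀ d₀ η : ℝ),
  Fam LL κ κ₁ w L E y H PP Hm W Wm ζ Λ₀ d₀ η →
  ∀ p ∈ PP, ∑ n ∈ Icc (-(y : ℤ)) y, ∑ n' ∈ Icc (-(y : ℤ)) y,
      W p n * W p n' * (Pb LL κ (edge E H p n ∪ edge E H p n') /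
        (Pb LL κ (edge E H p n) * Pb LL κ (edge E H p n'))) ≤
    (∑ n ∈ Icc (-(y : ℤ)) y, W p n) ^ 2 + η

def StmtH2 : Prop := ∀ (LL : Finset ℕ) (κ : ℕ → ℝ) (κ₁ w : ℝ) (L : ℕ) (E : Finset ℤ) (y : ℕ)
    (H PP : Finset ℕ) (Hm : ℕ) (W : ℕ → ℤ → ℝ) (Wm ζ Λ₀ d₀ η : ℝ),
  Fam LL κ κ₁ w L E y H PP Hm W Wm ζ Λ₀ d₀ η →
  ∀ a ∈ E, ∑ p ∈ PP, ∑ h ∈ H, ∑ p' ∈ PP, ∑ h' ∈ H,
      W p (a - (h : ℤ) * p) * W p' (a - (h' : ℤ) * p') *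
        (Pb LL κ (edge E H p (a - (h : ℤ) * p) ∪ edge E H p' (a - (h' : ℤ) * p')) /
          (Pb LL κ (edge E H p (a - (h : ℤ) * p)) * Pb LL κ (edge E H p' (a - (h' : ℤ) * p')))) ≤
    (1 + η) * (∑ p ∈ PP, ∑ h ∈ H, W p (a - (h : ℤ) * p)) ^ 2 / Pb LL κ {a}

/-- On average at most `B` survivors in `E` are left after a good choice of one class modulo each
`p ∈ PP`. -/
def Good (LL : Finset ℕ) (κ : ℕ → ℝ) (E : Finset ℤ) (PP : Finset ℕ) (B : ℝ) : Prop :=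
  ∃ F : (LL → ℕ) → ℝ, ∑ ω ∈ Om LL, wt LL κ ω * F ω ≤ B ∧
    ∀ ω ∈ Om LL, ∃ n : ℕ → ℤ, ∀ U : Finset ℤ,
      (∀ a ∈ U, a ∈ E ∧ Sv LL a ω ∧ ∀ p ∈ PP, ¬ (p : ℤ) ∣ a - n p) → (U.card : ℝ) ≤ F ω

def StmtC : Prop := ∀ (LL : Finset ℕ) (κ : ℕ → ℝ) (κ₁ w : ℝ) (L : ℕ) (E : Finset ℤ) (y : ℕ)
    (H PP : Finset ℕ) (Hm : ℕ) (W : ℕ → ℤ → ℝ) (Wm ζ Λ₀ d₀ η : ℝ),
  Fam LL κ κ₁ w L E y H PP Hm W Wm ζ Λ₀ d₀ η →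
  Good LL κ E PP ((exp (-d₀ / 8) + 4 * η) * ∑ a ∈ E, Pb LL κ {a} + 2 * L * PP.card * η)

/-! ### Parameters -/

/-- primes in `(a, b]` -/
def pr (a b : ℕ) : Finset ℕ := (Ioc a b).filter Nat.Prime

noncomputable def tt (x : ℕ) : ℝ := log (log x)
noncomputable def LLx (x : ℕ) : Finset ℕ := (pr 0 x).filter fun ℓ : ℕ => log x ^ 7 < (ℓ : ℝ)
noncomputable def ss (x : ℕ) : ℝ := 18 * log (tt x) / log x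
noncomputable def zz (x : ℕ) : ℝ := exp (log x / (20 * tt x))
noncomputable def ka (x ℓ : ℕ) : ℝ := if (ℓ : ℝ) ≤ zz x then 1 else (ℓ : ℝ) ^ (-ss x)
/-- product of the primes of `LLx x` above `zz x` that divide `a` -/
noncomputable def cc (x : ℕ) (a : ℤ) : ℝ :=
  ∏ ℓ ∈ (LLx x).filter (fun ℓ : ℕ => zz x < (ℓ : ℝ) ∧ (ℓ : ℤ) ∣ a), (ℓ : ℝ)
noncomputable def E1 (x y : ℕ) : Finset ℤ :=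
  (Icc (1 : ℤ) y).filter fun a => (x : ℝ) ^ (1 / 3 : ℝ) ≤ cc x a
def E2 (x y : ℕ) : Finset ℤ := (pr x y).image fun q : ℕ => (q : ℤ)

/-- Block D: the exceptional set -/
def StmtD : Prop := ∀ᶠ x : ℕ in atTop, ∀ U : Finset ℤ,
  (∀ a ∈ U, 1 ≤ a ∧ (a : ℝ) ≤ x * log x ∧ (∀ ℓ : ℕ, ℓ.Prime → (ℓ : ℤ) ∣ a → ℓ ∈ LLx x) ∧
    cc x a < (x : ℝ) ^ (1 / 3 : ℝ)) → (U.card : ℝ) ≤ 3 * x / log x ^ 2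

/-- Block S: facts on the parameters -/
def StmtS : Prop := ∃ C : ℝ, 0 < C ∧ ∀ᶠ x : ℕ in atTop,
  sig (LLx x) (ka x) ≤ C * tt x * log (tt x) / log x ∧
  (∀ L : ℕ, 1 ≤ L → (L : ℝ) ≤ log x → Model (LLx x) (ka x) (1 / tt x ^ 18) (log x ^ 7) L) ∧
  (∀ (L : ℕ) (e : Finset ℤ), 1 ≤ L → (L : ℝ) ≤ log x / tt x ^ 3 → e.card ≤ L →
    (∀ a ∈ e, 1 ≤ a ∧ (a : ℝ) ≤ x * log x) →
    1 ≤ exp (5 * log x / tt x ^ 2) * Pb (LLx x) (ka x) e) ∧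
  (∀ a : ℤ, (x : ℝ) ^ (1 / 3 : ℝ) ≤ cc x a → kap (LLx x) (ka x) a ≤ 1 / tt x ^ 6) ∧
  (∀ a : ℤ, 0 ≤ kap (LLx x) (ka x) a ∧ kap (LLx x) (ka x) a ≤ 1)

/-- Block Ch: Chebyshev bounds -/
def StmtCh : Prop := ∀ᶠ x : ℕ in atTop,
  (x : ℝ) / (2 * log x) ≤ (pr x (4 * x)).card ∧
  (x : ℝ) / log x ≤ (pr (4 * x) (16 * x)).card ∧
  (x : ℝ) / log x ≤ (pr (16 * x) (64 * x)).card ∧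
  ∀ y : ℕ, x ≤ y → ((pr 0 y).card : ℝ) ≤ 4 * y / log x

/-- the sieve weights for the surviving primes (conclusion of block M) -/
def May : Prop := ∃ c : ℝ, 0 < c ∧ ∀ᶠ x : ℕ in atTop, ∀ y : ℕ, x ≤ y →
  ∃ (H : Finset ℕ) (W : ℕ → ℤ → ℝ), (H.card : ℝ) ≤ √(log x) ∧ (∀ h ∈ H, (h : ℝ) ≤ √(log x)) ∧
    (∀ p n, 0 ≤ W p n ∧ W p n ≤ 1 / √x) ∧
    (∀ p ∈ pr (4 * x) (16 * x), ∑ n ∈ Icc (-(y : ℤ)) y, W p n ≤ 1) ∧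
    ∀ q : ℕ, q.Prime → x < q →
      c * tt x * x / y ≤ ∑ p ∈ pr (4 * x) (16 * x), ∑ h ∈ H, W p ((q : ℤ) - (h : ℤ) * p)

def StmtF1 : Prop := ∀ᶠ x : ℕ in atTop, ∀ y : ℕ, x * log x / tt x ≤ y → (y : ℝ) ≤ x * log x →
  Good (LLx x) (ka x) (E1 x y) (pr x (4 * x)) (x / (4 * log x))

def StmtF2 : Prop := ∃ c : ℝ, 0 < c ∧ ∀ᶠ x : ℕ in atTop, ∀ y : ℕ, x * log x / tt x ≤ y →
  (y : ℝ) ≤ x * log x → (y : ℝ) ≤ c * x * log x / log (tt x) ^ 2 →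
  Good (LLx x) (ka x) (E2 x y) (pr (4 * x) (16 * x)) (x / (4 * log x))

/-- the covering theorem -/
def Cover : Prop := ∃ c : ℝ, 0 < c ∧ ∀ᶠ x : ℕ in atTop, ∃ a : ℕ → ℤ, ∀ m : ℤ, 1 ≤ m →
  (m : ℝ) ≤ c * x * log x / log (log (log x)) ^ 2 →
  ∃ p : ℕ, p.Prime ∧ p ≤ 64 * x ∧ (p : ℤ) ∣ m - a p

/-! ### The sieve weights -/

/-- Block T: tensor product of inequalities between sums of squares -/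
def StmtT : Prop := ∀ (ι O β γ : Type) [Fintype ι] [DecidableEq ι] [Fintype O]
  (U : ι → Finset β) (V : ι → Finset γ) (ρ : ι → β → ℝ) (a : ι → γ → ℝ)
  (ψ : ι → O → β → ℝ) (φ : ι → O → γ → ℝ),
  (∀ i, ∀ u ∈ U i, 0 ≤ ρ i u) → (∀ i, ∀ v ∈ V i, 0 ≤ a i v) →
  (∀ (i : ι) (c : O → ℝ), ∑ u ∈ U i, ρ i u * (∑ o, c o * ψ i o u) ^ 2 ≤
    ∑ v ∈ V i, a i v * (∑ o, c o * φ i o v) ^ 2) →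
  ∀ c : (ι → O) → ℝ,
    ∑ u ∈ Fintype.piFinset U, (∏ i, ρ i (u i)) * (∑ σ, c σ * ∏ i, ψ i (σ i) (u i)) ^ 2 ≤
    ∑ v ∈ Fintype.piFinset V, (∏ i, a i (v i)) * (∑ σ, c σ * ∏ i, φ i (σ i) (v i)) ^ 2

/-- configurations: each prime of `RR` is given to one of the `K` forms or to none -/
abbrev Cf (RR : Finset ℕ) (K : ℕ) : Type := RR → Option (Fin K)

noncomputable def rad {RR : Finset ℕ} {K : ℕ} (σ : Cf RR K) : ℝ :=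
  ∏ ℓ : RR, if σ ℓ = none then 1 else ((ℓ : ℕ) : ℝ)

/-- equidistribution of `X` in the admissible residue vectors -/
def Equi (X : Finset ℤ) (A : ℕ → Finset ℕ) (MM : Finset ℕ) (M Err : ℝ) : Prop :=
  ∀ D ⊆ MM, ∏ ℓ ∈ D, (ℓ : ℝ) ≤ M → ∀ a : ℕ → ℕ, (∀ ℓ ∈ D, a ℓ ∈ A ℓ) →
    |((X.filter fun n => ∀ ℓ ∈ D, n % (ℓ : ℤ) = (a ℓ : ℤ)).card : ℝ) -
      X.card / ∏ ℓ ∈ D, ((A ℓ).card : ℝ)| ≤ Err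

/-- Block Q: from integers to residue vectors -/
def StmtQ : Prop := ∀ (X : Finset ℤ) (A : ℕ → Finset ℕ) (QQ RR : Finset ℕ) (K : ℕ) (R Err : ℝ)
  (c : Cf RR K → ℝ) (χ : ℕ → ℤ → ℝ) (ψ : ℕ → ℤ → Option (Fin K) → ℝ), Disjoint QQ RR →
  (∀ ℓ ∈ QQ ∪ RR, 0 < ℓ ∧ A ℓ ⊆ range ℓ ∧ (A ℓ).Nonempty ∧ ∀ n ∈ X, (n % (ℓ : ℤ)).toNat ∈ A ℓ) →
  (∀ ℓ ∈ QQ, ∀ n, |χ ℓ n| ≤ 1 ∧ χ ℓ n = χ ℓ (n % (ℓ : ℤ))) →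
  (∀ ℓ ∈ RR, ∀ n o, |ψ ℓ n o| ≤ 1 ∧ ψ ℓ n o = ψ ℓ (n % (ℓ : ℤ)) o ∧ ψ ℓ n none = 1) →
  (∀ σ, c σ ≠ 0 → rad σ ≤ R) → 1 ≤ R → 0 ≤ Err →
  Equi X A (QQ ∪ RR) ((∏ ℓ ∈ QQ, (ℓ : ℝ)) * R ^ 2) Err →
  |∑ n ∈ X, (∏ ℓ ∈ QQ, χ ℓ n) * (∑ σ, c σ * ∏ ℓ : RR, ψ ℓ n (σ ℓ)) ^ 2 -
    X.card * (∏ ℓ ∈ QQ, (∑ r ∈ A ℓ, χ ℓ r) / (A ℓ).card) *
      ∑ u ∈ Fintype.piFinset (fun ℓ : RR => A ℓ),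
        (∏ ℓ : RR, 1 / ((A ℓ).card : ℝ)) * (∑ σ, c σ * ∏ ℓ : RR, ψ ℓ (u ℓ) (σ ℓ)) ^ 2| ≤
    (∑ σ, |c σ|) ^ 2 * ((∏ ℓ ∈ QQ, (ℓ : ℝ)) * R ^ 2) * Err

/-- primes in progressions with a power saving (proved in `P005Z.PT.Main`) -/
def PT : Prop := ∃ c : ℝ, 0 < c ∧ ∃ C : ℝ, 0 < C ∧ ∀ y q a : ℕ, 1 ≤ y → 1 ≤ q → Nat.Coprime a q →
  |(((pr 0 y).filter fun p => p % q = a % q).card : ℝ) -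
    (Nat.primeCounting y : ℝ) / (Nat.totient q : ℝ)| ≤ C * (y : ℝ) ^ (1 - c) * (1 + log q) ^ 2

/-- Block E, intervals -/
def StmtEI : Prop := ∀ (y : ℕ) (MM : Finset ℕ) (M : ℝ), (∀ ℓ ∈ MM, ℓ.Prime) →
  Equi (Icc (-(y : ℤ)) y) (fun ℓ => range ℓ) MM M 1

/-- Block E, primes -/
def StmtEP : Prop := PT → ∃ c : ℝ, 0 < c ∧ c ≤ 1 ∧ ∃ C : ℝ, 0 < C ∧
  ∀ (a b : ℕ) (MM : Finset ℕ) (M : ℝ), 1 ≤ a → a ≤ b → 1 ≤ M → (∀ ℓ ∈ MM, ℓ.Prime) →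
  Equi ((pr a b).image fun p : ℕ => (p : ℤ)) (fun ℓ => Ico 1 ℓ) MM M
    (C * (b : ℝ) ^ (1 - c) * (1 + log M) ^ 2)

/-- the shifts -/
def hh (i : ℕ) : ℕ := 4 * i ^ 2

noncomputable def psi {K : ℕ} (ℓ : ℕ) (p n : ℤ) : Option (Fin K) → ℝ
  | none => 1
  | some i => 1 / (ℓ : ℝ) - if (ℓ : ℤ) ∣ n + (hh i : ℤ) * p then 1 else 0

noncomputable def chi (K ℓ : ℕ) (p n : ℤ) : ℝ :=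
  if ∀ i : Fin K, ¬ (ℓ : ℤ) ∣ n + (hh i : ℤ) * p then 1 else 0

noncomputable def W0 (QQ RR : Finset ℕ) (K : ℕ) (c : Cf RR K → ℝ) (p n : ℤ) : ℝ :=
  (∏ ℓ ∈ QQ, chi K ℓ p n) * (∑ σ, c σ * ∏ ℓ : RR, psi ℓ p n (σ ℓ)) ^ 2

def nu (K ℓ : ℕ) : ℕ := ((range K).image fun i => hh i % ℓ).card

noncomputable def SS (QQ : Finset ℕ) (K : ℕ) : ℝ := ∏ ℓ ∈ QQ, (1 - (nu K ℓ : ℝ) / ℓ)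

noncomputable def aa {K : ℕ} (m : Fin K) (ℓ : ℕ) : Option (Fin K) → ℝ
  | none => 1 - 2 / (ℓ : ℝ) ^ 2
  | some j => if j = m then 0 else 1 / (ℓ : ℝ) * (1 - 3 * K / ℓ)

noncomputable def ph {K : ℕ} (m : Fin K) (ℓ : ℕ) (o v : Option (Fin K)) : ℝ :=
  if o = some m then (if v = none then 1 / (ℓ : ℝ) else 0) else if o = v then 1 else 0

noncomputable def NN (RR : Finset ℕ) (K : ℕ) (m : Fin K) (c : Cf RR K → ℝ) : ℝ :=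
  ∑ τ : Cf RR K, (∏ ℓ : RR, aa m ℓ (τ ℓ)) * (∑ σ, c σ * ∏ ℓ : RR, ph m ℓ (σ ℓ) (τ ℓ)) ^ 2

/-- Block L1: the local inequalities at a sieving prime -/
def StmtL1 : Prop := ∀ (K ℓ : ℕ), ℓ.Prime → 4 * K ^ 2 < ℓ →
  (∀ p : ℤ, ¬ (ℓ : ℤ) ∣ p → ∀ c : Option (Fin K) → ℝ,
    ∑ r ∈ range ℓ, 1 / (ℓ : ℝ) * (∑ o, c o * psi ℓ p r o) ^ 2 ≤
      ∑ o, (if o = none then 1 else 1 / (ℓ : ℝ)) * c o ^ 2) ∧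
  (∀ (q : ℤ) (m : Fin K), ¬ (ℓ : ℤ) ∣ q → ∀ c : Option (Fin K) → ℝ,
    ∑ v, aa m ℓ v * (∑ o, c o * ph m ℓ o v) ^ 2 ≤
      ∑ r ∈ Ico 1 ℓ, 1 / ((ℓ : ℝ) - 1) * (∑ o, c o * psi ℓ r (q - (hh m : ℤ) * r) o) ^ 2)

/-- Block L2: the small primes -/
def StmtL2 : Prop := ∀ (K ℓ : ℕ), ℓ.Prime → nu K ℓ < ℓ ∧
  (∀ p : ℤ, ¬ (ℓ : ℤ) ∣ p → (∑ r ∈ range ℓ, chi K ℓ p r) / ℓ ≤ 1 - (nu K ℓ : ℝ) / ℓ) ∧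
  (∀ (q : ℤ) (m : Fin K), ¬ (ℓ : ℤ) ∣ q → (1 - (nu K ℓ : ℝ) / ℓ) * (1 - 1 / (ℓ : ℝ))⁻¹ ≤
    (∑ r ∈ Ico 1 ℓ, chi K ℓ r (q - (hh m : ℤ) * r)) / ((ℓ : ℝ) - 1))

/-- Block U: total mass of the weights -/
def StmtU : Prop := ∀ (QQ RR : Finset ℕ) (K : ℕ) (R : ℝ) (c : Cf RR K → ℝ) (y p : ℕ),
  Disjoint QQ RR → p.Prime → (∀ ℓ ∈ QQ ∪ RR, ℓ.Prime ∧ ℓ < p) → (∀ ℓ ∈ RR, 4 * K ^ 2 < ℓ) →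
  (∀ σ, c σ ≠ 0 → rad σ ≤ R) → 1 ≤ R →
  ∑ n ∈ Icc (-(y : ℤ)) y, W0 QQ RR K c p n ≤
    (2 * y + 1) * SS QQ K * ∑ σ, c σ ^ 2 / rad σ + (∑ σ, |c σ|) ^ 2 * ((∏ ℓ ∈ QQ, (ℓ : ℝ)) * R ^ 2)

/-- Block Lw: mass of the weights at a prime value of the `m`-th form -/
def StmtLw : Prop := ∀ (QQ RR PP : Finset ℕ) (K : ℕ) (R Err : ℝ) (c : Cf RR K → ℝ) (q : ℕ)
  (m : Fin K), Disjoint QQ RR → q.Prime → (∀ ℓ ∈ QQ ∪ RR, ℓ.Prime ∧ ℓ < q) →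
  (∀ p ∈ PP, p.Prime ∧ ∀ ℓ ∈ QQ ∪ RR, ℓ < p) → (∀ ℓ ∈ RR, 4 * K ^ 2 < ℓ) →
  (∀ σ, c σ ≠ 0 → rad σ ≤ R) → 1 ≤ R → 0 ≤ Err →
  Equi (PP.image fun p : ℕ => (p : ℤ)) (fun ℓ => Ico 1 ℓ) (QQ ∪ RR)
    ((∏ ℓ ∈ QQ, (ℓ : ℝ)) * R ^ 2) Err →
  PP.card * SS QQ K * (∏ ℓ ∈ QQ, (1 - 1 / (ℓ : ℝ))⁻¹) * NN RR K m c -
      (∑ σ, |c σ|) ^ 2 * ((∏ ℓ ∈ QQ, (ℓ : ℝ)) * R ^ 2) * Err ≤
    ∑ p ∈ PP, W0 QQ RR K c p ((q : ℤ) - (hh m : ℤ) * p)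

/-- the primes given to the form `i` -/
def fib {RR : Finset ℕ} {K : ℕ} (σ : Cf RR K) (i : Fin K) : Finset RR :=
  univ.filter fun ℓ => σ ℓ = some i

noncomputable def rr {RR : Finset ℕ} (S : Finset RR) : ℝ := ∏ ℓ ∈ S, ((ℓ : ℕ) : ℝ)

noncomputable def cG {RR : Finset ℕ} (K : ℕ) (G : Finset RR → ℝ) (R : ℝ) (σ : Cf RR K) : ℝ :=
  if rad σ ≤ R then ∏ i, G (fib σ i) else 0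

noncomputable def II {RR : Finset ℕ} (G : Finset RR → ℝ) : ℝ := ∑ S, G S ^ 2 / rr S

noncomputable def JJ {RR : Finset ℕ} (G : Finset RR → ℝ) (R : ℝ) : ℝ :=
  ∑ S, if rr S ^ 2 ≤ R then G S / rr S else 0

noncomputable def MM {RR : Finset ℕ} (G : Finset RR → ℝ) : ℝ := ∑ S, G S ^ 2 * log (rr S) / rr S

/-- Block N0: sums over configurations against products of sums over sets -/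
def StmtN0 : Prop := ∀ (RR : Finset ℕ) (K w₂ : ℕ) (f : Fin K → Finset RR → ℝ),
  2 ≤ w₂ → (∀ ℓ ∈ RR, w₂ ≤ ℓ) → (∀ i S, 0 ≤ f i S) →
  (∑ τ : Cf RR K, (∏ i, f i (fib τ i)) / rad τ ≤ ∏ i, ∑ S, f i S / rr S) ∧
  ((∀ i, Antitone (f i)) →
    (1 - 2 * (K : ℝ) ^ 2 / w₂) * ∏ i, ∑ S, f i S / rr S ≤
      ∑ τ : Cf RR K, (∏ i, f i (fib τ i)) / rad τ)

/-- Block N1: upper bounds for the coefficients -/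
def StmtN1 : Prop := ∀ (RR : Finset ℕ) (K w₂ : ℕ) (G : Finset RR → ℝ) (R : ℝ),
  2 ≤ w₂ → 2 * K ≤ w₂ → (∀ ℓ ∈ RR, w₂ ≤ ℓ) → (∀ S, 0 ≤ G S ∧ G S ≤ 2) → 1 ≤ R →
  ∑ σ, cG K G R σ ^ 2 / rad σ ≤ II G ^ K ∧ ∑ σ, |cG K G R σ| ≤ 2 ^ K * 3 * R ^ 2

/-- Block N2: lower bound for the collapsed form -/
def StmtN2 : Prop := ∀ (RR : Finset ℕ) (K w₂ : ℕ) (G : Finset RR → ℝ) (R : ℝ) (m : Fin K),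
  16 ≤ w₂ → 8 * K ^ 2 ≤ w₂ → (∀ ℓ ∈ RR, w₂ ≤ ℓ) → (∀ S, 0 ≤ G S) → Antitone G → 1 ≤ II G →
  3 ≤ R → 12 * K * log R ≤ w₂ → 8 * K * MM G ≤ II G * log R →
  JJ G R ^ 2 * II G ^ (K - 1) / 8 ≤ NN RR K m (cG K G R)

/-- primes in `[w, z]` -/
noncomputable def RRs (w : ℕ) (z : ℝ) : Finset ℕ := (Icc w ⌊z⌋₊).filter Nat.Prime

noncomputable def GG {RR : Finset ℕ} (T : ℝ) (J : ℕ) (S : Finset RR) : ℝ :=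
  ∑ j ∈ range (J + 1), if ∀ ℓ ∈ S, log ((ℓ : ℕ) : ℝ) ≤ 2 ^ j * T then (1 / 2) ^ j else 0

/-- Block V: the one-dimensional sums -/
def StmtV : Prop := ∃ C : ℝ, 1 ≤ C ∧ ∀ (w₂ J : ℕ) (T R : ℝ), 3 ≤ w₂ → C * log w₂ ≤ T →
  C * 2 ^ J * T ≤ log R → 1 ≤ R → ∀ G : Finset (RRs w₂ (exp (2 ^ J * T))) → ℝ, G = GG T J →
  (∀ S, 0 ≤ G S ∧ G S ≤ 2) ∧ Antitone G ∧ 1 ≤ II G ∧ II G ≤ C * T / log w₂ ∧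
    MM G ≤ C * (J + 1) * T * II G ∧ (J + 1) * T / (C * log w₂) ≤ JJ G R

end Vale.Agent.N013L
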