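import Vale.Agent.N013L.Def
import Vale.Agent.N013.Defs

/-! The two consequences of the covering theorem. -/

namespace Vale.Agent.N013L

open Real Filter

def Jac : Prop := ∃ c : ℝ, 0 < c ∧ ∀ᶠ k : ℕ in atTop,
  ENNReal.ofReal (c * k * log k ^ 2 / log (log (log k)) ^ 2) ≤ N013.j (N013.P k)

def Gap : Prop := ∃ c : ℝ, 0 < c ∧ ∀ᶠ X : ℕ in atTop, ∃ n : ℕ, Nat.nth Nat.Prime (n + 1) ≤ X ∧
  c * log X * log (log X) / log (log (log (log X))) ^ 2 ≤
    (Nat.nth Nat.Prime (n + 1) : ℝ) - Nat.nth Nat.Prime n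

end Vale.Agent.N013L
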