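import Vale.Agent.N013L.Def

/-! Block E: equidistribution of intervals and of primes in residue vectors. -/

namespace Vale.Agent.N013L

open Finset Real

namespace E

/-- Chinese remainder theorem for a finite set of primes. -/
theorem crt (D : Finset ℕ) (hD : ∀ ℓ ∈ D, ℓ.Prime) (a : ℕ → ℕ) (ha : ∀ ℓ ∈ D, a ℓ < ℓ) :
    ∃ r : ℕ, (∀ ℓ ∈ D, r ≡ a ℓ [MOD ℓ]) ∧ ∀ n : ℤ,
      (∀ ℓ ∈ D, n % (ℓ : ℤ) = (a ℓ : ℤ)) ↔ n ≡ r [ZMOD ((∏ ℓ ∈ D, ℓ : ℕ) : ℤ)] := by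
  have hc : Set.Pairwise (D : Set ℕ) (Function.onFun Nat.Coprime id) := fun x hx y hy h =>
    (Nat.coprime_primes (hD x hx) (hD y hy)).2 h
  obtain ⟨r, hr⟩ := Nat.chineseRemainderOfFinset a id D (fun ℓ h => (hD ℓ h).ne_zero) hc
  have h1 : ∀ ℓ ∈ D, (r : ℤ) % (ℓ : ℤ) = (a ℓ : ℤ) := fun ℓ h => by
    have := hr ℓ h
    rw [id, Nat.ModEq, Nat.mod_eq_of_lt (ha ℓ h)] at this
    rw [← this, Int.natCast_mod]
  refine ⟨r, hr, fun n => ⟨fun h => ?_, fun h ℓ hl => ?_⟩⟩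
  · rw [Int.modEq_iff_dvd, Nat.cast_prod]
    refine Finset.prod_dvd_of_coprime (fun x hx y hy k => ?_) fun ℓ hl => ?_
    · exact Nat.isCoprime_iff_coprime.2 (hc hx hy k)
    · exact Int.ModEq.dvd ((h ℓ hl).trans (h1 ℓ hl).symm)
  · exact Eq.trans (h.of_dvd (Int.natCast_dvd_natCast.2 (dvd_prod_of_mem (fun ℓ => ℓ) hl)))
      (h1 ℓ hl)

theorem tot (D : Finset ℕ) (hD : ∀ ℓ ∈ D, ℓ.Prime) :
    Nat.totient (∏ ℓ ∈ D, ℓ) = ∏ ℓ ∈ D, (ℓ - 1) := by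
  induction D using Finset.induction_on with
  | empty => simp
  | insert x D hx ih =>
    have hp := hD x (mem_insert_self _ _)
    rw [prod_insert hx, prod_insert hx, Nat.totient_mul, Nat.totient_prime hp,
      ih fun ℓ h => hD ℓ (mem_insert_of_mem h)]
    exact Nat.Coprime.prod_right fun ℓ h => (Nat.coprime_primes hp
      (hD ℓ (mem_insert_of_mem h))).2 fun k => hx (k ▸ h)

theorem count (a b Q r : ℤ) (hQ : 0 < Q) (hab : a ≤ b) :
    |(((Ico a b).filter fun n => n ≡ r [ZMOD Q]).card : ℝ) - ((b : ℝ) - a) / Q| ≤ 1 := by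
  have h := Int.Ico_filter_modEq_card a b hQ r
  have hQ' : (0 : ℚ) < Q := by exact_mod_cast hQ
  have hm : ⌈((a : ℚ) - r) / Q⌉ ≤ ⌈((b : ℚ) - r) / Q⌉ :=
    Int.ceil_mono (div_le_div_of_nonneg_right (by exact_mod_cast sub_le_sub_right hab r) hQ'.le)
  rw [max_eq_left (sub_nonneg.2 hm)] at h
  have k : |(((Ico a b).filter fun n => n ≡ r [ZMOD Q]).card : ℚ) - ((b : ℚ) - a) / Q| ≤ 1 := by
    have e : (((Ico a b).filter fun n => n ≡ r [ZMOD Q]).card : ℚ) =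
        (⌈((b : ℚ) - r) / Q⌉ : ℚ) - ⌈((a : ℚ) - r) / Q⌉ := by exact_mod_cast h
    have e2 : ((b : ℚ) - a) / Q = ((b : ℚ) - r) / Q - ((a : ℚ) - r) / Q := by ring
    have := Int.le_ceil (((b : ℚ) - r) / Q)
    have := Int.le_ceil (((a : ℚ) - r) / Q)
    have := Int.ceil_lt_add_one (((b : ℚ) - r) / Q)
    have := Int.ceil_lt_add_one (((a : ℚ) - r) / Q)
    rw [e, e2, abs_le]
    constructor <;> linarith
  exact_mod_cast k

theorem pr_sdiff {a b : ℕ} (h : a ≤ b) (P : ℕ → Prop) [DecidablePred P] :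
    (((pr a b).filter P).card : ℝ) = ((pr 0 b).filter P).card - ((pr 0 a).filter P).card := by
  rw [eq_sub_iff_add_eq, ← Nat.cast_add, ← card_union_of_disjoint]
  · congr 2
    ext p
    simp only [pr, mem_union, mem_filter, mem_Ioc]
    constructor
    · rintro (⟨⟨⟨_, _⟩, k⟩, l⟩ | ⟨⟨⟨_, _⟩, k⟩, l⟩) <;> exact ⟨⟨⟨k.pos, by omega⟩, k⟩, l⟩
    · rintro ⟨⟨⟨_, _⟩, k⟩, l⟩
      rcases lt_or_ge a p with u | u
      · exact .inl ⟨⟨⟨u, by omega⟩, k⟩, l⟩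
      · exact .inr ⟨⟨⟨k.pos, u⟩, k⟩, l⟩
  · rw [disjoint_left]
    intro p h1 h2
    simp only [pr, mem_filter, mem_Ioc] at h1 h2
    omega

theorem pr_card (b : ℕ) : (pr 0 b).card = Nat.primeCounting b := by
  rw [← Nat.primesLE_card_eq_primeCounting, Nat.primesLE_eq_filter_Ioc_zero, pr]

end E

theorem stmtEI : StmtEI := by
  intro y MM M hM D hD _ a ha
  have hp : ∀ ℓ ∈ D, ℓ.Prime := fun ℓ h => hM ℓ (hD h)
  obtain ⟨r, -, hr⟩ := E.crt D hp a fun ℓ h => mem_range.1 (ha ℓ h)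
  have hQ : (0 : ℤ) < ((∏ ℓ ∈ D, ℓ : ℕ) : ℤ) :=
    Int.natCast_pos.2 (prod_pos fun ℓ h => (hp ℓ h).pos)
  have h := E.count (-(y : ℤ)) (y + 1) _ r hQ (by omega)
  rw [Ico_add_one_right_eq_Icc] at h
  rw [filter_congr fun n _ => hr n]
  have e : ((Icc (-(y : ℤ)) y).card : ℝ) = (((y : ℤ) + 1 : ℤ) : ℝ) - ((-(y : ℤ) : ℤ) : ℝ) := by
    have := Int.card_Icc_of_le (-(y : ℤ)) y (by omega)
    exact_mod_cast this
  rw [e]
  simpa only [card_range, Int.cast_natCast, Nat.cast_prod, Int.cast_prod] using h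

theorem stmtEP : StmtEP := by
  rintro ⟨c, hc, C, hC, H⟩
  refine ⟨min c 1, lt_min hc one_pos, min_le_right _ _, 2 * C, by positivity,
    fun a b MM M h1 hab hM hMM D hD hQM v hv => ?_⟩
  have hp : ∀ ℓ ∈ D, ℓ.Prime := fun ℓ h => hMM ℓ (hD h)
  obtain ⟨r, hr1, hr⟩ := E.crt D hp v fun ℓ h => (mem_Ico.1 (hv ℓ h)).2
  set Q := ∏ ℓ ∈ D, ℓ with hQ
  have hQ0 : 1 ≤ Q := prod_pos fun ℓ h => (hp ℓ h).pos
  have hco : Nat.Coprime r Q := Nat.Coprime.prod_right fun ℓ h => by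
    refine ((Nat.Prime.coprime_iff_not_dvd (hp ℓ h)).2 fun k => ?_).symm
    have k1 := mem_Ico.1 (hv ℓ h)
    have := Nat.le_of_dvd k1.1 (((hr1 ℓ h).dvd_iff dvd_rfl).1 k)
    omega
  have inj : Function.Injective fun p : ℕ => (p : ℤ) := Nat.cast_injective
  have e1 : (((pr a b).image fun p : ℕ => (p : ℤ)).filter
      fun n => ∀ ℓ ∈ D, n % (ℓ : ℤ) = (v ℓ : ℤ)).card =
      ((pr a b).filter fun p => p % Q = r % Q).card := by
    rw [filter_image, card_image_of_injective _ inj]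
    exact congrArg card (filter_congr fun p _ => (hr p).trans Int.natCast_modEq_iff)
  have e2 : ∏ ℓ ∈ D, ((Ico 1 ℓ).card : ℝ) = (Nat.totient Q : ℝ) := by
    rw [hQ, E.tot D hp, Nat.cast_prod]
    exact prod_congr rfl fun ℓ _ => by rw [Nat.card_Ico]
  have e3 : ((pr a b).card : ℝ) = (Nat.primeCounting b : ℝ) - Nat.primeCounting a := by
    have := E.pr_sdiff hab fun _ => True
    simpa only [filter_true, E.pr_card] using this
  have ha1 : (1 : ℝ) ≤ a := by exact_mod_cast h1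
  have hab' : (a : ℝ) ≤ b := by exact_mod_cast hab
  have hQ1 : (1 : ℝ) ≤ Q := by exact_mod_cast hQ0
  have hl : (1 + log Q) ^ 2 ≤ (1 + log M) ^ 2 := by
    have := log_nonneg hQ1
    have := log_le_log (by linarith) (show (Q : ℝ) ≤ M by rwa [hQ, Nat.cast_prod])
    gcongr
  have bd : ∀ x : ℕ, 1 ≤ x → x ≤ b → C * (x : ℝ) ^ (1 - c) * (1 + log Q) ^ 2 ≤
      C * (b : ℝ) ^ (1 - min c 1) * (1 + log M) ^ 2 := fun x k1 k2 => by
    have k3 : (1 : ℝ) ≤ x := by exact_mod_cast k1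
    have k4 : (x : ℝ) ≤ b := by exact_mod_cast k2
    have k5 : (x : ℝ) ^ (1 - c) ≤ (b : ℝ) ^ (1 - min c 1) :=
      (rpow_le_rpow_of_exponent_le k3 (sub_le_sub_left (min_le_left c 1) 1)).trans
        (rpow_le_rpow (by linarith) k4 (sub_nonneg.2 (min_le_right _ _)))
    gcongr
  have u1 := (H b Q r (h1.trans hab) hQ0 hco).trans (bd b (h1.trans hab) le_rfl)
  have u2 := (H a Q r h1 hQ0 hco).trans (bd a h1 hab)
  rw [e1, e2, card_image_of_injective _ inj, e3, E.pr_sdiff hab, sub_div]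
  rw [abs_le] at u1 u2 ⊢
  constructor <;> linarith [u1.1, u1.2, u2.1, u2.2]

end Vale.Agent.N013L
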