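import Vale.Agent.N013L.Def

/-! Block F0: the covering theorem from the two good families and the exceptional set. -/

namespace Vale.Agent.N013L

open Finset Real Filter

namespace F0

lemma mem_pr {a b p : ℕ} : p ∈ pr a b ↔ (a < p ∧ p ≤ b) ∧ p.Prime := by
  simp [pr]

lemma mem_LL {x p : ℕ} : p ∈ LLx x ↔ (p ≤ x ∧ p.Prime) ∧ log x ^ 7 < (p : ℝ) := by
  unfold LLx
  rw [mem_filter, mem_pr]
  constructor
  · rintro ⟨⟨⟨_, h⟩, hp⟩, h7⟩
    exact ⟨⟨h, hp⟩, h7⟩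
  · rintro ⟨⟨h, hp⟩, h7⟩
    exact ⟨⟨⟨hp.pos, h⟩, hp⟩, h7⟩

/-- a point not above the mean -/
lemma exists_le_mean {Ω : Type} (s : Finset Ω) (w G : Ω → ℝ) (B : ℝ) (h0 : ∀ ω ∈ s, 0 ≤ w ω)
    (h1 : ∑ ω ∈ s, w ω = 1) (hB : ∑ ω ∈ s, w ω * G ω ≤ B) : ∃ ω ∈ s, G ω ≤ B := by
  by_contra hc
  push Not at hc
  have hex : ∃ ω ∈ s, 0 < w ω := by
    by_contra hn
    push Not at hn
    have : ∑ ω ∈ s, w ω ≤ 0 := sum_nonpos hn
    linarith
  obtain ⟨ω₀, hω₀, hp⟩ := hex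
  have hlt : ∑ ω ∈ s, w ω * B < ∑ ω ∈ s, w ω * G ω :=
    sum_lt_sum (fun ω hω => mul_le_mul_of_nonneg_left (hc ω hω).le (h0 ω hω))
      ⟨ω₀, hω₀, mul_lt_mul_of_pos_left (hc ω₀ hω₀) hp⟩
  rw [← sum_mul, h1, one_mul] at hlt
  linarith

lemma tend_log : Tendsto (fun x : ℕ => log (x : ℝ)) atTop atTop :=
  tendsto_log_atTop.comp tendsto_natCast_atTop_atTop

lemma tend_tt : Tendsto (fun x : ℕ => tt x) atTop atTop :=
  tendsto_log_atTop.comp tend_log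

lemma ev_sq (c : ℝ) (hc : 0 < c) : ∀ᶠ t : ℝ in atTop, log t ^ 2 ≤ c / 2 * t := by
  have h := (isLittleO_pow_log_id_atTop (n := 2)).def (half_pos hc)
  filter_upwards [h, eventually_ge_atTop (0 : ℝ)] with t ht h0
  rw [Real.norm_eq_abs, Real.norm_eq_abs, id, abs_of_nonneg h0, abs_of_nonneg (sq_nonneg _)] at ht
  exact ht

lemma ev_par (c : ℝ) (hc : 0 < c) : ∀ᶠ x : ℕ in atTop,
    6 ≤ log (x : ℝ) ∧ 1 ≤ log (tt x) ∧ 1 ≤ tt x ∧ log (tt x) ^ 2 ≤ c / 2 * tt x := by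
  filter_upwards [tend_log.eventually_ge_atTop 6,
    (tendsto_log_atTop.comp tend_tt).eventually_ge_atTop 1, tend_tt.eventually_ge_atTop 1,
    tend_tt.eventually (ev_sq c hc)] with x h1 h2 h3 h4
  exact ⟨h1, h2, h3, h4⟩

lemma model {x : ℕ} (h6 : 6 ≤ log (x : ℝ)) (ht : 1 ≤ log (tt x)) :
    Model (LLx x) (ka x) ((x : ℝ) ^ (-ss x)) (log x ^ 7) 1 := by
  have hx1 : (1 : ℝ) ≤ x := by
    by_contra hn
    have : log (x : ℝ) ≤ 0 := log_nonpos (Nat.cast_nonneg x) (not_le.mp hn).le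
    linarith
  have hs : -ss x ≤ 0 := by
    have : 0 ≤ ss x := by unfold ss; positivity
    linarith
  have h7 : (3 : ℝ) ≤ log x ^ 7 := by
    calc (3 : ℝ) ≤ 6 ^ 7 := by norm_num
      _ ≤ log x ^ 7 := pow_le_pow_left₀ (by norm_num) h6 7
  refine ⟨fun ℓ h => (mem_LL.mp h).1.2, fun ℓ h => (mem_LL.mp h).2.le, h7, ?_, le_rfl,
    by positivity, ?_, ?_⟩
  · push_cast; linarith
  · intro ℓ h
    obtain ⟨⟨hle, hp⟩, _⟩ := mem_LL.mp h
    unfold ka
    split_ifs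
    · exact rpow_le_one_of_one_le_of_nonpos hx1 hs
    · exact rpow_le_rpow_of_nonpos (by exact_mod_cast hp.pos) (by exact_mod_cast hle) hs
  · intro ℓ h
    obtain ⟨⟨_, hp⟩, _⟩ := mem_LL.mp h
    unfold ka
    split_ifs
    · exact le_rfl
    · exact rpow_le_one_of_one_le_of_nonpos (by exact_mod_cast hp.one_le) hs

/-- the residues chosen for the primes up to `16 x` -/
noncomputable def a0 (x : ℕ) (ω : LLx x → ℕ) (n₁ n₂ : ℕ → ℤ) (p : ℕ) : ℤ :=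
  if h : p ∈ LLx x then (ω ⟨p, h⟩ : ℤ) else if p ≤ x then 0 else if p ≤ 4 * x then n₁ p else n₂ p

/-- an uncovered number outside `E2` has all its prime factors in `LLx x` -/
lemma factors {x y : ℕ} {ω : LLx x → ℕ} {n₁ n₂ : ℕ → ℤ} {m : ℤ} (h6 : 6 ≤ log (x : ℝ))
    (hm1 : 1 ≤ m) (hmy : m ≤ y) (hy : (y : ℝ) ≤ x * log x)
    (hU : ∀ p : ℕ, p.Prime → p ≤ 16 * x → ¬ (p : ℤ) ∣ m - a0 x ω n₁ n₂ p) (h2 : m ∉ E2 x y)
    (ℓ : ℕ) (hℓ : ℓ.Prime) (hd : (ℓ : ℤ) ∣ m) : ℓ ∈ LLx x := by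
  have small : ∀ r : ℕ, r.Prime → r ≤ x → (r : ℤ) ∣ m → r ∈ LLx x := by
    intro r hr hrx hrm
    by_contra hn
    apply hU r hr (by omega)
    simp only [a0, dif_neg hn, if_pos hrx, sub_zero]
    exact hrm
  by_cases hx : ℓ ≤ x
  · exact small ℓ hℓ hx hd
  exfalso
  push Not at hx
  obtain ⟨k, hk⟩ := hd
  have hℓ0 : (0 : ℤ) < ℓ := by exact_mod_cast hℓ.pos
  have hk0 : 0 < k := by
    by_contra hn
    have : (ℓ : ℤ) * k ≤ 0 := mul_nonpos_of_nonneg_of_nonpos hℓ0.le (not_lt.mp hn)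
    omega
  lift k to ℕ using hk0.le
  by_cases hk1 : k = 1
  · apply h2
    subst hk1
    have hml : m = ℓ := by simpa using hk
    unfold E2
    refine mem_image.mpr ⟨ℓ, mem_pr.mpr ⟨⟨hx, ?_⟩, hℓ⟩, hml.symm⟩
    have : (ℓ : ℤ) ≤ y := hml ▸ hmy
    exact_mod_cast this
  · have hr := Nat.minFac_prime hk1
    have hkpos : 0 < k := by exact_mod_cast hk0
    have hrk : k.minFac ≤ k := Nat.minFac_le hkpos
    have hx0 : (0 : ℝ) < x := by
      rcases Nat.eq_zero_or_pos x with h | h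
      · subst h; simp at h6; linarith
      · exact_mod_cast h
    have hmR : (ℓ : ℝ) * k ≤ x * log x := by
      have e1 : ((ℓ : ℤ) * (k : ℤ)) ≤ (y : ℤ) := hk ▸ hmy
      have e2 : (ℓ : ℝ) * k ≤ y := by exact_mod_cast e1
      linarith
    have hkL : (k : ℝ) ≤ log x := by
      have e1 : (x : ℝ) ≤ ℓ := by exact_mod_cast hx.le
      have e2 : (x : ℝ) * k ≤ ℓ * k := mul_le_mul_of_nonneg_right e1 (Nat.cast_nonneg k)
      exact le_of_mul_le_mul_left (e2.trans hmR) hx0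
    have hrL : (k.minFac : ℝ) ≤ log x := le_trans (by exact_mod_cast hrk) hkL
    have hrx : k.minFac ≤ x := by
      have : (k.minFac : ℝ) ≤ x := hrL.trans ((log_le_sub_one_of_pos hx0).trans (by linarith))
      exact_mod_cast this
    have hrm : (k.minFac : ℤ) ∣ m := by
      rw [hk]
      exact Dvd.dvd.mul_left (Int.natCast_dvd_natCast.mpr (Nat.minFac_dvd k)) _
    have h7 := (mem_LL.mp (small _ hr hrx hrm)).2
    have : log (x : ℝ) ≤ log x ^ 7 := le_self_pow₀ (by linarith) (by norm_num)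
    linarith

/-- a small set is covered by one prime per member -/
lemma mop (U : Finset ℤ) (P : Finset ℕ) (h : U.card ≤ P.card) :
    ∃ g : ℕ → ℤ, ∀ m ∈ U, ∃ p ∈ P, g p = m := by
  classical
  obtain ⟨f, hf⟩ := Function.Embedding.exists_of_card_le_finset (α := U) (s := P) (by simpa using h)
  refine ⟨fun p => if hp : ∃ u, f u = p then (hp.choose : ℤ) else 0, fun m hm => ?_⟩
  refine ⟨f ⟨m, hm⟩, hf ⟨_, rfl⟩, ?_⟩
  have hp : ∃ u, f u = f ⟨m, hm⟩ := ⟨_, rfl⟩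
  simp only [dif_pos hp]
  rw [f.injective hp.choose_spec]

end F0

open F0 in
theorem cover (h1 : StmtB1) (hD : StmtD) (hCh : StmtCh) (hF1 : StmtF1) (hF2 : StmtF2) : Cover := by
  classical
  obtain ⟨c, hc, hF2⟩ := hF2
  have hc' : 0 < min c 1 := lt_min hc one_pos
  refine ⟨min c 1, hc', ?_⟩
  filter_upwards [hD, hCh, hF1, hF2, ev_par _ hc'] with x hD hCh hF1 hF2 hpar
  obtain ⟨h6, hlt, ht, hsq⟩ := hpar
  have hx1 : (1 : ℝ) ≤ x := by
    by_contra hn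
    have : log (x : ℝ) ≤ 0 := log_nonpos (Nat.cast_nonneg x) (not_le.mp hn).le
    linarith
  have hΛ : 0 < log (x : ℝ) := by linarith
  have hq1 : 1 ≤ log (tt x) ^ 2 := one_le_pow₀ hlt
  have hxΛ : 0 < (x : ℝ) * log x := by positivity
  set Y : ℝ := min c 1 * x * log x / log (tt x) ^ 2 with hY
  have hY0 : 0 ≤ Y := by positivity
  set y : ℕ := ⌊Y⌋₊ with hy
  have hyY : (y : ℝ) ≤ Y := Nat.floor_le hY0
  have hy1 : (y : ℝ) ≤ x * log x := by
    refine hyY.trans ?_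
    rw [hY, div_le_iff₀ (by positivity), mul_assoc]
    have := min_le_right c 1
    nlinarith
  have hy2 : (y : ℝ) ≤ c * x * log x / log (tt x) ^ 2 := by
    refine hyY.trans ?_
    rw [hY]
    gcongr
    exact min_le_left c 1
  have hy0 : x * log x / tt x ≤ (y : ℝ) := by
    have htΛ : tt x ≤ log x := (log_le_sub_one_of_pos hΛ).trans (by linarith)
    have e1 : 1 ≤ x * log x / tt x := by
      rw [le_div_iff₀ (by linarith)]
      nlinarith
    have e2 : 2 * (x * log x / tt x) ≤ Y := by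
      rw [hY, le_div_iff₀ (by positivity)]
      calc 2 * (x * log x / tt x) * log (tt x) ^ 2
          ≤ 2 * (x * log x / tt x) * (min c 1 / 2 * tt x) := by gcongr
        _ = min c 1 * x * log x := by field_simp
    have e3 : Y < y + 1 := Nat.lt_floor_add_one Y
    linarith
  obtain ⟨F₁, hF₁, hn₁⟩ := hF1 y hy0 hy1
  obtain ⟨F₂, hF₂, hn₂⟩ := hF2 y hy0 hy1 hy2
  obtain ⟨hw0, hw1, -⟩ := h1 _ _ _ _ _ (model h6 hlt)
  obtain ⟨ω, hω, hG⟩ := exists_le_mean (Om (LLx x)) (wt (LLx x) (ka x)) (fun ω => F₁ ω + F₂ ω)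
    (x / (4 * log x) + x / (4 * log x)) hw0 hw1 (by
      simp only [mul_add, sum_add_distrib]
      exact add_le_add hF₁ hF₂)
  obtain ⟨n₁, hn₁⟩ := hn₁ ω hω
  obtain ⟨n₂, hn₂⟩ := hn₂ ω hω
  set U : Finset ℤ := (Icc (1 : ℤ) y).filter
    fun m => ∀ p : ℕ, p.Prime → p ≤ 16 * x → ¬ (p : ℤ) ∣ m - a0 x ω n₁ n₂ p with hU
  have hSv : ∀ m ∈ U, Sv (LLx x) m ω := by
    intro m hm ℓ
    have h := (mem_filter.mp hm).2 ℓ (mem_LL.mp ℓ.2).1.2 (by have := (mem_LL.mp ℓ.2).1.1; omega)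
    simpa only [a0, dif_pos ℓ.2] using h
  have hc1 : ((U ∩ E1 x y).card : ℝ) ≤ F₁ ω := by
    refine hn₁ _ fun m hm => ?_
    obtain ⟨hmU, hmE⟩ := mem_inter.mp hm
    refine ⟨hmE, hSv m hmU, fun p hp => ?_⟩
    obtain ⟨⟨hp1, hp2⟩, hp3⟩ := mem_pr.mp hp
    have h := (mem_filter.mp hmU).2 p hp3 (by omega)
    have hn : p ∉ LLx x := fun h => by have := (mem_LL.mp h).1.1; omega
    simpa only [a0, dif_neg hn, if_neg (not_le.mpr hp1), if_pos hp2] using h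
  have hc2 : ((U ∩ E2 x y).card : ℝ) ≤ F₂ ω := by
    refine hn₂ _ fun m hm => ?_
    obtain ⟨hmU, hmE⟩ := mem_inter.mp hm
    refine ⟨hmE, hSv m hmU, fun p hp => ?_⟩
    obtain ⟨⟨hp1, hp2⟩, hp3⟩ := mem_pr.mp hp
    have h := (mem_filter.mp hmU).2 p hp3 hp2
    have hn : p ∉ LLx x := fun h => by have := (mem_LL.mp h).1.1; omega
    have hn' : ¬ p ≤ x := by omega
    simpa only [a0, dif_neg hn, if_neg hn', if_neg (not_le.mpr hp1)] using h
  have hc3 : (((U \ E1 x y) \ E2 x y).card : ℝ) ≤ 3 * x / log x ^ 2 := by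
    refine hD _ fun m hm => ?_
    obtain ⟨hm', hm2⟩ := mem_sdiff.mp hm
    obtain ⟨hmU, hm1⟩ := mem_sdiff.mp hm'
    obtain ⟨hI, hcov⟩ := mem_filter.mp hmU
    obtain ⟨hI1, hI2⟩ := mem_Icc.mp hI
    refine ⟨hI1, ?_, factors h6 hI1 hI2 hy1 hcov hm2, ?_⟩
    · have : (m : ℝ) ≤ y := by exact_mod_cast hI2
      linarith
    · by_contra hn
      exact hm1 (mem_filter.mpr ⟨hI, not_lt.mp hn⟩)
  have hcard : U.card ≤ (pr (16 * x) (64 * x)).card := by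
    have hsub : U ⊆ (U ∩ E1 x y) ∪ (U ∩ E2 x y) ∪ ((U \ E1 x y) \ E2 x y) := by
      intro m hm
      simp only [mem_union, mem_inter, Finset.mem_sdiff]
      by_cases a1 : m ∈ E1 x y
      · exact Or.inl (Or.inl ⟨hm, a1⟩)
      by_cases a2 : m ∈ E2 x y
      · exact Or.inl (Or.inr ⟨hm, a2⟩)
      exact Or.inr ⟨⟨hm, a1⟩, a2⟩
    have e1 : U.card ≤ (U ∩ E1 x y).card + (U ∩ E2 x y).card + ((U \ E1 x y) \ E2 x y).card :=
      (card_le_card hsub).trans ((card_union_le _ _).trans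
        (Nat.add_le_add_right (card_union_le _ _) _))
    have e2 : (U.card : ℝ) ≤
        (U ∩ E1 x y).card + (U ∩ E2 x y).card + ((U \ E1 x y) \ E2 x y).card := by
      exact_mod_cast e1
    have e3 : 3 * (x : ℝ) / log x ^ 2 ≤ x / (2 * log x) := by
      rw [div_le_div_iff₀ (by positivity) (by positivity)]
      nlinarith
    have e4 : (x : ℝ) / (4 * log x) + x / (4 * log x) + x / (2 * log x) = x / log x := by
      field_simp
      norm_num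
    have e5 : (U.card : ℝ) ≤ (pr (16 * x) (64 * x)).card := by
      have := hCh.2.2.1
      linarith
    exact_mod_cast e5
  obtain ⟨g, hg⟩ := mop U _ hcard
  refine ⟨fun p => if p ≤ 16 * x then a0 x ω n₁ n₂ p else g p, fun m hm1 hm2 => ?_⟩
  have hmy : m ≤ y := by
    lift m to ℕ using (by omega)
    have : m ≤ y := Nat.le_floor (by exact_mod_cast hm2)
    exact_mod_cast this
  by_cases hmU : m ∈ U
  · obtain ⟨p, hp, hgp⟩ := hg m hmU
    obtain ⟨⟨hp1, hp2⟩, hp3⟩ := mem_pr.mp hp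
    refine ⟨p, hp3, hp2, ?_⟩
    simp only [if_neg (not_le.mpr hp1), hgp, sub_self, dvd_zero]
  · have : ¬ ∀ p : ℕ, p.Prime → p ≤ 16 * x → ¬ (p : ℤ) ∣ m - a0 x ω n₁ n₂ p :=
      fun h => hmU (mem_filter.mpr ⟨mem_Icc.mpr ⟨hm1, hmy⟩, h⟩)
    push Not at this
    obtain ⟨p, hp, hp16, hd⟩ := this
    refine ⟨p, hp, by omega, ?_⟩
    simp only [if_pos hp16]
    exact hd

end Vale.Agent.N013L
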