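import Vale.Agent.N013L.Def2
import Vale.Agent.N013L.F0

/-! Block F0b: the covering theorem with two scales. -/

namespace Vale.Agent.N013L

open Finset Real Filter F0

namespace F0b

lemma sq_le_exp {K t : ℝ} (h : 6 * K ≤ t) (h0 : 0 ≤ t) : K * t ^ 2 ≤ exp t := by
  have h1 := Real.pow_div_factorial_le_exp t h0 3
  have e : ((3 : ℕ).factorial : ℝ) = 6 := by norm_num [Nat.factorial]
  rw [e] at h1
  nlinarith [mul_le_mul_of_nonneg_right h (sq_nonneg t)]

/-- the residues chosen for the primes up to `16 X` -/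
noncomputable def a1 (x X : ℕ) (ω : LLx x → ℕ) (n₁ n₂ : ℕ → ℤ) (p : ℕ) : ℤ :=
  if h : p ∈ LLx x then (ω ⟨p, h⟩ : ℤ) else if p ≤ x then 0 else if p ≤ 4 * X then n₂ p else n₁ p

lemma factors {x y : ℕ} {m : ℤ} (h6 : 6 ≤ log (x : ℝ)) (hm1 : 1 ≤ m) (hmy : m ≤ y)
    (hy : (y : ℝ) ≤ x * log x ^ 2) (small : ∀ r : ℕ, r.Prime → r ≤ x → (r : ℤ) ∣ m → r ∈ LLx x)
    (h2 : m ∉ E2 x y) (ℓ : ℕ) (hℓ : ℓ.Prime) (hd : (ℓ : ℤ) ∣ m) : ℓ ∈ LLx x := by
  by_cases hx : ℓ ≤ x
  · exact small ℓ hℓ hx hd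
  exfalso
  push Not at hx
  obtain ⟨k, hk⟩ := hd
  have hℓ0 : (0 : ℤ) < ℓ := by exact_mod_cast hℓ.pos
  have hk0 : 0 < k := by
    by_contra hn
    have : (ℓ : ℤ) * k ≤ 0 := mul_nonpos_of_nonneg_of_nonpos hℓ0.le (not_lt.mp hn)
    omega
  lift k to ℕ using hk0.le
  by_cases hk1 : k = 1
  · apply h2
    subst hk1
    have hml : m = ℓ := by simpa using hk
    unfold E2
    refine mem_image.mpr ⟨ℓ, mem_pr.mpr ⟨⟨hx, ?_⟩, hℓ⟩, hml.symm⟩
    have : (ℓ : ℤ) ≤ y := hml ▸ hmy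
    exact_mod_cast this
  · have hr := Nat.minFac_prime hk1
    have hkpos : 0 < k := by exact_mod_cast hk0
    have hrk : k.minFac ≤ k := Nat.minFac_le hkpos
    have hx0 : (0 : ℝ) < x := by
      rcases Nat.eq_zero_or_pos x with h | h
      · subst h; simp at h6; linarith
      · exact_mod_cast h
    have hmR : (ℓ : ℝ) * k ≤ x * log x ^ 2 := by
      have e1 : ((ℓ : ℤ) * (k : ℤ)) ≤ (y : ℤ) := hk ▸ hmy
      have e2 : (ℓ : ℝ) * k ≤ y := by exact_mod_cast e1
      linarith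
    have hkL : (k : ℝ) ≤ log x ^ 2 := by
      have e1 : (x : ℝ) ≤ ℓ := by exact_mod_cast hx.le
      have e2 : (x : ℝ) * k ≤ ℓ * k := mul_le_mul_of_nonneg_right e1 (Nat.cast_nonneg k)
      exact le_of_mul_le_mul_left (e2.trans hmR) hx0
    have hrL : (k.minFac : ℝ) ≤ log x ^ 2 := le_trans (by exact_mod_cast hrk) hkL
    have hrx : k.minFac ≤ x := by
      have e := sq_le_exp (K := 1) (t := log x) (by linarith) (by linarith)
      rw [one_mul, exp_log hx0] at e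
      exact_mod_cast hrL.trans e
    have hrm : (k.minFac : ℤ) ∣ m := by
      rw [hk]
      exact Dvd.dvd.mul_left (Int.natCast_dvd_natCast.mpr (Nat.minFac_dvd k)) _
    have h7 := (mem_LL.mp (small _ hr hrx hrm)).2
    have : log (x : ℝ) ^ 2 ≤ log x ^ 7 := pow_le_pow_right₀ (by linarith) (by norm_num)
    linarith

lemma card_le_ind {Ω : Type} (S : ℤ → Ω → Prop) (ω : Ω) {V E : Finset ℤ} (h : V ⊆ E)
    (hS : ∀ a ∈ V, S a ω) : (V.card : ℝ) ≤ ∑ a ∈ E, ind S {a} ω := by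
  rw [card_eq_sum_ones, Nat.cast_sum]
  refine le_trans (le_of_eq (sum_congr rfl fun a m => ?_))
    (sum_le_sum_of_subset_of_nonneg h fun a _ _ => ?_)
  · unfold ind
    rw [if_pos fun b u => (mem_singleton.1 u).symm ▸ hS a m, Nat.cast_one]
  · unfold ind
    split_ifs
    · exact zero_le_one
    · exact le_rfl

end F0b

open F0b in
theorem cover2 (h1 : StmtB1) (hS : StmtS) (hD : StmtDb) (hCh : StmtCh) (hF1 : StmtF1b)
    (hF2 : StmtF2b) : Cover2 := by
  classical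
  obtain ⟨c, hc, hF2⟩ := hF2
  obtain ⟨C, hC, hS⟩ := hS
  obtain ⟨x₀, hCh⟩ := eventually_atTop.1 hCh
  have hc' : 0 < min c 1 := lt_min hc one_pos
  refine ⟨min c 1, hc', ?_⟩
  filter_upwards [hD, hS, hF1, hF2, ev_par _ hc', eventually_ge_atTop x₀,
    tend_log.eventually_ge_atTop 24, tend_tt.eventually_ge_atTop (6 * exp 6),
    tend_tt.eventually_ge_atTop (6 * (32 * C))] with x hD hS hF1 hF2 hpar hx₀ h24 t1 t2
  intro J X J0 J1 hX
  obtain ⟨h6, hlt, ht, hsq⟩ := hpar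
  have hx1 : (1 : ℝ) ≤ x := by
    by_contra hn
    have : log (x : ℝ) ≤ 0 := log_nonpos (Nat.cast_nonneg x) (not_le.mp hn).le
    linarith
  have hΛ : 0 < log (x : ℝ) := by linarith
  have et : exp (tt x) = log x := exp_log hΛ
  have hxX : x ≤ X := hX ▸ Nat.le_mul_of_pos_left x (by positivity)
  have hxX' : (x : ℝ) ≤ X := by exact_mod_cast hxX
  have h4 : (4 : ℝ) ^ J ≤ log x := by
    have e1 : (4 : ℝ) ≤ exp 2 := by
      have := add_one_le_exp (1 : ℝ)
      rw [show (2 : ℝ) = 1 + 1 by norm_num, exp_add]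
      nlinarith
    have e2 : exp (2 * (log (tt x) + 3)) = exp 6 * tt x ^ 2 := by
      rw [show 2 * (log (tt x) + 3) = 6 + (log (tt x) + log (tt x)) by ring, exp_add, exp_add,
        exp_log (by linarith), sq]
    calc (4 : ℝ) ^ J ≤ exp 2 ^ J := pow_le_pow_left₀ (by norm_num) e1 J
      _ = exp (2 * J) := by rw [← exp_nat_mul, mul_comm]
      _ ≤ exp (2 * (log (tt x) + 3)) := exp_le_exp.2 (by linarith)
      _ ≤ exp (tt x) := e2 ▸ sq_le_exp t1 (by linarith)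
      _ = log x := et
  have hXx : (X : ℝ) ≤ x * log x := by
    rw [hX]
    push_cast
    rw [mul_comm]
    exact mul_le_mul_of_nonneg_left h4 (by linarith)
  have hΛx : log (x : ℝ) ≤ x := (log_le_sub_one_of_pos (by linarith)).trans (by linarith)
  have hlX : log (X : ℝ) ≤ 2 * log x := by
    have e : (X : ℝ) ≤ x * x := hXx.trans (mul_le_mul_of_nonneg_left hΛx (by linarith))
    have := log_le_log (by linarith) e
    rw [log_mul (by linarith) (by linarith)] at this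
    linarith
  have hlX0 : 0 < log (X : ℝ) := hΛ.trans_le (log_le_log (by linarith) hxX')
  have hX1 : (1 : ℝ) ≤ X := hx1.trans hxX'
  have hxΛ : 0 < (X : ℝ) * log x := by positivity
  set Y : ℝ := min c 1 * X * log x / log (tt x) with hY
  have hY0 : 0 ≤ Y := by positivity
  set y : ℕ := ⌊Y⌋₊ with hy
  have hyY : (y : ℝ) ≤ Y := Nat.floor_le hY0
  have hy1 : (y : ℝ) ≤ X * log x := by
    refine hyY.trans ?_
    rw [hY, div_le_iff₀ (by positivity), mul_assoc]
    have := min_le_right c 1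
    nlinarith
  have hy2 : (y : ℝ) ≤ c * X * log x / log (tt x) := by
    refine hyY.trans ?_
    rw [hY]
    gcongr
    exact min_le_left c 1
  have hy3 : (y : ℝ) ≤ x * log x ^ 2 := by
    refine hy1.trans ?_
    rw [sq, ← mul_assoc]
    exact mul_le_mul_of_nonneg_right hXx hΛ.le
  have hy0 : X * log x / tt x ≤ (y : ℝ) := by
    have htΛ : tt x ≤ log x := (log_le_sub_one_of_pos hΛ).trans (by linarith)
    have e1 : 1 ≤ X * log x / tt x := by
      rw [le_div_iff₀ (by linarith)]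
      nlinarith
    have e0 : log (tt x) ≤ min c 1 / 2 * tt x := le_trans (by nlinarith) hsq
    have e2 : 2 * (X * log x / tt x) ≤ Y := by
      rw [hY, le_div_iff₀ (by positivity)]
      calc 2 * (X * log x / tt x) * log (tt x)
          ≤ 2 * (X * log x / tt x) * (min c 1 / 2 * tt x) := by gcongr
        _ = min c 1 * X * log x := by field_simp
    have e3 : Y < y + 1 := Nat.lt_floor_add_one Y
    linarith
  obtain ⟨F₁, hF₁, hn₁⟩ := hF1 J X y J1 hX hy0 hy1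
  obtain ⟨F₂, hF₂, hn₂⟩ := hF2 J X y J0 J1 hX hy0 hy1 hy2
  obtain ⟨hw0, hw1, -, -, hw5⟩ := h1 _ _ _ _ _ (model h6 hlt)
  have hF₃ : ∑ ω ∈ Om (LLx x), wt (LLx x) (ka x) ω * ∑ a ∈ E2 x X, ind (Sv (LLx x)) {a} ω ≤
      X / (8 * log x) := by
    have s0 : 0 ≤ C * tt x * log (tt x) / log x := by positivity
    have e1 : ∀ a : ℤ, Pb (LLx x) (ka x) {a} ≤ C * tt x * log (tt x) / log x := fun a =>
      (hw5 a).trans ((mul_le_mul_of_nonneg_right hS.1 (hS.2.2.2.2 a).1).trans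
        (mul_le_of_le_one_right s0 (hS.2.2.2.2 a).2))
    have e2 : ((E2 x X).card : ℝ) ≤ 4 * X / log x := by
      refine le_trans ?_ ((hCh x hx₀).2.2.2 X hxX)
      have : pr x X ⊆ pr 0 X := fun p hp =>
        mem_pr.2 ⟨⟨(mem_pr.1 hp).2.pos, (mem_pr.1 hp).1.2⟩, (mem_pr.1 hp).2⟩
      exact_mod_cast card_image_le.trans (card_le_card this)
    have e3 : 32 * C * tt x * log (tt x) ≤ log x := by
      have a1 : log (tt x) ≤ tt x := (log_le_sub_one_of_pos (by linarith)).trans (by linarith)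
      have a2 := sq_le_exp t2 (by linarith)
      rw [et] at a2
      refine le_trans ?_ a2
      rw [sq, ← mul_assoc]
      exact mul_le_mul_of_nonneg_left a1 (by positivity)
    simp only [mul_sum]
    rw [sum_comm]
    refine (sum_le_card_nsmul _ _ _ fun a _ => e1 a).trans ?_
    rw [nsmul_eq_mul]
    refine (mul_le_mul_of_nonneg_right e2 s0).trans ?_
    rw [div_mul_div_comm, div_le_div_iff₀ (by positivity) (by positivity)]
    calc 4 * (X : ℝ) * (C * tt x * log (tt x)) * (8 * log x)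
        = X * log x * (32 * C * tt x * log (tt x)) := by ring
      _ ≤ X * log x * log x := mul_le_mul_of_nonneg_left e3 hxΛ.le
      _ = X * (log x * log x) := by ring
  obtain ⟨ω, hω, hG⟩ := exists_le_mean (Om (LLx x)) (wt (LLx x) (ka x))
    (fun ω => F₁ ω + F₂ ω + ∑ a ∈ E2 x X, ind (Sv (LLx x)) {a} ω)
    (X / (8 * log x) + X / (8 * log x) + X / (8 * log x)) hw0 hw1 (by
      simp only [mul_add, sum_add_distrib]
      exact add_le_add (add_le_add hF₁ hF₂) hF₃)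
  obtain ⟨n₁, hn₁⟩ := hn₁ ω hω
  obtain ⟨n₂, hn₂⟩ := hn₂ ω hω
  set U : Finset ℤ := (Icc (1 : ℤ) y).filter
    fun m => ∀ p : ℕ, p.Prime → p ≤ 16 * X → ¬ (p : ℤ) ∣ m - a1 x X ω n₁ n₂ p with hU
  have hSv : ∀ m ∈ U, Sv (LLx x) m ω := by
    intro m hm ℓ
    have h := (mem_filter.mp hm).2 ℓ (mem_LL.mp ℓ.2).1.2 (by have := (mem_LL.mp ℓ.2).1.1; omega)
    simpa only [a1, dif_pos ℓ.2] using h
  have hc1 : ((U ∩ E1 x y).card : ℝ) ≤ F₁ ω := by
    refine hn₁ _ fun m hm => ?_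
    obtain ⟨hmU, hmE⟩ := mem_inter.mp hm
    refine ⟨hmE, hSv m hmU, fun p hp => ?_⟩
    obtain ⟨⟨hp1, hp2⟩, hp3⟩ := mem_pr.mp hp
    have h := (mem_filter.mp hmU).2 p hp3 hp2
    have hn : p ∉ LLx x := fun h => by have := (mem_LL.mp h).1.1; omega
    have hn' : ¬ p ≤ x := by omega
    simpa only [a1, dif_neg hn, if_neg hn', if_neg (not_le.mpr hp1)] using h
  have hc2 : ((U ∩ E2 X y).card : ℝ) ≤ F₂ ω := by
    refine hn₂ _ fun m hm => ?_
    obtain ⟨hmU, hmE⟩ := mem_inter.mp hm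
    refine ⟨hmE, hSv m hmU, fun p hp => ?_⟩
    obtain ⟨⟨hp1, hp2⟩, hp3⟩ := mem_pr.mp hp
    have h := (mem_filter.mp hmU).2 p hp3 (by omega)
    have hn : p ∉ LLx x := fun h => by have := (mem_LL.mp h).1.1; omega
    have hn' : ¬ p ≤ x := by omega
    simpa only [a1, dif_neg hn, if_neg hn', if_pos hp2] using h
  have hc4 : ((U ∩ E2 x X).card : ℝ) ≤ ∑ a ∈ E2 x X, ind (Sv (LLx x)) {a} ω :=
    card_le_ind _ ω inter_subset_right fun a m => hSv a (mem_inter.1 m).1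
  have hc3 : (((U \ E1 x y) \ E2 x y).card : ℝ) ≤ 3 * x / log x ^ 2 := by
    refine hD _ fun m hm => ?_
    obtain ⟨hm', hm2⟩ := mem_sdiff.mp hm
    obtain ⟨hmU, hm1⟩ := mem_sdiff.mp hm'
    obtain ⟨hI, hcov⟩ := mem_filter.mp hmU
    obtain ⟨hI1, hI2⟩ := mem_Icc.mp hI
    refine ⟨hI1, ?_, F0b.factors h6 hI1 hI2 hy3 (fun r hr hrx hrm => ?_) hm2, ?_⟩
    · have : (m : ℝ) ≤ y := by exact_mod_cast hI2
      linarith
    · by_contra hn
      apply hcov r hr (by omega)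
      simp only [a1, dif_neg hn, if_pos hrx, sub_zero]
      exact hrm
    · by_contra hn
      exact hm1 (mem_filter.mpr ⟨hI, not_lt.mp hn⟩)
  have hcard : U.card ≤ (pr (16 * X) (64 * X)).card := by
    have hsub : U ⊆ (U ∩ E1 x y) ∪ (U ∩ E2 X y) ∪ (U ∩ E2 x X) ∪ ((U \ E1 x y) \ E2 x y) := by
      intro m hm
      simp only [mem_union, mem_inter, Finset.mem_sdiff]
      by_cases b1 : m ∈ E1 x y
      · exact Or.inl (Or.inl (Or.inl ⟨hm, b1⟩))
      by_cases b2 : m ∈ E2 x y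
      · obtain ⟨q, hq, rfl⟩ := mem_image.1 b2
        obtain ⟨⟨q1, q2⟩, q3⟩ := mem_pr.1 hq
        rcases le_or_gt q X with h | h
        · exact Or.inl (Or.inr ⟨hm, mem_image.2 ⟨q, mem_pr.2 ⟨⟨q1, h⟩, q3⟩, rfl⟩⟩)
        · exact Or.inl (Or.inl (Or.inr ⟨hm, mem_image.2 ⟨q, mem_pr.2 ⟨⟨h, q2⟩, q3⟩, rfl⟩⟩))
      exact Or.inr ⟨⟨hm, b1⟩, b2⟩
    have e1 : U.card ≤ (U ∩ E1 x y).card + (U ∩ E2 X y).card + (U ∩ E2 x X).card +
        ((U \ E1 x y) \ E2 x y).card :=
      (card_le_card hsub).trans ((card_union_le _ _).trans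
        (Nat.add_le_add_right ((card_union_le _ _).trans
          (Nat.add_le_add_right (card_union_le _ _) _)) _))
    have e2 : (U.card : ℝ) ≤ (U ∩ E1 x y).card + (U ∩ E2 X y).card + (U ∩ E2 x X).card +
        ((U \ E1 x y) \ E2 x y).card := by
      exact_mod_cast e1
    have e3 : 3 * (x : ℝ) / log x ^ 2 ≤ X / (8 * log x) := by
      rw [div_le_div_iff₀ (by positivity) (by positivity)]
      calc 3 * (x : ℝ) * (8 * log x) = x * log x * 24 := by ring
        _ ≤ X * log x * log x := by gcongr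
        _ = X * log x ^ 2 := by ring
    have e4 : (X : ℝ) / (8 * log x) + X / (8 * log x) + X / (8 * log x) + X / (8 * log x) =
        X / (2 * log x) := by
      field_simp
      norm_num
    have e6 : (X : ℝ) / (2 * log x) ≤ X / log X := by gcongr
    have e5 : (U.card : ℝ) ≤ (pr (16 * X) (64 * X)).card := by
      have := (hCh X (hx₀.trans hxX)).2.2.1
      linarith
    exact_mod_cast e5
  obtain ⟨g, hg⟩ := mop U _ hcard
  refine ⟨fun p => if p ≤ 16 * X then a1 x X ω n₁ n₂ p else g p, fun m hm1 hm2 => ?_⟩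
  have hmy : m ≤ y := by
    lift m to ℕ using (by omega)
    have : m ≤ y := Nat.le_floor (by exact_mod_cast hm2)
    exact_mod_cast this
  by_cases hmU : m ∈ U
  · obtain ⟨p, hp, hgp⟩ := hg m hmU
    obtain ⟨⟨hp1, hp2⟩, hp3⟩ := mem_pr.mp hp
    refine ⟨p, hp3, hp2, ?_⟩
    simp only [if_neg (not_le.mpr hp1), hgp, sub_self, dvd_zero]
  · have : ¬ ∀ p : ℕ, p.Prime → p ≤ 16 * X → ¬ (p : ℤ) ∣ m - a1 x X ω n₁ n₂ p :=
      fun h => hmU (mem_filter.mpr ⟨mem_Icc.mpr ⟨hm1, hmy⟩, h⟩)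
    push Not at this
    obtain ⟨p, hp, hp16, hd⟩ := this
    refine ⟨p, hp, by omega, ?_⟩
    simp only [if_pos hp16]
    exact hd

end Vale.Agent.N013L
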