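import Vale.Agent.N013L.Def

/-! The survivors with a large rough part are covered by uniform arithmetic patterns. -/

namespace Vale.Agent.N013L

open Real Filter Finset

namespace F1

lemma good_mono {LL : Finset ℕ} {κ : ℕ → ℝ} {E : Finset ℤ} {PP : Finset ℕ} {B B' : ℝ}
    (h : Good LL κ E PP B) (hB : B ≤ B') : Good LL κ E PP B' := by
  obtain ⟨F, h1, h2⟩ := h
  exact ⟨F, h1.trans hB, h2⟩

lemma ev_t (C : ℝ) (hC : 0 < C) : ∀ᶠ t : ℝ in atTop,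
    200 ≤ t ∧ 288 * C * log t ≤ t ∧ 32 * t ^ 36 ≤ exp t := by
  have h1 := isLittleO_log_id_atTop.bound (c := 1 / (288 * C)) (by positivity)
  filter_upwards [eventually_ge_atTop (200 : ℝ), h1,
    (tendsto_exp_div_pow_atTop 36).eventually_ge_atTop 32] with t h0 h1 h2
  have ht : 0 < t := by linarith
  refine ⟨h0, ?_, (le_div_iff₀ (by positivity)).1 h2⟩
  simp only [id, Real.norm_eq_abs, abs_of_pos ht] at h1
  have h3 := (le_abs_self _).trans h1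
  have h4 : 288 * C * log t ≤ 288 * C * (1 / (288 * C) * t) :=
    mul_le_mul_of_nonneg_left h3 (by positivity)
  have h5 : 288 * C * (1 / (288 * C) * t) = t := by field_simp
  linarith

/-- the error term -/
lemma eta_le {t Λ L ly Y : ℝ} (hΛ : Λ = exp t) (ht : 200 ≤ t) (h36 : 32 * t ^ 36 ≤ Λ)
    (hL0 : 0 ≤ L) (hL : L ≤ Λ) (hl0 : 0 ≤ ly) (hl : ly ≤ 2 * Λ) (hY : exp (Λ / (20 * t)) ≤ Y) :
    exp (4 * L ^ 2 * ly / (Λ ^ 7 * (1 / t ^ 18) ^ 2)) - 1 +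
      exp (5 * Λ / t ^ 2) * (1 / Y) * L ^ 3 * (1 + ly * (Y / exp (Λ / (20 * t)) + 1)) ≤ 1 / Λ ^ 3 := by
  have ht0 : 0 < t := by linarith
  have hΛ0 : 0 < Λ := hΛ ▸ exp_pos t
  have ht1 : 1 ≤ t := by linarith
  have h34 : (200 : ℝ) ≤ t ^ 34 := ht.trans (le_self_pow₀ ht1 (by norm_num))
  have h2 : 400 * t ^ 2 ≤ Λ := by
    have : t ^ 36 = t ^ 34 * t ^ 2 := by ring
    have h0 : 0 ≤ t ^ 2 := by positivity
    nlinarith
  have hΛ1 : 1 ≤ Λ := by nlinarith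
  set ζ := exp (Λ / (20 * t)) with hζ
  have hζ0 : 0 < ζ := exp_pos _
  have hY0 : 0 < Y := hζ0.trans_le hY
  have a1 : 4 * L ^ 2 * ly / (Λ ^ 7 * (1 / t ^ 18) ^ 2) ≤ 1 / (4 * Λ ^ 3) := by
    have e : 4 * L ^ 2 * ly / (Λ ^ 7 * (1 / t ^ 18) ^ 2) = 4 * L ^ 2 * ly * t ^ 36 / Λ ^ 7 := by
      field_simp
    rw [e, div_le_div_iff₀ (by positivity) (by positivity)]
    calc 4 * L ^ 2 * ly * t ^ 36 * (4 * Λ ^ 3) ≤ 4 * Λ ^ 2 * (2 * Λ) * (Λ / 32) * (4 * Λ ^ 3) := by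
          have : t ^ 36 ≤ Λ / 32 := by linarith
          gcongr
      _ = 1 * Λ ^ 7 := by ring
  have a2 : 1 / (4 * Λ ^ 3) ≤ 1 := by
    rw [div_le_one (by positivity)]
    have := one_le_pow₀ (n := 3) hΛ1
    linarith
  have a3 : exp (4 * L ^ 2 * ly / (Λ ^ 7 * (1 / t ^ 18) ^ 2)) - 1 ≤ 1 / (2 * Λ ^ 3) := by
    have b1 := exp_le_exp.2 a1
    have b2 : |exp (1 / (4 * Λ ^ 3)) - 1| ≤ 2 * |1 / (4 * Λ ^ 3)| :=
      abs_exp_sub_one_le (by rw [abs_of_pos (by positivity)]; exact a2)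
    have b3 := (le_abs_self _).trans b2
    rw [abs_of_pos (by positivity)] at b3
    have b4 : 2 * (1 / (4 * Λ ^ 3)) = 1 / (2 * Λ ^ 3) := by field_simp; norm_num
    linarith
  have a4 : 1 / Y * (1 + ly * (Y / ζ + 1)) ≤ 5 * Λ / ζ := by
    have b1 : 1 / Y ≤ 1 / ζ := one_div_le_one_div_of_le hζ0 hY
    have e : 1 / Y * (1 + ly * (Y / ζ + 1)) = 1 / Y + ly * (1 / ζ + 1 / Y) := by field_simp
    have b2 : ly * (1 / ζ + 1 / Y) ≤ 2 * Λ * (1 / ζ + 1 / ζ) := by gcongr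
    have b3 : 1 / ζ ≤ Λ * (1 / ζ) := le_mul_of_one_le_left (by positivity) hΛ1
    have e2 : 5 * Λ / ζ = Λ * (1 / ζ) + 2 * Λ * (1 / ζ + 1 / ζ) := by ring
    rw [e, e2]
    linarith
  have a5 : 10 * Λ ^ 7 * exp (5 * Λ / t ^ 2) ≤ ζ := by
    have b1 : (10 : ℝ) ≤ exp 3 := by
      have := add_one_le_exp (3 / 2 : ℝ)
      have h := sum_le_exp_of_nonneg (x := 3) (by norm_num) 4
      simp only [sum_range_succ, range_zero, sum_empty, Nat.factorial] at h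
      norm_num at h
      linarith
    have b2 : Λ ^ 7 = exp (7 * t) := by
      rw [hΛ, ← exp_nat_mul]
      norm_num
    have b3 : 3 + 7 * t + 5 * Λ / t ^ 2 ≤ Λ / (20 * t) := by
      have c1 : 5 * Λ / t ^ 2 ≤ Λ / (40 * t) := by
        rw [div_le_div_iff₀ (by positivity) (by positivity)]
        have : 200 * t ≤ t ^ 2 := by nlinarith
        nlinarith
      have c2 : 3 + 7 * t ≤ Λ / (40 * t) := by
        rw [le_div_iff₀ (by positivity)]
        nlinarith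
      have c3 : Λ / (20 * t) = Λ / (40 * t) + Λ / (40 * t) := by field_simp; norm_num
      linarith
    calc 10 * Λ ^ 7 * exp (5 * Λ / t ^ 2) ≤ exp 3 * Λ ^ 7 * exp (5 * Λ / t ^ 2) := by gcongr
      _ = exp (3 + 7 * t + 5 * Λ / t ^ 2) := by rw [b2, exp_add, exp_add]
      _ ≤ ζ := exp_le_exp.2 b3
  have a6 : exp (5 * Λ / t ^ 2) * (1 / Y) * L ^ 3 * (1 + ly * (Y / ζ + 1)) ≤ 1 / (2 * Λ ^ 3) := by
    calc exp (5 * Λ / t ^ 2) * (1 / Y) * L ^ 3 * (1 + ly * (Y / ζ + 1))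
        = exp (5 * Λ / t ^ 2) * L ^ 3 * (1 / Y * (1 + ly * (Y / ζ + 1))) := by ring
      _ ≤ exp (5 * Λ / t ^ 2) * Λ ^ 3 * (5 * Λ / ζ) := by gcongr
      _ = 5 * Λ ^ 4 * exp (5 * Λ / t ^ 2) / ζ := by ring
      _ ≤ 1 / (2 * Λ ^ 3) := by
        rw [div_le_div_iff₀ hζ0 (by positivity)]
        calc 5 * Λ ^ 4 * exp (5 * Λ / t ^ 2) * (2 * Λ ^ 3)
            = 10 * Λ ^ 7 * exp (5 * Λ / t ^ 2) := by ring
          _ ≤ 1 * ζ := by linarith
  have e : 1 / Λ ^ 3 = 1 / (2 * Λ ^ 3) + 1 / (2 * Λ ^ 3) := by field_simp; norm_num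
  linarith

/-- the degree condition -/
lemma deg_le {C t Λ : ℝ} (ht : 0 < t) (hΛ : 0 < Λ) (h : 288 * C * log t ≤ t) :
    24 * t * (C * t * log t / Λ * (1 / t ^ 6)) ≤ 1 / (12 * t ^ 3 * Λ) := by
  have e : 24 * t * (C * t * log t / Λ * (1 / t ^ 6)) =
      288 * C * log t / t * (1 / (12 * t ^ 3 * Λ)) := by
    field_simp
    ring
  rw [e]
  exact mul_le_of_le_one_left (by positivity) ((div_le_one ht).2 h)

lemma nums {t Λ x y : ℝ} (ht : 200 ≤ t) (h36 : 32 * t ^ 36 ≤ Λ) (hx : Λ ≤ x) (hy1 : x * Λ / t ≤ y)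
    (hy2 : y ≤ x * Λ) : 400 * t ^ 3 ≤ Λ ∧ 52 ≤ Λ ∧ 1 ≤ t ^ 3 ∧ 4 * x ≤ y ∧
      Λ / t ^ 3 * (4 * x) ≤ y ∧ t < Λ / (20 * t) ∧ 2 * y + 1 ≤ 3 * (x * Λ) ∧
      1 / (12 * t ^ 3 * Λ) ≤ 1 := by
  have ht0 : 0 < t := by linarith
  have ht1 : 1 ≤ t := by linarith
  have h33 : (200 : ℝ) ≤ t ^ 33 := ht.trans (le_self_pow₀ ht1 (by norm_num))
  have ht3 : t ≤ t ^ 3 := le_self_pow₀ ht1 (by norm_num)
  have ht32 : t ^ 2 ≤ t ^ 3 := pow_le_pow_right₀ ht1 (by norm_num)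
  have h3 : 400 * t ^ 3 ≤ Λ := by
    have : t ^ 36 = t ^ 33 * t ^ 3 := by ring
    nlinarith
  clear h36 h33
  have hΛ1 : 52 ≤ Λ := by linarith
  have hx0 : 0 < x := by linarith
  have hΛ0 : 0 < Λ := by linarith
  refine ⟨h3, hΛ1, by linarith, ?_, ?_, ?_, by nlinarith, ?_⟩
  · refine le_trans ?_ hy1
    rw [le_div_iff₀ ht0]
    nlinarith
  · refine le_trans ?_ hy1
    calc Λ / t ^ 3 * (4 * x) = 4 / t ^ 2 * (x * Λ / t) := by field_simp
      _ ≤ x * Λ / t := by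
        refine mul_le_of_le_one_left (by positivity) ((div_le_one (by positivity)).2 ?_)
        nlinarith
  · rw [lt_div_iff₀ (by positivity)]
    nlinarith
  · rw [div_le_one (by positivity)]
    nlinarith

lemma id1 {t Λ x : ℝ} (ht : 0 < t) (hΛ : 0 < Λ) (hx : 0 < x) :
    1 / (12 * t ^ 3 * Λ) = x / (2 * Λ) * (Λ / t ^ 3 / 2 * (1 / (3 * (x * Λ)))) := by
  field_simp
  norm_num

lemma id2 {Λ x : ℝ} (hΛ : 0 < Λ) :
    (1 / Λ ^ 3 + 4 * (1 / Λ ^ 3)) * (x * Λ) + 2 * Λ * (4 * x) * (1 / Λ ^ 3) =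
      52 / Λ * (x / (4 * Λ)) := by
  field_simp
  ring

end F1

open F1

theorem stmtF1 (h1 : StmtB1) (hC : StmtC) (hS : StmtS) (hCh : StmtCh) : StmtF1 := by
  obtain ⟨C, hC0, hS⟩ := hS
  have htt : Tendsto tt atTop atTop :=
    tendsto_log_atTop.comp (tendsto_log_atTop.comp tendsto_natCast_atTop_atTop)
  filter_upwards [hS, hCh, htt.eventually (ev_t C hC0), eventually_ge_atTop 2] with x hS hCh hev hx2
    y hy1 hy2
  obtain ⟨s1, s2, s3, s4, s5⟩ := hS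
  obtain ⟨ht, hlt, h36⟩ := hev
  have hx1 : (1 : ℝ) < x := by exact_mod_cast hx2
  have hx0 : (0 : ℝ) < x := by linarith
  have hΛ0 : 0 < log x := log_pos hx1
  have hΛe : log x = exp (tt x) := (exp_log hΛ0).symm
  rw [← hΛe] at h36
  have hzz : zz x = exp (log x / (20 * tt x)) := rfl
  have htdef : tt x = log (log x) := rfl
  generalize hΛ : log (x : ℝ) = Λ at *
  set t := tt x with htx
  have ht0 : 0 < t := by linarith
  have ht1 : 1 ≤ t := by linarith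
  have hxΛ : Λ ≤ x := by
    rw [← hΛ]
    exact (log_le_sub_one_of_pos hx0).trans (by linarith)
  obtain ⟨h3, hΛ1, ht3, hy4, n1, n2, n3, n4⟩ := nums ht h36 hxΛ hy1 hy2
  set L : ℕ := ⌊Λ / t ^ 3⌋₊ with hL
  have hv : 400 ≤ Λ / t ^ 3 := (le_div_iff₀ (by positivity)).2 h3
  have hL1 : (L : ℝ) ≤ Λ / t ^ 3 := Nat.floor_le (by positivity)
  have hL2 : Λ / t ^ 3 / 2 ≤ L := by
    have := Nat.sub_one_lt_floor (Λ / t ^ 3)
    linarith
  have hL3 : (L : ℝ) ≤ Λ := hL1.trans (div_le_self hΛ0.le ht3)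
  have hL4 : 1 ≤ L := by
    have : (1 : ℝ) ≤ L := by linarith
    exact_mod_cast this
  have hy0 : (0 : ℝ) < y := by linarith
  have hly : log y ≤ 2 * Λ := by
    have a1 := log_le_log hy0 hy2
    rw [log_mul hx0.ne' hΛ0.ne', hΛ] at a1
    have a2 := log_le_sub_one_of_pos hΛ0
    linarith
  have hM := s2 L hL4 hL3
  obtain ⟨-, -, -, -, b5⟩ := h1 _ _ _ _ _ hM
  have hlogt : 0 ≤ log t := log_nonneg ht1
  have hPb : ∀ a ∈ E1 x y, Pb (LLx x) (ka x) {a} ≤ C * t * log t / Λ * (1 / t ^ 6) := by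
    intro a ha
    have a1 := s4 a (mem_filter.1 ha).2
    calc _ ≤ _ := b5 a
      _ ≤ C * t * log t / Λ * kap (LLx x) (ka x) a := mul_le_mul_of_nonneg_right s1 (s5 a).1
      _ ≤ _ := mul_le_mul_of_nonneg_left a1 (by positivity)
  have hdeg := deg_le ht0 hΛ0 hlt
  have hE : E1 x y ⊆ Icc (1 : ℤ) y := filter_subset _ _
  have hF : Fam (LLx x) (ka x) (1 / t ^ 18) (Λ ^ 7) L (E1 x y) y (range L) (pr x (4 * x)) L
      (fun _ _ => 1 / (2 * (y : ℝ) + 1)) (1 / (2 * (y : ℝ) + 1)) (zz x) (exp (5 * Λ / t ^ 2))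
      (24 * t) (1 / Λ ^ 3) := by
    refine ⟨hM, hE, (card_range L).le, fun h hh => (mem_range.1 hh).le, fun p hp => ?_, ?_,
      fun _ _ => ⟨by positivity, le_rfl⟩, fun p _ => ?_, fun ℓ _ hk b _ _ => ?_,
      fun e he hc => ?_, by linarith, ?_, fun a ha => ?_⟩
    · obtain ⟨hp1, hp2⟩ := mem_filter.1 hp
      obtain ⟨hp3, hp4⟩ := mem_Ioc.1 hp1
      have hp5 : (x : ℝ) < p := by exact_mod_cast hp3
      have hp6 : (p : ℝ) ≤ 4 * x := by exact_mod_cast hp4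
      refine ⟨hp2, ?_, ?_, ?_⟩
      · have : (L : ℝ) < p := by linarith
        exact_mod_cast this
      · have : (p : ℝ) ≤ y := by linarith
        exact_mod_cast this
      · have : (L : ℝ) * p ≤ y := by
          exact (mul_le_mul hL1 hp6 (Nat.cast_nonneg p) (by positivity)).trans n1
        exact_mod_cast this
    · rw [hzz]
      refine lt_of_le_of_lt hL3 ?_
      exact hΛe.trans_lt (exp_lt_exp.2 n2)
    · rw [sum_const, Int.card_Icc, nsmul_eq_mul]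
      have a1 : ((y : ℤ) + 1 - -(y : ℤ)).toNat = 2 * y + 1 := by omega
      rw [a1]
      push_cast
      rw [mul_one_div_cancel (by positivity)]
    · by_contra hn
      have : ka x ℓ = 1 := if_pos (not_le.1 hn).le
      linarith
    · refine s3 L e hL4 hL1 hc fun a ha => ?_
      obtain ⟨a1, a2⟩ := mem_Icc.1 (hE (he ha))
      have a3 : (a : ℝ) ≤ y := by exact_mod_cast a2
      exact ⟨a1, a3.trans hy2⟩
    · rw [hzz]
      refine eta_le hΛe ht h36 (Nat.cast_nonneg L) hL3 (log_natCast_nonneg y) hly ?_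
      have a1 : Λ / (20 * t) ≤ Λ := div_le_self hΛ0.le (by linarith)
      have a2 : exp Λ = x := by rw [← hΛ, exp_log hx0]
      have a3 := exp_le_exp.2 a1
      linarith
    · simp only [sum_const, card_range, nsmul_eq_mul]
      have a2 : 1 / (3 * (x * Λ)) ≤ 1 / (2 * (y : ℝ) + 1) :=
        one_div_le_one_div_of_le (by positivity) n3
      calc 24 * t * Pb (LLx x) (ka x) {a} ≤ 24 * t * (C * t * log t / Λ * (1 / t ^ 6)) :=
            mul_le_mul_of_nonneg_left (hPb a ha) (by positivity)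
        _ ≤ 1 / (12 * t ^ 3 * Λ) := hdeg
        _ = x / (2 * Λ) * (Λ / t ^ 3 / 2 * (1 / (3 * (x * Λ)))) := id1 ht0 hΛ0 hx0
        _ ≤ _ := mul_le_mul hCh.1 (mul_le_mul hL2 a2 (by positivity) (Nat.cast_nonneg L))
            (by positivity) (Nat.cast_nonneg _)
  refine good_mono (hC _ _ _ _ _ _ _ _ _ _ _ _ _ _ _ _ hF) ?_
  have c1 : exp (-(24 * t) / 8) = 1 / Λ ^ 3 := by
    rw [hΛe, ← exp_nat_mul, one_div, ← exp_neg]
    congr 1
    push_cast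
    ring
  have c2 : ∀ a ∈ E1 x y, Pb (LLx x) (ka x) {a} ≤ 1 := by
    intro a ha
    refine (hPb a ha).trans ?_
    have a2 : 0 ≤ C * t * log t / Λ * (1 / t ^ 6) := by positivity
    exact (le_mul_of_one_le_left a2 (by linarith)).trans (hdeg.trans n4)
  have c3 : ∑ a ∈ E1 x y, Pb (LLx x) (ka x) {a} ≤ x * Λ := by
    refine (sum_le_card_nsmul _ _ _ c2).trans ?_
    rw [nsmul_eq_mul, mul_one]
    refine le_trans ?_ hy2
    have a1 := card_le_card hE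
    rw [Int.card_Icc] at a1
    have a2 : (E1 x y).card ≤ y := by omega
    exact_mod_cast a2
  have c4 : ((pr x (4 * x)).card : ℝ) ≤ 4 * x := by
    have a1 : (pr x (4 * x)).card ≤ (Ioc x (4 * x)).card := card_filter_le _ _
    rw [Nat.card_Ioc] at a1
    have a2 : (pr x (4 * x)).card ≤ 4 * x := by omega
    exact_mod_cast a2
  rw [c1]
  calc (1 / Λ ^ 3 + 4 * (1 / Λ ^ 3)) * ∑ a ∈ E1 x y, Pb (LLx x) (ka x) {a} +
        2 * L * (pr x (4 * x)).card * (1 / Λ ^ 3)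
      ≤ (1 / Λ ^ 3 + 4 * (1 / Λ ^ 3)) * (x * Λ) + 2 * Λ * (4 * x) * (1 / Λ ^ 3) :=
        add_le_add (mul_le_mul_of_nonneg_left c3 (by positivity))
          (mul_le_mul_of_nonneg_right (mul_le_mul (by linarith) c4 (Nat.cast_nonneg _)
            (by positivity)) (by positivity))
    _ = 52 / Λ * (x / (4 * Λ)) := id2 hΛ0
    _ ≤ x / (4 * Λ) := mul_le_of_le_one_left (by positivity) ((div_le_one hΛ0).2 hΛ1)

end Vale.Agent.N013L
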