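import Vale.Agent.N013L.Def2
import Vale.Agent.N013L.F1

/-! The survivors with a large rough part, at the top scale. -/

namespace Vale.Agent.N013L

open Real Filter Finset

namespace F1b

lemma nums2 {t Λ X y : ℝ} (ht : 200 ≤ t) (h3 : 400 * t ^ 3 ≤ Λ) (hX : 0 < X)
    (hy1 : X * Λ / t ≤ y) : 16 * X ≤ y ∧ Λ / t ^ 3 * (16 * X) ≤ y := by
  have ht0 : 0 < t := by linarith
  have ht3 : t ≤ t ^ 3 := le_self_pow₀ (by linarith) (by norm_num)
  have hΛ0 : 0 < Λ := by linarith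
  constructor
  · refine le_trans ?_ hy1
    rw [le_div_iff₀ ht0]
    have := mul_le_mul_of_nonneg_left (show 16 * t ≤ Λ by linarith) hX.le
    linarith
  · refine le_trans ?_ hy1
    calc Λ / t ^ 3 * (16 * X) = 16 / t ^ 2 * (X * Λ / t) := by field_simp
      _ ≤ X * Λ / t := by
        refine mul_le_of_le_one_left (by positivity) ((div_le_one (by positivity)).2 ?_)
        nlinarith

lemma four_pow {t Λ : ℝ} {J : ℕ} (ht : 200 ≤ t) (h3 : 400 * t ^ 3 ≤ Λ)
    (hJ : (J : ℝ) ≤ log t + 3) : (4 : ℝ) ^ J ≤ Λ := by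
  have ht0 : 0 < t := by linarith
  have a1 : (4 : ℝ) ≤ exp 2 := by
    have := add_one_le_exp (1 : ℝ)
    have e : exp 2 = exp 1 * exp 1 := by rw [← exp_add]; norm_num
    nlinarith
  have a2 : (4 : ℝ) ^ J ≤ exp (2 * (log t + 3)) := by
    refine (pow_le_pow_left₀ (by norm_num) a1 J).trans ?_
    rw [← exp_nat_mul]
    exact exp_le_exp.2 (by linarith)
  have a3 : exp (2 * (log t + 3)) = t ^ 2 * exp 1 ^ 6 := by
    rw [← exp_nat_mul, show 2 * (log t + 3) = log t + log t + (6 : ℕ) * 1 by push_cast; ring,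
      exp_add, exp_add, exp_log ht0, sq]
  have a4 : exp 1 ^ 6 ≤ 3 ^ 6 := pow_le_pow_left₀ (exp_pos _).le exp_one_lt_three.le 6
  have a5 := mul_le_mul_of_nonneg_left a4 (sq_nonneg t)
  have a6 : t ^ 2 * 200 ≤ t ^ 2 * t := mul_le_mul_of_nonneg_left ht (sq_nonneg t)
  nlinarith [sq_nonneg t]

end F1b

open F1 F1b

theorem stmtF1b (h1 : StmtB1) (hC : StmtC) (hS : StmtS) (hSb : StmtSb) (hCh : StmtCh) :
    StmtF1b := by
  obtain ⟨N, hN⟩ := eventually_atTop.1 hCh
  obtain ⟨C, hC0, hS⟩ := hS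
  have htt : Tendsto tt atTop atTop :=
    tendsto_log_atTop.comp (tendsto_log_atTop.comp tendsto_natCast_atTop_atTop)
  filter_upwards [hS, hSb, htt.eventually (ev_t C hC0), eventually_ge_atTop 2,
    eventually_ge_atTop N] with x hS s3 hev hx2 hxN J X y hJ hX hy1 hy2
  obtain ⟨s1, s2, -, s4, s5⟩ := hS
  have hxX : x ≤ X := by
    rw [hX]
    exact Nat.le_mul_of_pos_left x (by positivity)
  have hCh := (hN X (hxN.trans hxX)).2.1
  have hxX' : (x : ℝ) ≤ X := by exact_mod_cast hxX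
  obtain ⟨ht, hlt, h36⟩ := hev
  have hx1 : (1 : ℝ) < x := by exact_mod_cast hx2
  have hx0 : (0 : ℝ) < x := by linarith
  have hΛ0 : 0 < log x := log_pos hx1
  have hΛe : log x = exp (tt x) := (exp_log hΛ0).symm
  rw [← hΛe] at h36
  have hzz : zz x = exp (log x / (20 * tt x)) := rfl
  have htdef : tt x = log (log x) := rfl
  generalize hΛ : log (x : ℝ) = Λ at *
  set t := tt x with htx
  have ht0 : 0 < t := by linarith
  have ht1 : 1 ≤ t := by linarith
  have hxΛ : Λ ≤ x := by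
    rw [← hΛ]
    exact (log_le_sub_one_of_pos hx0).trans (by linarith)
  have hX0 : (0 : ℝ) < X := by linarith
  obtain ⟨h3, -, ht3, -, -, n2, n3, n4⟩ := nums ht h36 (hxΛ.trans hxX') hy1 hy2
  have hΛ1 : 400 ≤ Λ := by linarith
  obtain ⟨hy4, n1⟩ := nums2 ht h3 hX0 hy1
  have hXΛ : (X : ℝ) ≤ x * Λ := by
    rw [hX]
    push_cast
    rw [mul_comm]
    exact mul_le_mul_of_nonneg_left (four_pow ht h3 hJ) hx0.le
  have hy3 : (y : ℝ) ≤ x * Λ ^ 2 := by
    have := mul_le_mul_of_nonneg_right hXΛ hΛ0.le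
    linarith
  set L : ℕ := ⌊Λ / t ^ 3⌋₊ with hL
  have hv : 400 ≤ Λ / t ^ 3 := (le_div_iff₀ (by positivity)).2 h3
  have hL1 : (L : ℝ) ≤ Λ / t ^ 3 := Nat.floor_le (by positivity)
  have hL2 : Λ / t ^ 3 / 2 ≤ L := by
    have := Nat.sub_one_lt_floor (Λ / t ^ 3)
    linarith
  have hL3 : (L : ℝ) ≤ Λ := hL1.trans (div_le_self hΛ0.le ht3)
  have hL4 : 1 ≤ L := by
    have : (1 : ℝ) ≤ L := by linarith
    exact_mod_cast this
  have hy0 : (0 : ℝ) < y := by linarith
  have hly : log y ≤ 2 * Λ := by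
    have a1 := log_le_log hy0 hy3
    rw [log_mul hx0.ne' (by positivity), hΛ, log_pow, ← htdef] at a1
    have a2 : t ≤ t ^ 3 := le_self_pow₀ ht1 (by norm_num)
    push_cast at a1
    linarith
  have hcard : X / (2 * Λ) ≤ (pr (4 * X) (16 * X)).card := by
    refine le_trans (div_le_div_of_nonneg_left hX0.le (log_pos (by linarith)) ?_) hCh
    exact (log_le_log hX0 (by linarith)).trans hly
  have hM := s2 L hL4 hL3
  obtain ⟨-, -, -, -, b5⟩ := h1 _ _ _ _ _ hM
  have hlogt : 0 ≤ log t := log_nonneg ht1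
  have hPb : ∀ a ∈ E1 x y, Pb (LLx x) (ka x) {a} ≤ C * t * log t / Λ * (1 / t ^ 6) := by
    intro a ha
    have a1 := s4 a (mem_filter.1 ha).2
    calc _ ≤ _ := b5 a
      _ ≤ C * t * log t / Λ * kap (LLx x) (ka x) a := mul_le_mul_of_nonneg_right s1 (s5 a).1
      _ ≤ _ := mul_le_mul_of_nonneg_left a1 (by positivity)
  have hdeg := deg_le ht0 hΛ0 hlt
  have hE : E1 x y ⊆ Icc (1 : ℤ) y := filter_subset _ _
  have hF : Fam (LLx x) (ka x) (1 / t ^ 18) (Λ ^ 7) L (E1 x y) y (range L) (pr (4 * X) (16 * X)) L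
      (fun _ _ => 1 / (2 * (y : ℝ) + 1)) (1 / (2 * (y : ℝ) + 1)) (zz x) (exp (5 * Λ / t ^ 2))
      (24 * t) (1 / Λ ^ 3) := by
    refine ⟨hM, hE, (card_range L).le, fun h hh => (mem_range.1 hh).le, fun p hp => ?_, ?_,
      fun _ _ => ⟨by positivity, le_rfl⟩, fun p _ => ?_, fun ℓ _ hk b _ _ => ?_,
      fun e he hc => ?_, by linarith, ?_, fun a ha => ?_⟩
    · obtain ⟨hp1, hp2⟩ := mem_filter.1 hp
      obtain ⟨hp3, hp4⟩ := mem_Ioc.1 hp1
      have hp5 : 4 * (X : ℝ) < p := by exact_mod_cast hp3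
      have hp6 : (p : ℝ) ≤ 16 * X := by exact_mod_cast hp4
      refine ⟨hp2, ?_, ?_, ?_⟩
      · have : (L : ℝ) < p := by linarith
        exact_mod_cast this
      · have : (p : ℝ) ≤ y := by linarith
        exact_mod_cast this
      · have : (L : ℝ) * p ≤ y := by
          exact (mul_le_mul hL1 hp6 (Nat.cast_nonneg p) (by positivity)).trans n1
        exact_mod_cast this
    · rw [hzz]
      refine lt_of_le_of_lt hL3 ?_
      exact hΛe.trans_lt (exp_lt_exp.2 n2)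
    · rw [sum_const, Int.card_Icc, nsmul_eq_mul]
      have a1 : ((y : ℤ) + 1 - -(y : ℤ)).toNat = 2 * y + 1 := by omega
      rw [a1]
      push_cast
      rw [mul_one_div_cancel (by positivity)]
    · by_contra hn
      have : ka x ℓ = 1 := if_pos (not_le.1 hn).le
      linarith
    · refine s3 L e hL4 hL1 hc fun a ha => ?_
      obtain ⟨a1, a2⟩ := mem_Icc.1 (hE (he ha))
      have a3 : (a : ℝ) ≤ y := by exact_mod_cast a2
      exact ⟨a1, a3.trans hy3⟩
    · rw [hzz]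
      refine eta_le hΛe ht h36 (Nat.cast_nonneg L) hL3 (log_natCast_nonneg y) hly ?_
      have a1 : Λ / (20 * t) ≤ Λ := div_le_self hΛ0.le (by linarith)
      have a2 : exp Λ = x := by rw [← hΛ, exp_log hx0]
      have a3 := exp_le_exp.2 a1
      linarith
    · simp only [sum_const, card_range, nsmul_eq_mul]
      have a2 : 1 / (3 * (X * Λ)) ≤ 1 / (2 * (y : ℝ) + 1) :=
        one_div_le_one_div_of_le (by positivity) n3
      calc 24 * t * Pb (LLx x) (ka x) {a} ≤ 24 * t * (C * t * log t / Λ * (1 / t ^ 6)) :=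
            mul_le_mul_of_nonneg_left (hPb a ha) (by positivity)
        _ ≤ 1 / (12 * t ^ 3 * Λ) := hdeg
        _ = X / (2 * Λ) * (Λ / t ^ 3 / 2 * (1 / (3 * (X * Λ)))) := id1 ht0 hΛ0 hX0
        _ ≤ _ := mul_le_mul hcard (mul_le_mul hL2 a2 (by positivity) (Nat.cast_nonneg L))
            (by positivity) (Nat.cast_nonneg _)
  refine good_mono (hC _ _ _ _ _ _ _ _ _ _ _ _ _ _ _ _ hF) ?_
  have c1 : exp (-(24 * t) / 8) = 1 / Λ ^ 3 := by
    rw [hΛe, ← exp_nat_mul, one_div, ← exp_neg]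
    congr 1
    push_cast
    ring
  have c2 : ∀ a ∈ E1 x y, Pb (LLx x) (ka x) {a} ≤ 1 := by
    intro a ha
    refine (hPb a ha).trans ?_
    have a2 : 0 ≤ C * t * log t / Λ * (1 / t ^ 6) := by positivity
    exact (le_mul_of_one_le_left a2 (by linarith)).trans (hdeg.trans n4)
  have c3 : ∑ a ∈ E1 x y, Pb (LLx x) (ka x) {a} ≤ X * Λ := by
    refine (sum_le_card_nsmul _ _ _ c2).trans ?_
    rw [nsmul_eq_mul, mul_one]
    refine le_trans ?_ hy2
    have a1 := card_le_card hE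
    rw [Int.card_Icc] at a1
    have a2 : (E1 x y).card ≤ y := by omega
    exact_mod_cast a2
  have c4 : ((pr (4 * X) (16 * X)).card : ℝ) ≤ 16 * X := by
    have a1 : (pr (4 * X) (16 * X)).card ≤ (Ioc (4 * X) (16 * X)).card := card_filter_le _ _
    rw [Nat.card_Ioc] at a1
    have a2 : (pr (4 * X) (16 * X)).card ≤ 16 * X := by omega
    exact_mod_cast a2
  rw [c1]
  calc (1 / Λ ^ 3 + 4 * (1 / Λ ^ 3)) * ∑ a ∈ E1 x y, Pb (LLx x) (ka x) {a} +
        2 * L * (pr (4 * X) (16 * X)).card * (1 / Λ ^ 3)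
      ≤ (1 / Λ ^ 3 + 4 * (1 / Λ ^ 3)) * (X * Λ) + 2 * Λ * (16 * X) * (1 / Λ ^ 3) :=
        add_le_add (mul_le_mul_of_nonneg_left c3 (by positivity))
          (mul_le_mul_of_nonneg_right (mul_le_mul (by linarith) c4 (Nat.cast_nonneg _)
            (by positivity)) (by positivity))
    _ = 296 / Λ * (X / (8 * Λ)) := by
        field_simp
        ring
    _ ≤ X / (8 * Λ) :=
        mul_le_of_le_one_left (by positivity) ((div_le_one hΛ0).2 (by linarith))

end Vale.Agent.N013L
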