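import Vale.Agent.N013L.Def

/-! Block F2: covering the surviving primes. -/

namespace Vale.Agent.N013L

open Finset Real Filter

namespace F2

lemma good_mono {LL : Finset ℕ} {κ : ℕ → ℝ} {E : Finset ℤ} {PP : Finset ℕ} {B B' : ℝ}
    (h : Good LL κ E PP B) (hB : B ≤ B') : Good LL κ E PP B' := by
  obtain ⟨F, h1, h2⟩ := h
  exact ⟨F, h1.trans hB, h2⟩

lemma exp_sub_one_le {u : ℝ} (h0 : 0 ≤ u) (h1 : u ≤ 1 / 2) : exp u - 1 ≤ 2 * u := by
  have h2 : 0 < 1 - u := by linarith only [h1]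
  have h3 := Real.add_one_le_exp (-u)
  have h4 : exp u * exp (-u) = 1 := by rw [← Real.exp_add, add_neg_cancel, Real.exp_zero]
  have h5 : exp u * (1 - u) ≤ 1 := by
    nlinarith only [h3, h4, Real.exp_pos u, mul_le_mul_of_nonneg_left h3 (Real.exp_pos u).le]
  by_contra h
  have h6 : (1 + 2 * u) * (1 - u) < exp u * (1 - u) :=
    mul_lt_mul_of_pos_right (by linarith only [not_le.1 h]) h2
  nlinarith only [h5, h6, h0, h1]

/-- the error term of the family -/
lemma eta_le {t Λ L y X : ℝ} (ht : 100 ≤ t) (hΛ : Λ = exp t) (h36 : 32 * t ^ 36 ≤ Λ)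
    (hX : X = exp Λ) (hL0 : 0 ≤ L) (hL : L ≤ Λ) (hy1 : 1 ≤ y) (hy : log y ≤ 2 * Λ) :
    exp (4 * L ^ 2 * log y / (Λ ^ 7 * (1 / t ^ 18) ^ 2)) - 1 +
      exp (5 * Λ / t ^ 2) * (1 / √X) * L ^ 3 * (1 + log y * ((2 * y + 1) / y + 1)) ≤
      1 / Λ ^ 3 := by
  have ht0 : 0 < t := by linarith only [ht]
  have ht1 : 1 ≤ t := by linarith only [ht]
  have hΛ0 : 0 < Λ := hΛ ▸ Real.exp_pos _
  have hly : 0 ≤ log y := Real.log_nonneg hy1
  have ht36 : t ≤ t ^ 36 := le_self_pow₀ ht1 (by norm_num)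
  have hΛ1 : 1 ≤ Λ := by linarith only [h36, ht36, ht]
  have b0 : 0 ≤ 4 * L ^ 2 * log y / (Λ ^ 7 * (1 / t ^ 18) ^ 2) := by positivity
  have b1 : 4 * L ^ 2 * log y / (Λ ^ 7 * (1 / t ^ 18) ^ 2) ≤ 1 / (4 * Λ ^ 3) := by
    have e : 4 * L ^ 2 * log y / (Λ ^ 7 * (1 / t ^ 18) ^ 2) =
        4 * L ^ 2 * log y * t ^ 36 / Λ ^ 7 := by field_simp
    rw [e, div_le_div_iff₀ (by positivity) (by positivity)]
    have k1 : L ^ 2 ≤ Λ ^ 2 := pow_le_pow_left₀ hL0 hL 2
    have k2 : L ^ 2 * log y ≤ Λ ^ 2 * (2 * Λ) := mul_le_mul k1 hy hly (by positivity)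
    have k3 : L ^ 2 * log y * (32 * t ^ 36) ≤ Λ ^ 2 * (2 * Λ) * Λ :=
      mul_le_mul k2 h36 (by positivity) (by positivity)
    have k4 := mul_le_mul_of_nonneg_right k3 (show 0 ≤ Λ ^ 3 by positivity)
    linarith only [k4]
  have b2 : 1 / (4 * Λ ^ 3) ≤ 1 / 2 :=
    one_div_le_one_div_of_le (by norm_num) (by linarith only [one_le_pow₀ (n := 3) hΛ1])
  have b3 := exp_sub_one_le b0 (b1.trans b2)
  have c1 : (2 * y + 1) / y + 1 ≤ 4 := by
    have : (2 * y + 1) / y ≤ 3 := by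
      rw [div_le_iff₀ (by linarith only [hy1])]
      linarith only [hy1]
    linarith only [this]
  have c2 : 1 + log y * ((2 * y + 1) / y + 1) ≤ 9 * Λ := by
    have := mul_le_mul hy c1 (by positivity) (by positivity)
    linarith only [this, hΛ1]
  have c3 : L ^ 3 ≤ Λ ^ 3 := pow_le_pow_left₀ hL0 hL 3
  have c4 : 1 / √X = exp (-(Λ / 2)) := by
    rw [hX, Real.exp_neg, ← Real.exp_half, one_div]
  have c5 : exp (5 * Λ / t ^ 2) ≤ exp (Λ / 4) := by
    refine exp_le_exp.2 ?_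
    rw [div_le_div_iff₀ (by positivity) (by norm_num)]
    nlinarith only [hΛ0, ht, mul_le_mul_of_nonneg_left (show 20 ≤ t ^ 2 by nlinarith only [ht])
      hΛ0.le]
  have c6 : 18 * Λ ^ 7 ≤ exp (Λ / 4) := by
    have k1 : Λ ^ 7 = exp (7 * t) := by
      rw [hΛ, ← Real.exp_nat_mul]; norm_num
    have k2 : (18 : ℝ) ≤ exp t := by linarith only [Real.add_one_le_exp t, ht]
    calc 18 * Λ ^ 7 ≤ exp t * exp (7 * t) := by
          rw [k1]; exact mul_le_mul_of_nonneg_right k2 (Real.exp_pos _).le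
      _ = exp (8 * t) := by rw [← Real.exp_add]; congr 1; ring
      _ ≤ _ := exp_le_exp.2 (by linarith only [h36, ht36])
  have c7 : exp (5 * Λ / t ^ 2) * (1 / √X) * L ^ 3 * (1 + log y * ((2 * y + 1) / y + 1)) ≤
      1 / (2 * Λ ^ 3) := by
    have k1 : exp (5 * Λ / t ^ 2) * (1 / √X) ≤ 1 / (18 * Λ ^ 7) := by
      rw [c4]
      calc _ ≤ exp (Λ / 4) * exp (-(Λ / 2)) := mul_le_mul_of_nonneg_right c5 (Real.exp_pos _).le
        _ = 1 / exp (Λ / 4) := by
          rw [← Real.exp_add, one_div, ← Real.exp_neg]; congr 1; ring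
        _ ≤ _ := one_div_le_one_div_of_le (by positivity) c6
    calc _ ≤ 1 / (18 * Λ ^ 7) * Λ ^ 3 * (9 * Λ) :=
          mul_le_mul (mul_le_mul k1 c3 (by positivity) (by positivity)) c2 (by positivity)
            (by positivity)
      _ = 1 / (2 * Λ ^ 3) := by field_simp; ring
  have e : 1 / Λ ^ 3 = 2 * (1 / (4 * Λ ^ 3)) + 1 / (2 * Λ ^ 3) := by field_simp; ring
  linarith only [b1, b3, c7, e]

lemma final_le {t Λ L X C S N : ℝ} (ht : 100 ≤ t) (hC : 0 < C) (htC : 160 * C ≤ t) (hΛ : t ≤ Λ)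
    (hX : 0 < X) (hL : L ≤ Λ) (hS : S ≤ 4 * X * (C * t * log t / Λ))
    (hN0 : 0 ≤ N) (hN : N ≤ 64 * X / Λ) :
    (exp (-(24 * log t) / 8) + 4 * (1 / Λ ^ 3)) * S + 2 * L * N * (1 / Λ ^ 3) ≤ X / (4 * Λ) := by
  have ht0 : 0 < t := by linarith only [ht]
  have hΛ0 : 0 < Λ := by linarith only [ht0, hΛ]
  have e1 : exp (-(24 * log t) / 8) = 1 / t ^ 3 := by
    rw [show -(24 * log t) / 8 = -(((3 : ℕ) : ℝ) * log t) by push_cast; ring, Real.exp_neg,
      Real.exp_nat_mul, Real.exp_log ht0, one_div]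
  have e2 : 1 / Λ ^ 3 ≤ 1 / t ^ 3 :=
    one_div_le_one_div_of_le (by positivity) (pow_le_pow_left₀ ht0.le hΛ 3)
  have e3 : log t ≤ t := (Real.log_le_sub_one_of_pos ht0).trans (by linarith only)
  have e4 : S ≤ 4 * X * (C * t * t / Λ) := by
    refine hS.trans (mul_le_mul_of_nonneg_left ?_ (by positivity))
    exact div_le_div_of_nonneg_right (mul_le_mul_of_nonneg_left e3 (by positivity)) hΛ0.le
  have k1 : (exp (-(24 * log t) / 8) + 4 * (1 / Λ ^ 3)) * S ≤ X / (8 * Λ) := by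
    calc _ ≤ (exp (-(24 * log t) / 8) + 4 * (1 / Λ ^ 3)) * (4 * X * (C * t * t / Λ)) :=
          mul_le_mul_of_nonneg_left e4 (by positivity)
      _ ≤ 5 * (1 / t ^ 3) * (4 * X * (C * t * t / Λ)) :=
          mul_le_mul_of_nonneg_right (by rw [e1]; linarith only [e2]) (by positivity)
      _ = X / (8 * Λ) * (160 * C / t) := by field_simp; ring
      _ ≤ X / (8 * Λ) * 1 :=
          mul_le_mul_of_nonneg_left ((div_le_one ht0).2 htC) (by positivity)
      _ = _ := mul_one _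
  have k2 : 2 * L * N * (1 / Λ ^ 3) ≤ X / (8 * Λ) := by
    calc _ ≤ 2 * Λ * (64 * X / Λ) * (1 / Λ ^ 3) :=
          mul_le_mul_of_nonneg_right (mul_le_mul (by linarith only [hL]) hN hN0 (by positivity))
            (by positivity)
      _ = X / (8 * Λ) * (1024 / Λ ^ 2) := by field_simp; ring
      _ ≤ X / (8 * Λ) * 1 := mul_le_mul_of_nonneg_left
          ((div_le_one (by positivity)).2 (by nlinarith only [ht, hΛ])) (by positivity)
      _ = _ := mul_one _
  have e : X / (4 * Λ) = X / (8 * Λ) + X / (8 * Λ) := by field_simp; ring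
  linarith only [k1, k2, e]

end F2

theorem stmtF2 (h1 : StmtB1) (hC : StmtC) (hS : StmtS) (hCh : StmtCh) (hM : May) : StmtF2 := by
  obtain ⟨C, hC0, hS⟩ := hS
  obtain ⟨cM, hc0, hM⟩ := hM
  refine ⟨cM / (24 * C), by positivity, ?_⟩
  have ht : Tendsto (fun x : ℕ => tt x) atTop atTop :=
    Real.tendsto_log_atTop.comp (Real.tendsto_log_atTop.comp tendsto_natCast_atTop_atTop)
  filter_upwards [hS, hM, hCh, ht.eventually_ge_atTop 100, ht.eventually_ge_atTop (160 * C),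
    ht.eventually_ge_atTop (32 * (Nat.factorial 37 : ℝ)), eventually_ge_atTop 3] with
    x hS hM hCh ht htC htF hx y hy1 hy2 hy3
  obtain ⟨hsig, hmod, hLam, -, hkap⟩ := hS
  have hx3 : (3 : ℝ) ≤ x := by exact_mod_cast hx
  have hx0 : (0 : ℝ) < x := by linarith only [hx3]
  have hΛ0 : 0 < log (x : ℝ) := Real.log_pos (by linarith only [hx3])
  have hΛ : log (x : ℝ) = exp (tt x) := (Real.exp_log hΛ0).symm
  have hxe : (x : ℝ) = exp (log x) := (Real.exp_log hx0).symm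
  have hlogΛ : log (log (x : ℝ)) = tt x := rfl
  have hΛx : log (x : ℝ) ≤ x := (Real.log_le_sub_one_of_pos hx0).trans (by linarith only)
  set t := tt x with ht_def
  set Λ := log (x : ℝ) with hΛ_def
  have ht0 : 0 < t := by linarith only [ht]
  have ht1 : 1 ≤ t := by linarith only [ht]
  have h36 : 32 * t ^ 36 ≤ Λ := by
    have k1 := Real.pow_div_factorial_le_exp t ht0.le 37
    rw [← hΛ] at k1
    refine le_trans ?_ k1
    rw [le_div_iff₀ (by positivity)]
    calc 32 * t ^ 36 * (Nat.factorial 37 : ℝ) = 32 * (Nat.factorial 37 : ℝ) * t ^ 36 := by ring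
      _ ≤ t * t ^ 36 := mul_le_mul_of_nonneg_right htF (by positivity)
      _ = t ^ 37 := by ring
  have ht6 : t ^ 6 ≤ t ^ 36 := pow_le_pow_right₀ ht1 (by norm_num)
  have ht16 : t ≤ t ^ 6 := le_self_pow₀ ht1 (by norm_num)
  have htΛ : t ≤ Λ := by linarith only [h36, ht6, ht16, ht0]
  have hs3 : t ^ 3 ≤ √Λ := Real.le_sqrt_of_sq_le (by
    have : (t ^ 3) ^ 2 = t ^ 6 := by ring
    linarith only [this, h36, ht6, ht16, ht0])
  have hss : √Λ * √Λ = Λ := Real.mul_self_sqrt hΛ0.le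
  have hs0 : 0 < √Λ := Real.sqrt_pos.2 hΛ0
  have ht3 : 16 * t ≤ t ^ 3 := by
    have k0 : 16 ≤ t ^ 2 := by nlinarith only [ht]
    nlinarith only [mul_le_mul_of_nonneg_left k0 ht0.le]
  have hs1 : 1 ≤ √Λ := by linarith only [hs3, ht3, ht]
  have hsΛ : √Λ ≤ Λ := by nlinarith only [hss, hs1]
  have hsL : √Λ ≤ Λ / t ^ 3 := by
    rw [le_div_iff₀ (by positivity)]
    nlinarith only [hss, hs3, hs0]
  have hL1 : 1 ≤ ⌊Λ / t ^ 3⌋₊ := Nat.le_floor (by rw [Nat.cast_one]; exact hs1.trans hsL)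
  have hL2 : (⌊Λ / t ^ 3⌋₊ : ℝ) ≤ Λ / t ^ 3 := Nat.floor_le (by positivity)
  have hL3 : (⌊Λ / t ^ 3⌋₊ : ℝ) ≤ Λ :=
    hL2.trans (div_le_self hΛ0.le (one_le_pow₀ ht1))
  have hHm : (⌊√Λ⌋₊ : ℝ) ≤ √Λ := Nat.floor_le hs0.le
  have hy16 : √Λ * (16 * x) ≤ y := by
    refine le_trans ?_ hy1
    rw [le_div_iff₀ ht0]
    have k1 : 16 * t ≤ √Λ := ht3.trans hs3
    have k2 := mul_le_mul_of_nonneg_left k1 (show 0 ≤ √Λ * x by positivity)
    have k3 : √Λ * x * √Λ = x * Λ := by rw [mul_right_comm, hss, mul_comm]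
    linarith only [k2, k3]
  have hxy16 : 16 * (x : ℝ) ≤ y := by nlinarith only [hy16, hs1, hx0]
  have hxy : x ≤ y := by
    have : (x : ℝ) ≤ y := by linarith only [hxy16, hx0]
    exact_mod_cast this
  have hy0 : (0 : ℝ) < y := by linarith only [hxy16, hx0]
  have hlogy : log (y : ℝ) ≤ 2 * Λ := by
    have k1 := Real.log_le_log hy0 hy2
    rw [Real.log_mul hx0.ne' hΛ0.ne', hlogΛ] at k1
    linarith only [k1, htΛ]
  have hlt : 1 ≤ log t := by
    rw [Real.le_log_iff_exp_le ht0]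
    linarith only [Real.exp_one_lt_three, ht]
  obtain ⟨H, W, hH1, hH2, hW, hW1, hdeg⟩ := hM y hxy
  have hmodel := hmod _ hL1 hL3
  have hE : ∀ a ∈ E2 x y, ∃ q : ℕ, q.Prime ∧ x < q ∧ q ≤ y ∧ (q : ℤ) = a := by
    intro a ha
    obtain ⟨q, hq, rfl⟩ := mem_image.1 ha
    have k1 := mem_filter.1 hq
    exact ⟨q, k1.2, (mem_Ioc.1 k1.1).1, (mem_Ioc.1 k1.1).2, rfl⟩
  have hb0 : 0 ≤ C * t * log t / Λ := by positivity
  have hPb : ∀ a : ℤ, Pb (LLx x) (ka x) {a} ≤ C * t * log t / Λ := fun a =>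
    ((h1 _ _ _ _ _ hmodel).2.2.2.2 a).trans
      ((mul_le_mul_of_nonneg_right hsig (hkap a).1).trans (mul_le_of_le_one_right hb0 (hkap a).2))
  have fam : Fam (LLx x) (ka x) (1 / t ^ 18) (Λ ^ 7) ⌊Λ / t ^ 3⌋₊ (E2 x y) y H
      (pr (4 * x) (16 * x)) ⌊√Λ⌋₊ W (1 / √x) y (exp (5 * Λ / t ^ 2)) (24 * log t)
      (1 / Λ ^ 3) :=
    { model := hmodel
      hE := by
        intro a ha
        obtain ⟨q, -, q2, q3, rfl⟩ := hE a ha
        exact mem_Icc.2 ⟨by omega, by exact_mod_cast q3⟩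
      hH := Nat.le_floor (hH1.trans hsL)
      hHm := fun h hh => Nat.le_floor (hH2 h hh)
      hP := by
        intro p hp
        have k1 := mem_filter.1 hp
        have k2 : 4 * (x : ℝ) < p := by exact_mod_cast (mem_Ioc.1 k1.1).1
        have k3 : (p : ℝ) ≤ 16 * x := by exact_mod_cast (mem_Ioc.1 k1.1).2
        refine ⟨k1.2, ?_, ?_, ?_⟩
        · have : (⌊√Λ⌋₊ : ℝ) < p := by linarith only [hHm, hsΛ, hΛx, k2, hx0]
          exact_mod_cast this
        · have : (p : ℝ) ≤ y := k3.trans hxy16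
          exact_mod_cast this
        · have : (⌊√Λ⌋₊ : ℝ) * p ≤ y :=
            (mul_le_mul hHm k3 (Nat.cast_nonneg _) hs0.le).trans hy16
          exact_mod_cast this
      hζ := by linarith only [hHm, hsΛ, hΛx, hxy16, hx0]
      hW := hW
      hW1 := hW1
      hdiv := by
        intro ℓ hℓ _ b hb hd
        obtain ⟨q, q1, q2, -, rfl⟩ := hE b hb
        have k1 := mem_filter.1 (mem_filter.1 hℓ).1
        have k2 := (Nat.prime_dvd_prime_iff_eq k1.2 q1).1 (Int.natCast_dvd_natCast.1 hd)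
        have k3 := (mem_Ioc.1 k1.1).2
        omega
      hΛ := by
        intro e he hcard
        refine hLam _ e hL1 hL2 hcard fun a ha => ?_
        obtain ⟨q, -, q2, q3, rfl⟩ := hE a (he ha)
        refine ⟨by omega, ?_⟩
        have : (q : ℝ) ≤ y := by exact_mod_cast q3
        rw [Int.cast_natCast]
        exact this.trans hy2
      hd := by linarith only [hlt]
      hη := F2.eta_le ht hΛ h36 hxe (Nat.cast_nonneg _) hL3
        (by linarith only [hxy16, hx3]) hlogy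
      hdeg := by
        intro a ha
        obtain ⟨q, q1, q2, -, rfl⟩ := hE a ha
        refine le_trans ?_ (hdeg q q1 q2)
        refine (mul_le_mul_of_nonneg_left (hPb _) (by positivity)).trans ?_
        rw [le_div_iff₀ hy0]
        calc 24 * log t * (C * t * log t / Λ) * y
            ≤ 24 * log t * (C * t * log t / Λ) * (cM / (24 * C) * x * Λ / log t ^ 2) :=
              mul_le_mul_of_nonneg_left hy3 (by positivity)
          _ = cM * t * x := by field_simp }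
  refine F2.good_mono (hC _ _ _ _ _ _ _ _ _ _ _ _ _ _ _ _ fam) ?_
  refine F2.final_le ht hC0 htC htΛ hx0 hL3 ?_ (Nat.cast_nonneg _) ?_
  · refine (sum_le_card_nsmul _ _ _ fun a _ => hPb a).trans ?_
    rw [nsmul_eq_mul]
    refine mul_le_mul_of_nonneg_right ?_ hb0
    have k1 : (E2 x y).card ≤ (pr 0 y).card :=
      card_image_le.trans (card_le_card
        (filter_subset_filter _ (Ioc_subset_Ioc_left (Nat.zero_le x))))
    have k2 := hCh.2.2.2 y hxy
    have k3 : 4 * (y : ℝ) / Λ ≤ 4 * x := by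
      rw [div_le_iff₀ hΛ0]
      linarith only [hy2]
    exact (Nat.cast_le.2 k1).trans (k2.trans k3)
  · have k1 : (pr (4 * x) (16 * x)).card ≤ (pr 0 (16 * x)).card :=
      card_le_card (filter_subset_filter _ (Ioc_subset_Ioc_left (Nat.zero_le _)))
    have k2 := hCh.2.2.2 (16 * x) (by omega)
    refine (Nat.cast_le.2 k1).trans (k2.trans (le_of_eq ?_))
    push_cast
    ring

end Vale.Agent.N013L
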