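import Vale.Agent.N013L.Def2
import Vale.Agent.N013L.F2

/-! Block F2b: covering the surviving primes in rounds. -/

namespace Vale.Agent.N013L

open Finset Real Filter

namespace F2b

lemma good_sub {LL : Finset ℕ} {κ : ℕ → ℝ} {E : Finset ℤ} {PP PP' : Finset ℕ} {B B' : ℝ}
    (h : Good LL κ E PP B) (hP : PP ⊆ PP') (hB : B ≤ B') : Good LL κ E PP' B' := by
  obtain ⟨F, h1, h2⟩ := h
  refine ⟨F, h1.trans hB, fun ω hω => ?_⟩
  obtain ⟨n, hn⟩ := h2 ω hω
  exact ⟨n, fun U hU => hn U fun a ha => ⟨(hU a ha).1, (hU a ha).2.1, fun p hp => (hU a ha).2.2 p (hP hp)⟩⟩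

lemma good2_mono {LL : Finset ℕ} {κ : ℕ → ℝ} {E : Finset ℤ} {H PP : Finset ℕ} {y : ℕ}
    {dm dm' δq B B' : ℝ} (h : Good2 LL κ E H PP y dm δq B) (hd : dm' = dm) (hB : B ≤ B') :
    Good2 LL κ E H PP y dm' δq B' := by
  obtain ⟨F, h1, h2⟩ := h
  exact ⟨F, h1.trans hB, hd ▸ h2⟩

lemma log_le {t : ℝ} (ht : 0 < t) : log t ≤ 2 * √t := by
  have h0 : 0 < √t := sqrt_pos.2 ht
  have h1 := log_le_sub_one_of_pos h0
  have h2 : log t = 2 * log √t := by rw [log_sqrt ht.le]; ring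
  linarith

lemma exp_J {t : ℝ} {J : ℕ} (ht : 10000 ≤ t) (hJ : (J : ℝ) ≤ log t + 3) :
    exp J ≤ 27 * t ∧ exp (2 * J) ≤ t ^ 3 ∧ (J : ℝ) + 1 ≤ t := by
  have ht0 : 0 < t := by linarith
  have h3 : exp 3 ≤ 27 := by
    have h := exp_one_lt_three.le
    calc exp 3 = exp 1 ^ 3 := by rw [← exp_nat_mul]; norm_num
      _ ≤ 3 ^ 3 := pow_le_pow_left₀ (exp_pos _).le h 3
      _ = 27 := by norm_num
  have h1 : exp J ≤ 27 * t :=
    calc exp J ≤ exp (3 + log t) := exp_le_exp.2 (by linarith)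
      _ = exp 3 * t := by rw [exp_add, exp_log ht0]
      _ ≤ _ := mul_le_mul_of_nonneg_right h3 ht0.le
  refine ⟨h1, ?_, ?_⟩
  · calc exp (2 * J) = exp J ^ 2 := by rw [← exp_nat_mul]; norm_num
      _ ≤ (27 * t) ^ 2 := pow_le_pow_left₀ (exp_pos _).le h1 2
      _ = 729 * t ^ 2 := by ring
      _ ≤ t * t ^ 2 := mul_le_mul_of_nonneg_right (by linarith) (by positivity)
      _ = _ := by ring
  · have h4 := log_le ht0
    have h5 : √t * √t = t := mul_self_sqrt ht0.le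
    have h6 : 100 ≤ √t := le_sqrt_of_sq_le (by linarith)
    nlinarith

lemma four_pow (j : ℕ) : (4 : ℝ) ^ j ≤ exp (2 * j) := by
  have h4 : (4 : ℝ) ≤ exp 2 := by
    have := add_one_le_exp (1 : ℝ)
    have e : exp 2 = exp 1 * exp 1 := by rw [← exp_add]; norm_num
    nlinarith
  calc (4 : ℝ) ^ j ≤ exp 2 ^ j := pow_le_pow_left₀ (by norm_num) h4 _
    _ = _ := by rw [← exp_nat_mul, mul_comm]

lemma delta_le {t Λ L X : ℝ} {J : ℕ} (ht : 10000 ≤ t) (hΛ : Λ = exp t) (h36 : 32 * t ^ 36 ≤ Λ)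
    (hX : X = exp Λ) (hL0 : 0 ≤ L) (hL : L ≤ Λ / t ^ 3) (hJ : (J : ℝ) ≤ log t + 3) :
    L * (1 / √X * exp (5 * Λ / t ^ 2)) ≤ exp (-(50 * 2 ^ J * L * (J + 1))) := by
  obtain ⟨j1, -, j3⟩ := exp_J ht hJ
  have ht0 : 0 < t := by linarith
  have ht1 : 1 ≤ t := by linarith
  have hΛ0 : 0 < Λ := hΛ ▸ exp_pos _
  have h2 : (2 : ℝ) ^ J ≤ 27 * t := by
    refine le_trans ?_ j1
    have : (2 : ℝ) ≤ exp 1 := by have := add_one_le_exp (1 : ℝ); linarith
    calc (2 : ℝ) ^ J ≤ exp 1 ^ J := pow_le_pow_left₀ (by norm_num) this _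
      _ = _ := by rw [← exp_nat_mul, mul_one]
  have h3 : 50 * 2 ^ J * L * (J + 1) ≤ Λ / 4 :=
    calc 50 * 2 ^ J * L * (J + 1) ≤ 50 * (27 * t) * (Λ / t ^ 3) * t := by gcongr
      _ = Λ * (1350 / t) := by field_simp; norm_num
      _ ≤ Λ * (1 / 4) := by
        refine mul_le_mul_of_nonneg_left ?_ hΛ0.le
        rw [div_le_div_iff₀ ht0 (by norm_num)]; linarith
      _ = _ := by ring
  have h4 : 5 * Λ / t ^ 2 ≤ Λ / 8 := by
    rw [div_le_div_iff₀ (by positivity) (by norm_num)]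
    have : 40 ≤ t ^ 2 := by nlinarith
    nlinarith
  have h5 : t ≤ t ^ 36 := le_self_pow₀ ht1 (by norm_num)
  have h6 : L ≤ exp t := hΛ ▸ hL.trans (div_le_self hΛ0.le (one_le_pow₀ ht1))
  have c4 : 1 / √X = exp (-(Λ / 2)) := by rw [hX, exp_neg, ← exp_half, one_div]
  calc L * (1 / √X * exp (5 * Λ / t ^ 2)) ≤ exp t * (exp (-(Λ / 2)) * exp (Λ / 8)) := by
        rw [c4]; gcongr
    _ = exp (t + (-(Λ / 2) + Λ / 8)) := by rw [← exp_add, ← exp_add]
    _ ≤ _ := exp_le_exp.2 (by linarith)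

lemma eta2 {a b M η t : ℝ} (ha : 0 ≤ a) (hb : 0 ≤ b) (hM : 1 ≤ M) (hMt : M ≤ t) (h : a + b ≤ η) :
    a + b * M ≤ t * η := by
  have h1 : a ≤ a * M := le_mul_of_one_le_right ha hM
  have h2 : (a + b) * M ≤ η * t := mul_le_mul h hMt (by linarith) (by linarith)
  nlinarith

lemma B_le {t Λ L X S N d : ℝ} (ht : 1 ≤ t) (hΛ : 0 < Λ) (hX : 0 ≤ X) (hL0 : 0 ≤ L) (hL : L ≤ Λ)
    (hS : S ≤ 4 * X) (hN0 : 0 ≤ N) (hN : N ≤ 16 * X / Λ) (hd : 0 < d) (hd1 : 1 / d ≤ t ^ 3) :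
    4 * (t ^ 3 * (1 / Λ ^ 3)) * S + 8 / d * L * N * (t ^ 3 * (1 / Λ ^ 3)) ≤
      144 * t ^ 6 * X / Λ ^ 3 := by
  have h3 : 1 ≤ t ^ 3 := one_le_pow₀ ht
  have h1 : 4 * (t ^ 3 * (1 / Λ ^ 3)) * S ≤ 4 * (t ^ 3 * t ^ 3 * (1 / Λ ^ 3)) * (4 * X) := by
    refine (mul_le_mul_of_nonneg_left hS (by positivity)).trans ?_
    gcongr
    exact le_mul_of_one_le_right (by positivity) h3
  have h2 : 8 / d * L * N * (t ^ 3 * (1 / Λ ^ 3)) ≤
      8 * t ^ 3 * Λ * (16 * X / Λ) * (t ^ 3 * (1 / Λ ^ 3)) := by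
    have : 8 / d ≤ 8 * t ^ 3 := by rw [div_eq_mul_one_div]; linarith
    gcongr
  refine (add_le_add h1 h2).trans (le_of_eq ?_)
  field_simp; ring

lemma fin_le {t Λ X C S : ℝ} {J : ℕ} (ht : 10000 ≤ t) (hC : 0 < C) (htC : (256 * C) ^ 2 ≤ t)
    (h36 : 32 * t ^ 36 ≤ Λ) (hX : 0 ≤ X) (hJ0 : log t ≤ J) (hJ : (J : ℝ) ≤ t)
    (hS : S ≤ 4 * X * (C * t * log t / Λ)) :
    J * (144 * t ^ 6 * X / Λ ^ 3) + 2 * exp (-(2 * J)) * S ≤ X / (8 * Λ) := by
  have ht0 : 0 < t := by linarith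
  have ht1 : 1 ≤ t := by linarith
  have h7 : t ^ 7 ≤ t ^ 36 := pow_le_pow_right₀ ht1 (by norm_num)
  have h1 : t ≤ t ^ 7 := le_self_pow₀ ht1 (by norm_num)
  have hΛ0 : 0 < Λ := by linarith
  have k1 : J * (144 * t ^ 6 * X / Λ ^ 3) ≤ X / (16 * Λ) :=
    calc J * (144 * t ^ 6 * X / Λ ^ 3) ≤ t * (144 * t ^ 6 * X / Λ ^ 3) := by gcongr
      _ = X / (16 * Λ) * (2304 * t ^ 7 / (Λ * Λ)) := by field_simp; ring
      _ ≤ X / (16 * Λ) * 1 := by
        refine mul_le_mul_of_nonneg_left ((div_le_one (by positivity)).2 ?_) (by positivity)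
        exact mul_le_mul (by linarith) (by linarith) (by positivity) hΛ0.le
      _ = _ := mul_one _
  have k2 : exp (-(2 * J)) ≤ 1 / t ^ 2 :=
    calc exp (-(2 * J)) ≤ exp (-(((2 : ℕ) : ℝ) * log t)) := exp_le_exp.2 (by push_cast; linarith)
      _ = 1 / t ^ 2 := by rw [exp_neg, exp_nat_mul, exp_log ht0, one_div]
  have k3 : 128 * C * log t ≤ t := by
    have h4 := log_le ht0
    have h5 : √t * √t = t := mul_self_sqrt ht0.le
    have h6 : 256 * C ≤ √t := le_sqrt_of_sq_le htC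
    have h8 : 128 * C * log t ≤ 128 * C * (2 * √t) := by gcongr
    have h9 : 256 * C * √t ≤ √t * √t := mul_le_mul_of_nonneg_right h6 (sqrt_nonneg _)
    linarith
  have hl : 0 ≤ log t := log_nonneg ht1
  have k4 : 2 * exp (-(2 * J)) * S ≤ X / (16 * Λ) :=
    calc 2 * exp (-(2 * J)) * S ≤ 2 * exp (-(2 * J)) * (4 * X * (C * t * log t / Λ)) := by gcongr
      _ ≤ 2 * (1 / t ^ 2) * (4 * X * (C * t * log t / Λ)) := by gcongr
      _ = X / (16 * Λ) * (128 * C * log t / t) := by field_simp; ring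
      _ ≤ X / (16 * Λ) * 1 := mul_le_mul_of_nonneg_left ((div_le_one ht0).2 k3) (by positivity)
      _ = _ := mul_one _
  have e : X / (8 * Λ) = X / (16 * Λ) + X / (16 * Λ) := by field_simp; ring
  linarith

/-- numerical facts on the scales -/
lemma scales {t Λ x X y : ℝ} {J : ℕ} (ht : 10000 ≤ t) (hΛ : Λ = exp t) (h36 : 32 * t ^ 36 ≤ Λ)
    (hx : x = exp Λ) (hJ : (J : ℝ) ≤ log t + 3) (hX : X = 4 ^ J * x) (hy1 : X * Λ / t ≤ y)
    (hy2 : y ≤ X * Λ) :
    x ≤ X ∧ y ≤ x * Λ ^ 2 ∧ y ≤ x ^ 2 ∧ log y ≤ 2 * Λ ∧ 2 * √Λ * (4 * X) ≤ y ∧ 4 * X ≤ y ∧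
      2 * √Λ ≤ Λ / t ^ 3 ∧ 1 ≤ √Λ ∧ 2 * √Λ ≤ x ∧ t ^ 2 ≤ Λ := by
  obtain ⟨-, j2, -⟩ := exp_J ht hJ
  have ht0 : 0 < t := by linarith
  have ht1 : 1 ≤ t := by linarith
  have hΛ0 : 0 < Λ := hΛ ▸ exp_pos _
  have hx0 : 0 < x := hx ▸ exp_pos _
  have h4 : (1 : ℝ) ≤ 4 ^ J := one_le_pow₀ (by norm_num)
  have hxX : x ≤ X := hX ▸ le_mul_of_one_le_left hx0.le h4
  have p6 : t ^ 6 ≤ t ^ 36 := pow_le_pow_right₀ ht1 (by norm_num)
  have p3 : t ^ 3 ≤ t ^ 6 := pow_le_pow_right₀ ht1 (by norm_num)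
  have p2 : t ^ 2 ≤ t ^ 3 := pow_le_pow_right₀ ht1 (by norm_num)
  have p1 : t ≤ t ^ 2 := le_self_pow₀ ht1 (by norm_num)
  have hXx : X ≤ Λ * x := by
    rw [hX]; exact mul_le_mul_of_nonneg_right (((four_pow J).trans j2).trans (by linarith)) hx0.le
  have y1 : y ≤ x * Λ ^ 2 :=
    calc y ≤ Λ * x * Λ := hy2.trans (mul_le_mul_of_nonneg_right hXx hΛ0.le)
      _ = _ := by ring
  have hΛx : Λ ^ 2 ≤ x := by
    have h := pow_div_factorial_le_exp Λ hΛ0.le 3
    rw [← hx] at h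
    refine le_trans ?_ h
    rw [le_div_iff₀ (by positivity)]
    have : (Nat.factorial 3 : ℝ) ≤ Λ := by norm_num [Nat.factorial]; linarith
    calc Λ ^ 2 * (Nat.factorial 3 : ℝ) ≤ Λ ^ 2 * Λ := by gcongr
      _ = _ := by ring
  have y2 : y ≤ x ^ 2 := y1.trans (by rw [sq x]; exact mul_le_mul_of_nonneg_left hΛx hx0.le)
  have hs3 : 2 * t ^ 3 ≤ √Λ := le_sqrt_of_sq_le (by
    have : (2 * t ^ 3) ^ 2 = 4 * t ^ 6 := by ring
    linarith)
  have hss : √Λ * √Λ = Λ := mul_self_sqrt hΛ0.le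
  have hs1 : 1 ≤ √Λ := by linarith
  have hX0 : 0 < X := by linarith
  have y3 : 2 * √Λ * (4 * X) ≤ y := by
    refine le_trans ?_ hy1
    rw [le_div_iff₀ ht0]
    have k0 : 8 * t ≤ √Λ := by nlinarith
    have k2 := mul_le_mul_of_nonneg_left k0 (show 0 ≤ √Λ * X by positivity)
    have k3 : √Λ * X * √Λ = X * Λ := by rw [mul_right_comm, hss, mul_comm]
    linarith
  have y4 : 4 * X ≤ y := by nlinarith
  refine ⟨hxX, y1, y2, ?_, y3, y4, ?_, hs1, ?_, by linarith⟩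
  · have := log_le_log (by linarith) y2
    rwa [log_pow, hx, log_exp] at this
  · rw [le_div_iff₀ (by positivity)]
    nlinarith
  · nlinarith

end F2b

open F2b in
theorem stmtF2b (h1 : StmtB1) (hC : StmtC2) (hG : StmtG) (hS : StmtS) (hSb : StmtSb)
    (hCh : StmtCh) (hM : May) : StmtF2b := by
  obtain ⟨C, hC0, hS⟩ := hS
  obtain ⟨cM, hc0, hM⟩ := hM
  obtain ⟨x₀, hM⟩ := eventually_atTop.1 hM
  refine ⟨cM / (128 * C), by positivity, ?_⟩
  have ht : Tendsto (fun x : ℕ => tt x) atTop atTop :=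
    tendsto_log_atTop.comp (tendsto_log_atTop.comp tendsto_natCast_atTop_atTop)
  filter_upwards [hS, hSb, hCh, ht.eventually_ge_atTop 10000, ht.eventually_ge_atTop ((256 * C) ^ 2),
    ht.eventually_ge_atTop (32 * (Nat.factorial 37 : ℝ)), eventually_ge_atTop 3,
    eventually_ge_atTop x₀] with x hS hLam hCh ht htC htF hx hxx J X y hJ0 hJ hX hy1 hy2 hy3
  obtain ⟨hsig, hmod, -, -, hkap⟩ := hS
  have hx3 : (3 : ℝ) ≤ x := by exact_mod_cast hx
  have hx0 : (0 : ℝ) < x := by linarith only [hx3]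
  have hΛ0 : 0 < log (x : ℝ) := log_pos (by linarith only [hx3])
  have hΛ : log (x : ℝ) = exp (tt x) := (exp_log hΛ0).symm
  have hxe : (x : ℝ) = exp (log x) := (exp_log hx0).symm
  have httm : ∀ z : ℕ, x ≤ z → tt x ≤ tt z := fun z hz =>
    log_le_log hΛ0 (log_le_log hx0 (by exact_mod_cast hz))
  set t := tt x with ht_def
  set Λ := log (x : ℝ) with hΛ_def
  have ht0 : 0 < t := by linarith only [ht]
  have ht1 : 1 ≤ t := by linarith only [ht]
  have h36 : 32 * t ^ 36 ≤ Λ := by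
    have k1 := pow_div_factorial_le_exp t ht0.le 37
    rw [← hΛ] at k1
    refine le_trans ?_ k1
    rw [le_div_iff₀ (by positivity)]
    calc 32 * t ^ 36 * (Nat.factorial 37 : ℝ) = 32 * (Nat.factorial 37 : ℝ) * t ^ 36 := by ring
      _ ≤ t * t ^ 36 := mul_le_mul_of_nonneg_right htF (by positivity)
      _ = t ^ 37 := by ring
  have hX' : (X : ℝ) = 4 ^ J * x := by rw [hX]; push_cast; ring
  obtain ⟨hxX, y1, y2, hlogy, y3, y4, hsL, hs1, hsx, ht2⟩ := scales ht hΛ h36 hxe hJ hX' hy1 hy2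
  obtain ⟨-, j2, j3⟩ := exp_J ht hJ
  have hX0 : (0 : ℝ) < X := by linarith only [hxX, hx0]
  have hy0 : (0 : ℝ) < y := by linarith only [y4, hX0]
  have hxX' : x ≤ X := by exact_mod_cast hxX
  have hXy : 4 * X ≤ y := by exact_mod_cast y4
  have hL1 : 1 ≤ ⌊Λ / t ^ 3⌋₊ := Nat.le_floor (by rw [Nat.cast_one]; linarith only [hs1, hsL])
  have hL2 : (⌊Λ / t ^ 3⌋₊ : ℝ) ≤ Λ / t ^ 3 := Nat.floor_le (by positivity)
  have hL3 : (⌊Λ / t ^ 3⌋₊ : ℝ) ≤ Λ := hL2.trans (div_le_self hΛ0.le (one_le_pow₀ ht1))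
  have hHm : (⌊2 * √Λ⌋₊ : ℝ) ≤ 2 * √Λ := Nat.floor_le (by positivity)
  have hlt : 1 ≤ log t := by
    rw [le_log_iff_exp_le ht0]
    linarith only [exp_one_lt_three, ht]
  have hmodel := hmod _ hL1 hL3
  have hE : ∀ a ∈ E2 X y, ∃ q : ℕ, q.Prime ∧ X < q ∧ q ≤ y ∧ (q : ℤ) = a := by
    intro a ha
    obtain ⟨q, hq, rfl⟩ := mem_image.1 ha
    have k1 := mem_filter.1 hq
    exact ⟨q, k1.2, (mem_Ioc.1 k1.1).1, (mem_Ioc.1 k1.1).2, rfl⟩
  have hEs : E2 X y ⊆ Icc (1 : ℤ) y := by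
    intro a ha
    obtain ⟨q, -, q2, q3, rfl⟩ := hE a ha
    exact mem_Icc.2 ⟨by omega, by exact_mod_cast q3⟩
  have hb0 : 0 ≤ C * t * log t / Λ := by positivity
  have hb1 : C * t * log t / Λ ≤ 1 := by
    rw [div_le_one hΛ0]
    have h4 := log_le ht0
    have h5 : √t * √t = t := mul_self_sqrt ht0.le
    have h6 : 256 * C ≤ √t := le_sqrt_of_sq_le htC
    have h8 : C * log t ≤ C * (2 * √t) := by gcongr
    have h9 : 256 * C * √t ≤ √t * √t := mul_le_mul_of_nonneg_right h6 (sqrt_nonneg _)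
    have h10 : 0 ≤ C * √t := by positivity
    have h11 : C * log t ≤ t := by linarith only [h8, h9, h10, h5]
    calc C * t * log t = C * log t * t := by ring
      _ ≤ t * t := mul_le_mul_of_nonneg_right h11 ht0.le
      _ ≤ Λ := by rw [← sq]; exact ht2
  have hPb : ∀ a : ℤ, Pb (LLx x) (ka x) {a} ≤ C * t * log t / Λ := fun a =>
    ((h1 _ _ _ _ _ hmodel).2.2.2.2 a).trans
      ((mul_le_mul_of_nonneg_right hsig (hkap a).1).trans (mul_le_of_le_one_right hb0 (hkap a).2))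
  have hSum : ∑ a ∈ E2 X y, Pb (LLx x) (ka x) {a} ≤ 4 * X * (C * t * log t / Λ) := by
    refine (sum_le_card_nsmul _ _ _ fun a _ => hPb a).trans ?_
    rw [nsmul_eq_mul]
    refine mul_le_mul_of_nonneg_right ?_ hb0
    have k1 : (E2 X y).card ≤ (pr 0 y).card :=
      card_image_le.trans (card_le_card
        (filter_subset_filter _ (Ioc_subset_Ioc_left (Nat.zero_le X))))
    have k2 := hCh.2.2.2 y (by omega)
    have k3 : 4 * (y : ℝ) / Λ ≤ 4 * X := by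
      rw [div_le_iff₀ hΛ0]
      linarith only [hy2]
    exact (Nat.cast_le.2 k1).trans (k2.trans k3)
  -- the scales of the rounds
  obtain ⟨z, hz⟩ : ∃ z : ℕ → ℕ, z = fun j => 4 ^ (J - 1 - j) * x := ⟨_, rfl⟩
  have hz1 : ∀ j, x ≤ z j := fun j => by
    rw [hz]; exact Nat.le_mul_of_pos_left _ (by positivity)
  have hz2 : ∀ j < J, 4 ^ j * (4 * z j) = X := fun j hj => by
    rw [hz, hX, ← mul_assoc, ← mul_assoc, ← pow_succ, ← pow_add]; congr 2; omega
  have hz3 : ∀ j < J, 4 * z j ≤ X := fun j hj =>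
    hz2 j hj ▸ Nat.le_mul_of_pos_left _ (by positivity)
  have hz4 : ∀ i j, i < j → j < J → 4 * z j ≤ z i := fun i j hij hj => by
    rw [hz]
    simp only
    rw [← mul_assoc, ← pow_succ']
    exact Nat.mul_le_mul_right _ (Nat.pow_le_pow_right (by norm_num) (by omega))
  have hmem : ∀ j < J, ∀ p ∈ pr (4 * z j) (16 * z j), p.Prime ∧ 4 * z j < p ∧ p ≤ 16 * z j :=
    fun j _ p hp => ⟨(mem_filter.1 hp).2, mem_Ioc.1 (mem_filter.1 hp).1⟩
  have hex : ∀ j, ∃ H : Finset ℕ, j < J → (H.card ≤ ⌊Λ / t ^ 3⌋₊ ∧ ∀ h ∈ H, h ≤ ⌊2 * √Λ⌋₊) ∧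
      Good2 (LLx x) (ka x) (E2 X y) H (pr (4 * z j) (16 * z j)) y (4 * exp (-(2 * j)))
        (1 / √x * exp (5 * Λ / t ^ 2)) (144 * t ^ 6 * X / Λ ^ 3) := by
    intro j
    by_cases hj : j < J
    swap
    · exact ⟨∅, fun h => absurd h hj⟩
    have z1 := hz1 j
    have z3 := hz3 j hj
    obtain ⟨H, W, hH1, hH2, hW, hW1, hdeg⟩ := hM (z j) (hxx.trans z1) y (by omega)
    have hzr : (x : ℝ) ≤ z j := by exact_mod_cast z1
    have hsz : √(log (z j)) ≤ 2 * √Λ := by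
      have k1 : log (z j) ≤ log y := log_le_log (by linarith only [hzr, hx0])
        (by exact_mod_cast (by omega : z j ≤ y))
      refine sqrt_le_iff.2 ⟨by positivity, ?_⟩
      rw [mul_pow, sq_sqrt hΛ0.le]
      linarith only [k1, hlogy, hΛ0]
    have hH : H.card ≤ ⌊Λ / t ^ 3⌋₊ := Nat.le_floor ((hH1.trans hsz).trans hsL)
    have hHm' : ∀ h ∈ H, h ≤ ⌊2 * √Λ⌋₊ := fun h hh => Nat.le_floor ((hH2 h hh).trans hsz)
    have hej : exp (2 * j) ≤ t ^ 3 :=
      (exp_le_exp.2 (by have : (j : ℝ) ≤ J := by exact_mod_cast hj.le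
                        linarith only [this])).trans j2
    have hd1 : 1 / (32 * exp (-(2 * j))) = exp (2 * j) / 32 := by rw [exp_neg]; field_simp
    have ht3 : 2 ≤ t ^ 3 := le_trans (by linarith only [ht]) (le_self_pow₀ ht1 (by norm_num))
    have fam : Fam2 (LLx x) (ka x) (1 / t ^ 18) (Λ ^ 7) ⌊Λ / t ^ 3⌋₊ (E2 X y) y H
        (pr (4 * z j) (16 * z j)) ⌊2 * √Λ⌋₊ W (1 / √x) y (exp (5 * Λ / t ^ 2))
        (32 * exp (-(2 * j))) (t ^ 3 * (1 / Λ ^ 3)) :=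
      { model := hmodel
        hE := hEs
        hH := hH
        hHm := hHm'
        hP := by
          intro p hp
          obtain ⟨k1, k2, k3⟩ := hmem j hj p hp
          have k4 : (p : ℝ) ≤ 4 * X := by exact_mod_cast (by omega : p ≤ 4 * X)
          have k5 : (x : ℝ) < p := by exact_mod_cast (by omega : x < p)
          refine ⟨k1, ?_, by omega, ?_⟩
          · have : (⌊2 * √Λ⌋₊ : ℝ) < p := by linarith only [hHm, hsx, k5]
            exact_mod_cast this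
          · have : (⌊2 * √Λ⌋₊ : ℝ) * p ≤ y :=
              (mul_le_mul hHm k4 (Nat.cast_nonneg _) (by positivity)).trans y3
            exact_mod_cast this
        hζ := by linarith only [hHm, hsx, hxX, y4, hx0]
        hW := fun p n => ⟨(hW p n).1, (hW p n).2.trans
          (one_div_le_one_div_of_le (sqrt_pos.2 hx0) (sqrt_le_sqrt hzr))⟩
        hW1 := hW1
        hdiv := by
          intro ℓ hℓ _ b hb hd
          obtain ⟨q, q1, q2, -, rfl⟩ := hE b hb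
          have k1 := mem_filter.1 (mem_filter.1 hℓ).1
          have k2 := (Nat.prime_dvd_prime_iff_eq k1.2 q1).1 (Int.natCast_dvd_natCast.1 hd)
          have k3 := (mem_Ioc.1 k1.1).2
          omega
        hΛ := by
          intro e he hcard
          refine hLam _ e hL1 hL2 hcard fun a ha => ?_
          obtain ⟨q, -, q2, q3, rfl⟩ := hE a (he ha)
          refine ⟨by omega, ?_⟩
          have : (q : ℝ) ≤ y := by exact_mod_cast q3
          rw [Int.cast_natCast]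
          exact this.trans y1
        hd := by positivity
        hη := by
          have hy1' : (1 : ℝ) ≤ y := by linarith only [y4, hxX, hx3]
          have hly : 0 ≤ log (y : ℝ) := log_nonneg hy1'
          refine eta2 (sub_nonneg.2 (one_le_exp (by positivity))) (by positivity)
            (le_add_of_nonneg_right (by positivity)) ?_
            (F2.eta_le (by linarith only [ht]) hΛ h36 hxe (Nat.cast_nonneg _) hL3 hy1' hlogy)
          rw [hd1]; linarith only [hej, ht3]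
        hdeg := by
          intro a ha
          obtain ⟨q, q1, q2, -, rfl⟩ := hE a ha
          refine le_trans ?_ (hdeg q q1 (by omega))
          refine (mul_le_mul_of_nonneg_left (hPb _) (by positivity)).trans ?_
          rw [le_div_iff₀ hy0]
          have k1 : (X : ℝ) = 4 ^ j * (4 * z j) := by exact_mod_cast (hz2 j hj).symm
          have k2 : exp (-(2 * j)) * 4 ^ j ≤ 1 := by
            rw [exp_neg, inv_mul_le_iff₀ (exp_pos _), mul_one]; exact four_pow j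
          calc 32 * exp (-(2 * j)) * (C * t * log t / Λ) * y
              ≤ 32 * exp (-(2 * j)) * (C * t * log t / Λ) * (cM / (128 * C) * X * Λ / log t) :=
                mul_le_mul_of_nonneg_left hy3 (by positivity)
            _ = exp (-(2 * j)) * 4 ^ j * (cM * t * z j) := by rw [k1]; field_simp; ring
            _ ≤ 1 * (cM * tt (z j) * z j) := by gcongr; exact httm _ z1
            _ = _ := one_mul _ }
    refine ⟨H, fun _ => ⟨⟨hH, hHm'⟩, good2_mono (hC _ _ _ _ _ _ _ _ _ _ _ _ _ _ _ _ fam) (by ring) ?_⟩⟩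
    refine B_le ht1 hΛ0 hX0.le (Nat.cast_nonneg _) hL3
      (hSum.trans (mul_le_of_le_one_right (by positivity) hb1)) (Nat.cast_nonneg _) ?_
      (by positivity) (by rw [hd1]; linarith only [hej, ht3])
    have k1 : (pr (4 * z j) (16 * z j)).card ≤ (pr 0 (4 * X)).card :=
      card_le_card (filter_subset_filter _ (Ioc_subset_Ioc (Nat.zero_le _) (by omega)))
    have k2 := hCh.2.2.2 (4 * X) (by omega)
    refine (Nat.cast_le.2 k1).trans (k2.trans (le_of_eq ?_))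
    push_cast
    ring
  choose H hH using hex
  have hgood := hG (LLx x) (ka x) (E2 X y) y J ⌊Λ / t ^ 3⌋₊ H (fun j => pr (4 * z j) (16 * z j))
    (1 / √x * exp (5 * Λ / t ^ 2)) (fun _ => 144 * t ^ 6 * X / Λ ^ 3) hEs hL1 (by positivity)
    (delta_le ht hΛ h36 hxe (Nat.cast_nonneg _) hL2 hJ)
    (fun i hi j hj hij => disjoint_left.2 fun p hp hp' => by
      obtain ⟨-, k2, k3⟩ := hmem i hi p hp
      obtain ⟨-, k4, k5⟩ := hmem j hj p hp'
      rcases lt_or_gt_of_ne hij with h | h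
      · have := hz4 i j h hj; omega
      · have := hz4 j i h hi; omega)
    (fun j hj => ⟨(hH j hj).1.1, fun p hp => by
      obtain ⟨k1, k2, k3⟩ := hmem j hj p hp
      have z1 := hz1 j
      have z3 := hz3 j hj
      refine ⟨k1, ?_, fun h hh => ?_⟩
      · have k4 : y ≤ x ^ 2 := by exact_mod_cast y2
        exact lt_of_le_of_lt k4 (Nat.pow_lt_pow_left (by omega) (by norm_num))
      · have k4 : (p : ℝ) ≤ 4 * X := by exact_mod_cast (by omega : p ≤ 4 * X)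
        have k5 : (h : ℝ) ≤ 2 * √Λ := le_trans (by exact_mod_cast (hH j hj).1.2 h hh) hHm
        have : (h : ℝ) * p ≤ y := (mul_le_mul k5 k4 (Nat.cast_nonneg _) (by positivity)).trans y3
        exact_mod_cast this⟩)
    fun j hj => (hH j hj).2
  refine good_sub hgood (biUnion_subset.2 fun j hj => ?_) ?_
  · have z1 := hz1 j
    have z3 := hz3 j (mem_range.1 hj)
    exact filter_subset_filter _ (Ioc_subset_Ioc (by omega) (by omega))
  · rw [sum_const, card_range, nsmul_eq_mul]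
    exact fin_le ht hC0 htC h36 hX0.le hJ0 (by linarith only [j3]) hSum

end Vale.Agent.N013L
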