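import Vale.Agent.N013L.Def2
import Vale.Agent.N013L.C

/-! Block G: from the weights to a covering. -/

namespace Vale.Agent.N013L

open Finset Real Filter

namespace G

/-- the law of the edge of `p` -/
noncomputable def gnu (V I : Finset ℤ) (H : Finset ℕ) (q : ℕ → ℤ → ℝ) (p : ℕ) (T : Finset ℤ) : ℝ :=
  ∑ n ∈ I, if edge V H p n = T then q p n else 0

variable {V I : Finset ℤ} {H PP : Finset ℕ} {q : ℕ → ℤ → ℝ} {L y : ℕ} {δ : ℝ}

theorem dg_eq (p : ℕ) (f : Finset ℤ) :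
    dg V (gnu V I H q) p f = ∑ n ∈ I, if f ⊆ edge V H p n then q p n else 0 := by
  have e : ∀ T ∈ V.powerset, (if f ⊆ T then gnu V I H q p T else 0) =
      ∑ n ∈ I, if edge V H p n = T then (if f ⊆ edge V H p n then q p n else 0) else 0 := by
    intro T _
    unfold gnu
    split_ifs with h
    · refine sum_congr rfl fun n _ => ?_
      by_cases k : edge V H p n = T
      · rw [if_pos k, if_pos k, if_pos (k ▸ h)]
      · rw [if_neg k, if_neg k]
    · refine (sum_eq_zero fun n _ => ?_).symm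
      by_cases k : edge V H p n = T
      · rw [if_pos k, if_neg (k ▸ h)]
      · rw [if_neg k]
  unfold dg
  rw [sum_congr rfl e, sum_comm]
  refine sum_congr rfl fun n _ => ?_
  rw [sum_ite_eq]
  exact if_pos (mem_powerset.2 inter_subset_right)

theorem nu_ne {p : ℕ} {T : Finset ℤ} (h : gnu V I H q p T ≠ 0) : ∃ n, edge V H p n = T := by
  obtain ⟨n, -, k⟩ := exists_ne_zero_of_sum_ne_zero h
  exact ⟨n, by_contra fun e => k (if_neg e)⟩

theorem dg_le (hq : ∀ p n, 0 ≤ q p n ∧ q p n ≤ δ) (hH : H.card ≤ L) (p : ℕ) {f : Finset ℤ} {a : ℤ}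
    (ha : a ∈ f) : dg V (gnu V I H q) p f ≤ L * δ := by
  have d0 : 0 ≤ δ := (hq 0 0).1.trans (hq 0 0).2
  rw [dg_eq, ← sum_filter]
  have h1 : (I.filter fun n => f ⊆ edge V H p n) ⊆ H.image fun h : ℕ => a - (h : ℤ) * p := by
    intro n hn
    obtain ⟨⟨h, m, k⟩, -⟩ := C.mem_edge.1 ((mem_filter.1 hn).2 ha)
    exact mem_image.2 ⟨h, m, by omega⟩
  have h2 : ((I.filter fun n => f ⊆ edge V H p n).card : ℝ) ≤ L := by
    exact_mod_cast (card_le_card h1).trans (card_image_le.trans hH)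
  refine (sum_le_card_nsmul _ _ δ fun n _ => (hq p n).2).trans ?_
  rw [nsmul_eq_mul]
  exact mul_le_mul_of_nonneg_right h2 d0

theorem dvd_of_ne {p : ℕ} {a b : ℤ} (h : dg V (gnu V I H q) p {a, b} ≠ 0) :
    a ∈ V ∧ b ∈ V ∧ (p : ℤ) ∣ a - b := by
  rw [dg_eq] at h
  obtain ⟨n, -, k⟩ := exists_ne_zero_of_sum_ne_zero h
  have s : ({a, b} : Finset ℤ) ⊆ edge V H p n := by_contra fun e => k (if_neg e)
  obtain ⟨⟨h1, -, k1⟩, a1⟩ := C.mem_edge.1 (s (mem_insert_self a {b}))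
  obtain ⟨⟨h2, -, k2⟩, a2⟩ := C.mem_edge.1 (s (mem_insert_of_mem (mem_singleton_self b)))
  exact ⟨a1, a2, h1 - h2, by rw [← k1, ← k2]; ring⟩

theorem edges (hV : V ⊆ Icc (1 : ℤ) y) (hL : 1 ≤ L) (hq : ∀ p n, 0 ≤ q p n ∧ q p n ≤ δ)
    (h1 : ∀ p, ∑ n ∈ I, q p n ≤ 1) (hH : H.card ≤ L) (hP : ∀ p ∈ PP, p.Prime ∧ y < p ^ 2) :
    Edges V PP (gnu V I H q) L (L * δ) where
  K1 := hL
  nonneg p T := sum_nonneg fun n _ => by
    split_ifs
    · exact (hq p n).1
    · exact le_rfl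
  supp p T h := by
    obtain ⟨n, rfl⟩ := nu_ne h
    exact ⟨inter_subset_right, (card_le_card inter_subset_left).trans (card_image_le.trans hH)⟩
  mass p := by
    have := dg_eq (V := V) (I := I) (H := H) (q := q) p ∅
    simp only [dg, empty_subset, if_true] at this
    rw [this]
    exact h1 p
  vert p a := dg_le hq hH p (mem_singleton_self a)
  codeg a b hab := by
    have d0 : 0 ≤ δ := (hq 0 0).1.trans (hq 0 0).2
    by_cases h : ∃ p ∈ PP, dg V (gnu V I H q) p {a, b} ≠ 0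
    · obtain ⟨p, m, k⟩ := h
      rw [sum_eq_single_of_mem p m fun p' m' ne => by_contra fun k' => ?_]
      · exact dg_le hq hH p (mem_insert_self a {b})
      obtain ⟨a1, a2, d1⟩ := dvd_of_ne k
      obtain ⟨-, -, d2⟩ := dvd_of_ne k'
      have c : Nat.Coprime p p' := (Nat.coprime_primes (hP p m).1 (hP p' m').1).2 ne.symm
      have d3 : ((p * p' : ℕ) : ℤ) ∣ a - b := by
        push_cast
        exact (Nat.isCoprime_iff_coprime.2 c).mul_dvd d1 d2
      have d4 := Int.le_of_dvd (abs_pos.2 (sub_ne_zero.2 hab)) ((dvd_abs _ _).2 d3)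
      have d5 : y < p * p' := by
        refine lt_of_pow_lt_pow_left₀ 2 (Nat.zero_le _) ?_
        calc y ^ 2 = y * y := sq y
          _ < p ^ 2 * p' ^ 2 := Nat.mul_lt_mul'' (hP p m).2 (hP p' m').2
          _ = (p * p') ^ 2 := by ring
      have b1 := mem_Icc.1 (hV a1)
      have b2 := mem_Icc.1 (hV a2)
      have d6 : (y : ℤ) < ((p * p' : ℕ) : ℤ) := by exact_mod_cast d5
      have d7 : |a - b| ≤ y := abs_le.2 ⟨by omega, by omega⟩
      omega
    · rw [sum_eq_zero fun p m => by_contra fun k => h ⟨p, m, k⟩]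
      positivity

end G

open G

theorem stmtG (hN : StmtNib) : StmtG := by
  classical
  intro LL κ E y J L H PP δq B hE hL hδ hs hd hP hG
  have hG' : ∀ j, ∃ F : (LL → ℕ) → ℝ, j < J → ∑ ω ∈ Om LL, wt LL κ ω * F ω ≤ B j ∧
      ∀ ω ∈ Om LL, ∃ q : ℕ → ℤ → ℝ, (∀ p n, 0 ≤ q p n ∧ q p n ≤ δq) ∧
      (∀ p, ∑ n ∈ Icc (-(y : ℤ)) y, q p n ≤ 1) ∧ ∀ U : Finset ℤ,
      (∀ a ∈ U, a ∈ E ∧ Sv LL a ω ∧
        ∑ p ∈ PP j, ∑ h ∈ H j, q p (a - (h : ℤ) * p) < 4 * exp (-(2 * j))) →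
        (U.card : ℝ) ≤ F ω := fun j => by
    by_cases h : j < J
    · exact (hG j h).imp fun _ k _ => k
    · exact ⟨0, fun k => absurd k h⟩
  choose F hF using hG'
  refine ⟨fun ω => ∑ j ∈ range J, F j ω + 2 * exp (-(2 * J)) * ∑ a ∈ E, ind (Sv LL) {a} ω, ?_,
    fun ω hω => ?_⟩
  · simp only [mul_add, sum_add_distrib]
    refine add_le_add ?_ (le_of_eq ?_)
    · simp only [mul_sum]
      rw [sum_comm]
      exact sum_le_sum fun j m => (hF j (mem_range.1 m)).1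
    · simp only [Pb, Pr, mul_sum]
      rw [sum_comm]
      exact sum_congr rfl fun a _ => sum_congr rfl fun ω _ => by ring
  have hq : ∀ j, ∃ q : ℕ → ℤ → ℝ, j < J → (∀ p n, 0 ≤ q p n ∧ q p n ≤ δq) ∧
      (∀ p, ∑ n ∈ Icc (-(y : ℤ)) y, q p n ≤ 1) ∧ ∀ U : Finset ℤ,
      (∀ a ∈ U, a ∈ E ∧ Sv LL a ω ∧
        ∑ p ∈ PP j, ∑ h ∈ H j, q p (a - (h : ℤ) * p) < 4 * exp (-(2 * j))) →
        (U.card : ℝ) ≤ F j ω := fun j => by
    by_cases h : j < J
    · exact ((hF j h).2 ω hω).imp fun _ k _ => k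
    · exact ⟨0, fun k => absurd k h⟩
  choose q hq using hq
  obtain ⟨V, hV⟩ : ∃ V : Finset ℤ, ∀ a, a ∈ V ↔ a ∈ E ∧ Sv LL a ω ∧ ∀ j < J,
      4 * exp (-(2 * j)) ≤ ∑ p ∈ PP j, ∑ h ∈ H j, q j p (a - (h : ℤ) * p) :=
    ⟨E.filter _, fun a => mem_filter⟩
  have VE : V ⊆ E := fun a m => ((hV a).1 m).1
  obtain ⟨ch, c1, c2⟩ := hN V J L PP (fun j => gnu V (Icc (-(y : ℤ)) y) (H j) (q j)) (L * δq)
    (by positivity) hs
    (fun j m => edges (VE.trans hE) hL (hq j m).1 (hq j m).2.1 (hP j m).1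
      fun p k => ⟨((hP j m).2 p k).1, ((hP j m).2 p k).2.1⟩)
    fun j m a k => (((hV a).1 k).2.2 j m).trans (le_of_eq (sum_congr rfl fun p r => by
      obtain ⟨r1, -, r3⟩ := (hP j m).2 p r
      have := C.sum_edge k (VE.trans hE) (Hm := y / p)
        (fun h u => (Nat.le_div_iff_mul_le r1.pos).2 (r3 h u)) r1.pos (Nat.div_mul_le_self y p)
        (q j p) fun _ => 1
      simp only [mul_one] at this
      rw [dg_eq, ← this]
      simp only [singleton_subset_iff]))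
  have hn : ∀ p, ∃ n : ℤ, ∀ j < J, p ∈ PP j → ∀ a ∈ ch j p, (p : ℤ) ∣ a - n := fun p => by
    by_cases h : ∃ j < J, p ∈ PP j
    · obtain ⟨i, m, k⟩ := h
      have h1 : ∃ n : ℤ, ∀ a ∈ ch i p, (p : ℤ) ∣ a - n := by
        rcases c1 i m p with e | ⟨T, s, e⟩
        · exact ⟨0, fun a u => absurd (e ▸ u) (notMem_empty a)⟩
        · obtain ⟨n, rfl⟩ := nu_ne e
          refine ⟨n, fun a u => ?_⟩
          obtain ⟨⟨h, -, e⟩, -⟩ := C.mem_edge.1 (s u)
          exact ⟨h, by rw [← e]; ring⟩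
      refine h1.imp fun n u j m' k' => ?_
      obtain rfl : i = j := by_contra fun ne => disjoint_left.1 (hd i m j m' ne) k k'
      exact u
    · exact ⟨0, fun j m k => absurd ⟨j, m, k⟩ h⟩
  choose n hn using hn
  refine ⟨n, fun U hU => ?_⟩
  have s : U ⊆ (range J).biUnion (fun j => U.filter fun a =>
      ∑ p ∈ PP j, ∑ h ∈ H j, q j p (a - (h : ℤ) * p) < 4 * exp (-(2 * j))) ∪ U ∩ V := by
    intro a m
    by_cases k : a ∈ V
    · exact mem_union_right _ (mem_inter.2 ⟨m, k⟩)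
    · refine mem_union_left _ (by_contra fun u => k ((hV a).2 ⟨(hU a m).1, (hU a m).2.1,
        fun j r => not_lt.1 fun t => u ?_⟩))
      exact mem_biUnion.2 ⟨j, mem_range.2 r, mem_filter.2 ⟨m, t⟩⟩
  have s1 := (card_le_card s).trans ((card_union_le _ _).trans
    (Nat.add_le_add_right card_biUnion_le _))
  have s2 := c2 (U ∩ V) inter_subset_right fun a m j r p k u =>
    (hU a (mem_inter.1 m).1).2.2 p (mem_biUnion.2 ⟨j, mem_range.2 r, k⟩) (hn p j r k a u)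
  have s3 : (V.card : ℝ) ≤ ∑ a ∈ E, ind (Sv LL) {a} ω := by
    rw [card_eq_sum_ones, Nat.cast_sum]
    refine le_trans (le_of_eq (sum_congr rfl fun a m => ?_))
      (sum_le_sum_of_subset_of_nonneg VE fun a _ _ => ?_)
    · unfold ind
      rw [if_pos fun b u => (mem_singleton.1 u).symm ▸ ((hV a).1 m).2.1, Nat.cast_one]
    · unfold ind
      split_ifs
      · exact zero_le_one
      · exact le_rfl
  refine le_trans (Nat.cast_le.2 s1) ?_
  rw [Nat.cast_add, Nat.cast_sum]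
  refine add_le_add (sum_le_sum fun j m => (hq j (mem_range.1 m)).2.2 _ fun a k => ?_)
    (s2.trans (mul_le_mul_of_nonneg_left s3 (by positivity)))
  obtain ⟨k1, k2⟩ := mem_filter.1 k
  exact ⟨(hU a k1).1, (hU a k1).2.1, k2⟩

end Vale.Agent.N013L
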