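import Vale.Agent.N013L.Def

/-! Block H1: the second moment of the total weight of one family of patterns. -/

namespace Vale.Agent.N013L

open Finset Real

namespace H1

/-- members of a residue class in an interval -/
lemma card_class (y ℓ : ℕ) (hℓ : 0 < ℓ) (c : ℤ) :
    (((Icc (-(y : ℤ)) y).filter fun n => (ℓ : ℤ) ∣ n + c).card : ℝ) ≤ (2 * y + 1) / ℓ + 1 := by
  have hr : (0 : ℤ) < ℓ := by exact_mod_cast hℓ
  have h1 := Int.Ico_filter_modEq_card (-(y : ℤ)) (y + 1) hr (-c)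
  have h2 : (Icc (-(y : ℤ)) y).filter (fun n => (ℓ : ℤ) ∣ n + c) =
      (Ico (-(y : ℤ)) (y + 1)).filter fun n => n ≡ -c [ZMOD ℓ] := by
    ext n
    simp only [Finset.mem_filter, Finset.mem_Icc, Finset.mem_Ico, Int.lt_add_one_iff]
    rw [Int.modEq_comm, Int.modEq_iff_dvd, sub_neg_eq_add]
  rw [h2]
  have hq : (0 : ℚ) < ((ℓ : ℤ) : ℚ) := by exact_mod_cast hℓ
  set u : ℚ := ((((y : ℤ) + 1 : ℤ) : ℚ) - ((-c : ℤ) : ℚ)) / ((ℓ : ℤ) : ℚ) with hu
  set v : ℚ := (((-(y : ℤ) : ℤ) : ℚ) - ((-c : ℤ) : ℚ)) / ((ℓ : ℤ) : ℚ) with hv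
  have h3 : u - v = (2 * y + 1) / ℓ := by
    rw [hu, hv, ← sub_div]
    push_cast
    congr 1
    ring
  have h4 : ((max (⌈u⌉ - ⌈v⌉) 0 : ℤ) : ℚ) ≤ (2 * y + 1) / ℓ + 1 := by
    have h5 := Int.ceil_lt_add_one u
    have h6 := Int.le_ceil v
    push_cast
    refine max_le (by linarith) (by positivity)
  rw [← h1] at h4
  have h7 : (((((Ico (-(y : ℤ)) (y + 1)).filter fun n => n ≡ -c [ZMOD ℓ]).card : ℤ) : ℚ) : ℝ) ≤
      (((2 * y + 1) / ℓ + 1 : ℚ) : ℝ) := by exact_mod_cast h4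
  push_cast at h7
  exact h7

/-- number of prime divisors that are at least `3` -/
lemma card_div (D : Finset ℕ) (b : ℤ) (y : ℕ) (hb : 1 ≤ b) (hy : b ≤ y)
    (hD : ∀ ℓ ∈ D, ℓ.Prime ∧ 3 ≤ ℓ ∧ (ℓ : ℤ) ∣ b) : (D.card : ℝ) ≤ log y := by
  have h1 : ∏ ℓ ∈ D, ℓ ∣ b.toNat := by
    refine Finset.prod_primes_dvd _ (fun ℓ h => (hD ℓ h).1.prime) fun ℓ h => ?_
    have h2 := (hD ℓ h).2.2
    rw [← Int.toNat_of_nonneg (by omega : 0 ≤ b)] at h2
    exact_mod_cast h2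
  have h2 : 3 ^ D.card ≤ ∏ ℓ ∈ D, ℓ := Finset.pow_card_le_prod D _ 3 fun ℓ h => (hD ℓ h).2.1
  have h3 : ∏ ℓ ∈ D, ℓ ≤ b.toNat := Nat.le_of_dvd (by omega) h1
  have h4 : 3 ^ D.card ≤ y := by omega
  have h5 : (3 : ℝ) ^ D.card ≤ y := by exact_mod_cast h4
  have h6 : exp (D.card : ℝ) ≤ (3 : ℝ) ^ D.card := by
    rw [← Real.exp_one_pow]
    exact pow_le_pow_left₀ (exp_pos 1).le (le_trans Real.exp_one_lt_d9.le (by norm_num)) _
  exact (Real.le_log_iff_exp_le (lt_of_lt_of_le (by positivity) h5)).2 (h6.trans h5)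

lemma Pb_empty {LL : Finset ℕ} {κ : ℕ → ℝ} (h : ∑ ω ∈ Om LL, wt LL κ ω = 1) :
    Pb LL κ ∅ = 1 := by
  unfold Pb Pr ind
  simpa using h

lemma Pb_nonneg {LL : Finset ℕ} {κ : ℕ → ℝ} (h : ∀ ω ∈ Om LL, 0 ≤ wt LL κ ω) (e : Finset ℤ) :
    0 ≤ Pb LL κ e := by
  refine Finset.sum_nonneg fun ω hω => mul_nonneg (h ω hω) ?_
  unfold ind
  split_ifs <;> norm_num

lemma Pb_anti {LL : Finset ℕ} {κ : ℕ → ℝ} (h : ∀ ω ∈ Om LL, 0 ≤ wt LL κ ω) {e e' : Finset ℤ}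
    (he : e ⊆ e') : Pb LL κ e' ≤ Pb LL κ e := by
  refine Finset.sum_le_sum fun ω hω => mul_le_mul_of_nonneg_left ?_ (h ω hω)
  unfold ind
  by_cases h1 : ∀ a ∈ e', Sv LL a ω
  · rw [if_pos h1, if_pos fun a ha => h1 a (he ha)]
  · rw [if_neg h1]
    split_ifs <;> norm_num

lemma edge_sub (E : Finset ℤ) (H : Finset ℕ) (p : ℕ) (n : ℤ) : edge E H p n ⊆ E :=
  Finset.inter_subset_right

lemma edge_card (E : Finset ℤ) (H : Finset ℕ) (p : ℕ) (n : ℤ) : (edge E H p n).card ≤ H.card :=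
  le_trans (Finset.card_le_card Finset.inter_subset_left) Finset.card_image_le

lemma mem_edge {E : Finset ℤ} {H : Finset ℕ} {p : ℕ} {n b : ℤ} (h : b ∈ edge E H p n) :
    ∃ k ∈ H, n + (k : ℤ) * p = b :=
  Finset.mem_image.1 (Finset.mem_inter.1 h).1

/-- the starting points whose pattern interferes with the set `e` -/
noncomputable def bad (LL : Finset ℕ) (ζ : ℝ) (y : ℕ) (H : Finset ℕ) (p : ℕ) (e : Finset ℤ) :
    Finset ℤ :=
  (e ×ˢ H).image (fun c => c.1 - (c.2 : ℤ) * p) ∪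
    e.biUnion fun b => (LL.filter fun ℓ : ℕ => (ℓ : ℤ) ∣ b ∧ ζ ≤ (ℓ : ℝ)).biUnion fun ℓ =>
      H.biUnion fun k => (Icc (-(y : ℤ)) y).filter fun n => (ℓ : ℤ) ∣ n + (k : ℤ) * p

lemma card_biUnion_real {α β : Type} [DecidableEq β] (s : Finset α) (t : α → Finset β) (B c : ℝ)
    (hB : 0 ≤ B) (hs : (s.card : ℝ) ≤ c) (h : ∀ a ∈ s, ((t a).card : ℝ) ≤ B) :
    ((s.biUnion t).card : ℝ) ≤ c * B := by
  have h1 : ((s.biUnion t).card : ℝ) ≤ ∑ a ∈ s, ((t a).card : ℝ) := by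
    exact_mod_cast Finset.card_biUnion_le
  have h2 := Finset.sum_le_card_nsmul s _ B h
  rw [nsmul_eq_mul] at h2
  exact h1.trans (h2.trans (mul_le_mul_of_nonneg_right hs hB))

lemma card_bad (LL : Finset ℕ) (ζ : ℝ) (y L : ℕ) (H : Finset ℕ) (p : ℕ) (e : Finset ℤ)
    (hζ : 0 < ζ) (hLL : ∀ ℓ ∈ LL, ℓ.Prime ∧ 3 ≤ ℓ) (he : e ⊆ Icc (1 : ℤ) y) (heL : e.card ≤ L)
    (hH : H.card ≤ L) (hL : 1 ≤ L) :
    ((bad LL ζ y H p e).card : ℝ) ≤ (L : ℝ) ^ 3 * (1 + log y * ((2 * y + 1) / ζ + 1)) := by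
  have hlog : 0 ≤ log (y : ℝ) := Real.log_natCast_nonneg y
  have heL' : (e.card : ℝ) ≤ L := by exact_mod_cast heL
  have hH' : (H.card : ℝ) ≤ L := by exact_mod_cast hH
  have hL' : (1 : ℝ) ≤ L := by exact_mod_cast hL
  set Q : ℝ := (2 * y + 1) / ζ + 1 with hQ
  have hQ0 : 0 ≤ Q := by positivity
  have h1 : (((e ×ˢ H).image (fun c : ℤ × ℕ => c.1 - (c.2 : ℤ) * p)).card : ℝ) ≤ L * L := by
    have h2 : ((e ×ˢ H).image (fun c : ℤ × ℕ => c.1 - (c.2 : ℤ) * p)).card ≤ L * L := by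
      refine le_trans Finset.card_image_le ?_
      rw [Finset.card_product]
      exact Nat.mul_le_mul heL hH
    exact_mod_cast h2
  have h2 : ((e.biUnion fun b =>
      (LL.filter fun ℓ : ℕ => (ℓ : ℤ) ∣ b ∧ ζ ≤ (ℓ : ℝ)).biUnion fun ℓ =>
        H.biUnion fun k => (Icc (-(y : ℤ)) y).filter fun n => (ℓ : ℤ) ∣ n + (k : ℤ) * p).card : ℝ) ≤
      L * (log y * (L * Q)) := by
    refine card_biUnion_real _ _ _ _ (by positivity) heL' fun b hb => ?_
    have hb' := Finset.mem_Icc.1 (he hb)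
    refine card_biUnion_real _ _ _ _ (by positivity) ?_ fun ℓ hℓ => ?_
    · refine card_div _ b y hb'.1 hb'.2 fun ℓ hℓ => ?_
      have h3 := Finset.mem_filter.1 hℓ
      exact ⟨(hLL ℓ h3.1).1, (hLL ℓ h3.1).2, h3.2.1⟩
    · have h3 := Finset.mem_filter.1 hℓ
      refine card_biUnion_real _ _ _ _ hQ0 hH' fun k _ => ?_
      refine le_trans (card_class y ℓ (hLL ℓ h3.1).1.pos _) ?_
      rw [hQ]
      gcongr
      exact h3.2.2
  have h3 : ((bad LL ζ y H p e).card : ℝ) ≤ L * L + L * (log y * (L * Q)) := by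
    refine le_trans ?_ (add_le_add h1 h2)
    exact_mod_cast Finset.card_union_le _ _
  refine h3.trans ?_
  have h4 : (L : ℝ) * L + L * (log y * (L * Q)) = (L : ℝ) ^ 2 * (1 + log y * Q) := by ring
  rw [h4]
  refine mul_le_mul_of_nonneg_right (pow_le_pow_right₀ hL' (by norm_num)) (by positivity)

end H1

open H1 in
theorem stmtH1 (h1 : StmtB1) (h2 : StmtB2) : StmtH1 := by
  intro LL κ κ₁ w L E y H PP Hm W Wm ζ Λ₀ d₀ η F p hp
  obtain ⟨hw0, hw1, -, -, -⟩ := h1 LL κ κ₁ w L F.model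
  have hζ : 0 < ζ := lt_of_le_of_lt (Nat.cast_nonneg Hm) F.hζ
  have hLL : ∀ ℓ ∈ LL, ℓ.Prime ∧ 3 ≤ ℓ := fun ℓ h =>
    ⟨F.model.prime ℓ h, by exact_mod_cast F.model.w3.trans (F.model.big ℓ h)⟩
  have hΛ0 : 0 ≤ Λ₀ := by
    have h3 := F.hΛ ∅ (Finset.empty_subset _) (by simp)
    rw [Pb_empty hw1] at h3
    linarith
  have hc : ∀ n, (edge E H p n).card ≤ L := fun n => (edge_card E H p n).trans F.hH
  have hs : ∀ n, edge E H p n ⊆ Icc (1 : ℤ) y := fun n => (edge_sub E H p n).trans F.hE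
  have hΛ : ∀ n, 1 ≤ Λ₀ * Pb LL κ (edge E H p n) := fun n => F.hΛ _ (edge_sub E H p n) (hc n)
  have hpos : ∀ n, 0 < Pb LL κ (edge E H p n) := by
    intro n
    rcases (Pb_nonneg hw0 (edge E H p n)).lt_or_eq with h | h
    · exact h
    · have h3 := hΛ n
      rw [← h, mul_zero] at h3
      linarith
  set β : ℝ := 4 * L ^ 2 * log y / (w * κ₁ ^ 2) with hβ
  have hβ0 : 1 ≤ exp β := by
    refine Real.one_le_exp ?_
    have h3 : 0 ≤ log (y : ℝ) := Real.log_natCast_nonneg y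
    have h4 : 0 < w := by linarith [F.model.w3]
    positivity
  set B : ℝ := (L : ℝ) ^ 3 * (1 + log y * ((2 * y + 1) / ζ + 1)) with hB
  have hB0 : 0 ≤ B := by
    have h3 : 0 ≤ log (y : ℝ) := Real.log_natCast_nonneg y
    positivity
  have hWm : 0 ≤ Wm := (F.hW p 0).1.trans (F.hW p 0).2
  set I : Finset ℤ := Icc (-(y : ℤ)) y with hI
  set m : ℝ := ∑ n ∈ I, W p n with hm
  have hm0 : 0 ≤ m := Finset.sum_nonneg fun n _ => (F.hW p n).1
  have hm1 : m ≤ 1 := F.hW1 p hp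
  -- the bound for one pair
  have key : ∀ n, ∀ n' ∈ I, W p n' * (Pb LL κ (edge E H p n ∪ edge E H p n') /
      (Pb LL κ (edge E H p n) * Pb LL κ (edge E H p n'))) ≤
      W p n' * exp β + if n' ∈ bad LL ζ y H p (edge E H p n) then Wm * Λ₀ else 0 := by
    intro n n' hn'
    have hW := F.hW p n'
    have hpp := mul_pos (hpos n) (hpos n')
    by_cases hb : n' ∈ bad LL ζ y H p (edge E H p n)
    · rw [if_pos hb]
      have h3 : Pb LL κ (edge E H p n ∪ edge E H p n') /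
          (Pb LL κ (edge E H p n) * Pb LL κ (edge E H p n')) ≤ Λ₀ := by
        rw [div_le_iff₀ hpp]
        have h4 : Pb LL κ (edge E H p n ∪ edge E H p n') ≤ Pb LL κ (edge E H p n) :=
          Pb_anti hw0 Finset.subset_union_left
        have h5 := mul_le_mul_of_nonneg_left (hΛ n') (hpos n).le
        nlinarith
      have h4 := mul_le_mul hW.2 h3 (div_nonneg (Pb_nonneg hw0 _) hpp.le) hWm
      have h5 : 0 ≤ W p n' * exp β := mul_nonneg hW.1 (exp_pos β).le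
      linarith
    · rw [if_neg hb, add_zero]
      refine mul_le_mul_of_nonneg_left ?_ hW.1
      have hd : edge E H p n ∩ edge E H p n' = ∅ := by
        by_contra hne
        obtain ⟨b, hb'⟩ := Finset.nonempty_iff_ne_empty.2 hne
        obtain ⟨hb1, hb2⟩ := Finset.mem_inter.1 hb'
        obtain ⟨k, hk, hk'⟩ := mem_edge hb2
        refine hb (Finset.mem_union_left _ (Finset.mem_image.2 ⟨(b, k), ?_, ?_⟩))
        · exact Finset.mem_product.2 ⟨hb1, hk⟩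
        · simp only
          linarith
      have h3 := h2 LL κ κ₁ w L F.model y (edge E H p n) (edge E H p n') (hs n) (hs n') (hc n)
        (hc n') (by
          rintro ℓ hℓ hκ b hb1 b' hb2 ⟨hd1, hd2⟩
          have hb3 := (Finset.mem_sdiff.1 hb1).1
          obtain ⟨k, hk, hk'⟩ := mem_edge (Finset.mem_sdiff.1 hb2).1
          refine hb (Finset.mem_union_right _ (Finset.mem_biUnion.2 ⟨b, hb3,
            Finset.mem_biUnion.2 ⟨ℓ, Finset.mem_filter.2 ⟨hℓ, hd1,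
              F.hdiv ℓ hℓ hκ b (edge_sub E H p n hb3) hd1⟩,
            Finset.mem_biUnion.2 ⟨k, hk, Finset.mem_filter.2 ⟨hn', ?_⟩⟩⟩⟩))
          rw [hk']
          exact hd2)
      rw [hd, Pb_empty hw1, mul_one] at h3
      rw [div_le_iff₀ hpp, mul_comm]
      exact h3
  have row : ∀ n, ∑ n' ∈ I, W p n * W p n' * (Pb LL κ (edge E H p n ∪ edge E H p n') /
      (Pb LL κ (edge E H p n) * Pb LL κ (edge E H p n'))) ≤
      W p n * (m * exp β + B * (Wm * Λ₀)) := by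
    intro n
    simp_rw [mul_assoc (W p n)]
    rw [← Finset.mul_sum]
    refine mul_le_mul_of_nonneg_left ?_ (F.hW p n).1
    refine le_trans (Finset.sum_le_sum (key n)) ?_
    rw [Finset.sum_add_distrib, ← Finset.sum_mul, ← Finset.sum_filter, Finset.sum_const,
      nsmul_eq_mul]
    refine add_le_add le_rfl (mul_le_mul_of_nonneg_right ?_ (mul_nonneg hWm hΛ0))
    refine le_trans ?_ (card_bad LL ζ y L H p (edge E H p n) hζ hLL (hs n) (hc n) F.hH F.model.L1)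
    exact_mod_cast Finset.card_le_card fun n' hn' => (Finset.mem_filter.1 hn').2
  refine le_trans (Finset.sum_le_sum fun n _ => row n) ?_
  rw [← Finset.sum_mul, ← hm]
  have hη := F.hη
  rw [← hβ, mul_assoc (Λ₀ * Wm), ← hB] at hη
  have h3 : 0 ≤ B * (Wm * Λ₀) := mul_nonneg hB0 (mul_nonneg hWm hΛ0)
  have h4 : m * (B * (Wm * Λ₀)) ≤ B * (Wm * Λ₀) := mul_le_of_le_one_left h3 hm1
  have h5 : m ^ 2 * (exp β - 1) ≤ exp β - 1 :=
    mul_le_of_le_one_left (by linarith) (pow_le_one₀ hm0 hm1)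
  nlinarith

end Vale.Agent.N013L
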