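import Vale.Agent.N013L.Def

/-! Block H2: the second moment of the degree of a point. -/

namespace Vale.Agent.N013L

open Finset Real

namespace H2

/-- the members of one residue class in `[0, y]` -/
lemma class_count {l : ℕ} (hl : l.Prime) (a c : ℤ) (hc : ¬ (l : ℤ) ∣ c) (y : ℕ) (S : Finset ℕ)
    (hS : ∀ p ∈ S, p ≤ y) :
    ((S.filter fun p : ℕ => (l : ℤ) ∣ a + c * p).card : ℝ) ≤ y / l + 1 := by
  have hl0 : 0 < l := hl.pos
  have hp : Prime (l : ℤ) := Nat.prime_iff_prime_int.1 hl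
  have h1 : (S.filter fun p : ℕ => (l : ℤ) ∣ a + c * p).card ≤ (range (y / l + 1)).card := by
    refine Finset.card_le_card_of_injOn (fun p => p / l) ?_ ?_
    · intro p hp'
      have := hS p (Finset.mem_filter.1 (Finset.mem_coe.1 hp')).1
      simp only [coe_range, Set.mem_Iio]
      exact Nat.lt_succ_of_le (Nat.div_le_div_right this)
    · intro p hp1 q hq1 hpq
      have h1 := (Finset.mem_filter.1 (Finset.mem_coe.1 hp1)).2
      have h2 := (Finset.mem_filter.1 (Finset.mem_coe.1 hq1)).2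
      have h3 : (l : ℤ) ∣ c * ((q : ℤ) - p) := by
        have := dvd_sub h2 h1
        have e : a + c * q - (a + c * p) = c * ((q : ℤ) - p) := by ring
        rwa [e] at this
      have h4 : (l : ℤ) ∣ (q : ℤ) - p := (hp.dvd_or_dvd h3).resolve_left hc
      have h5 : p % l = q % l := (Nat.modEq_iff_dvd.2 h4 : p ≡ q [MOD l])
      have h6 : p / l = q / l := hpq
      calc p = l * (p / l) + p % l := (Nat.div_add_mod p l).symm
        _ = l * (q / l) + q % l := by rw [h5, h6]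
        _ = q := Nat.div_add_mod q l
  rw [card_range] at h1
  have h2 : ((y / l : ℕ) : ℝ) ≤ (y : ℝ) / l := Nat.cast_div_le
  have h3 : (((S.filter fun p : ℕ => (l : ℤ) ∣ a + c * p).card : ℕ) : ℝ) ≤ ((y / l + 1 : ℕ) : ℝ) := by
    exact_mod_cast h1
  push_cast at h3
  linarith

/-- a number in `[1, y]` has at most `log y` prime divisors that are at least three -/
lemma div_count (T : Finset ℕ) (hT : ∀ l ∈ T, l.Prime ∧ 3 ≤ l) (b : ℤ) (y : ℕ) (hb1 : 1 ≤ b)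
    (hby : b ≤ y) (hd : ∀ l ∈ T, (l : ℤ) ∣ b) : (T.card : ℝ) ≤ log y := by
  have h1 : (∏ l ∈ T, l) ∣ b.toNat := by
    refine Finset.prod_primes_dvd _ (fun l hl => (hT l hl).1.prime) (fun l hl => ?_)
    have := hd l hl
    have e : ((b.toNat : ℕ) : ℤ) = b := Int.toNat_of_nonneg (by omega)
    rw [← e] at this
    exact_mod_cast this
  have h2 : ∏ l ∈ T, l ≤ b.toNat := Nat.le_of_dvd (by omega) h1
  have h3 : 3 ^ T.card ≤ ∏ l ∈ T, l := by
    rw [← Finset.prod_const]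
    exact Finset.prod_le_prod' fun l hl => (hT l hl).2
  have h4 : 3 ^ T.card ≤ y := by omega
  have h5 : (3 : ℝ) ^ T.card ≤ y := by exact_mod_cast h4
  have h6 : log ((3 : ℝ) ^ T.card) ≤ log y := log_le_log (by positivity) h5
  rw [log_pow] at h6
  have h7 : 1 ≤ log 3 := by
    rw [le_log_iff_exp_le (by norm_num)]
    have := exp_one_lt_d9
    linarith
  nlinarith [Nat.cast_nonneg (α := ℝ) T.card]

lemma pb_anti {LL : Finset ℕ} {κ : ℕ → ℝ} (h0 : ∀ ω ∈ Om LL, 0 ≤ wt LL κ ω) {e e' : Finset ℤ}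
    (h : e ⊆ e') : Pb LL κ e' ≤ Pb LL κ e := by
  unfold Pb Pr
  refine Finset.sum_le_sum fun ω hω => mul_le_mul_of_nonneg_left ?_ (h0 ω hω)
  unfold ind
  split_ifs with h1 h2
  · exact le_rfl
  · exact absurd (fun a ha => h1 a (h ha)) h2
  · exact zero_le_one
  · exact le_rfl

lemma pb_nonneg {LL : Finset ℕ} {κ : ℕ → ℝ} (h0 : ∀ ω ∈ Om LL, 0 ≤ wt LL κ ω) (e : Finset ℤ) :
    0 ≤ Pb LL κ e := by
  unfold Pb Pr
  refine Finset.sum_nonneg fun ω hω => mul_nonneg (h0 ω hω) ?_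
  unfold ind
  split_ifs
  · exact zero_le_one
  · exact le_rfl

lemma edge_sub (E : Finset ℤ) (H : Finset ℕ) (p : ℕ) (n : ℤ) : edge E H p n ⊆ E :=
  Finset.inter_subset_right

lemma edge_card (E : Finset ℤ) (H : Finset ℕ) (p : ℕ) (n : ℤ) : (edge E H p n).card ≤ H.card :=
  (Finset.card_le_card Finset.inter_subset_left).trans Finset.card_image_le

lemma mem_edge {E : Finset ℤ} {H : Finset ℕ} {p : ℕ} {n b : ℤ} :
    b ∈ edge E H p n ↔ (∃ h ∈ H, n + (h : ℤ) * p = b) ∧ b ∈ E := by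
  simp [edge]

lemma self_mem {E : Finset ℤ} {H : Finset ℕ} {a : ℤ} (ha : a ∈ E) (p : ℕ) {h : ℕ} (hh : h ∈ H) :
    a ∈ edge E H p (a - (h : ℤ) * p) :=
  mem_edge.2 ⟨⟨h, hh, by ring⟩, ha⟩

/-- a prime above `Hm` does not divide the difference of two distinct shifts -/
lemma not_dvd {l Hm h h' : ℕ} (hl : Hm < l) (h1 : h ≤ Hm) (h2 : h' ≤ Hm) (hne : h ≠ h') :
    ¬ (l : ℤ) ∣ (h : ℤ) - h' := by
  intro hd
  have := Int.eq_zero_of_abs_lt_dvd hd (by rw [abs_lt]; constructor <;> omega)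
  omega

lemma inter_eq {E : Finset ℤ} {H : Finset ℕ} {Hm : ℕ} (hH : ∀ h ∈ H, h ≤ Hm) {a : ℤ} (ha : a ∈ E)
    {p p' h h' : ℕ} (hp : p.Prime) (hp' : p'.Prime) (hne : p ≠ p') (hHp : Hm < p) (hh : h ∈ H)
    (hh' : h' ∈ H) :
    edge E H p (a - (h : ℤ) * p) ∩ edge E H p' (a - (h' : ℤ) * p') = {a} := by
  ext b
  rw [Finset.mem_inter, Finset.mem_singleton]
  constructor
  · rintro ⟨h1, h2⟩
    obtain ⟨⟨k, -, e1⟩, -⟩ := mem_edge.1 h1
    obtain ⟨⟨k', hk', e2⟩, -⟩ := mem_edge.1 h2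
    by_contra hba
    have hk : k' ≠ h' := by
      rintro rfl
      exact hba (by rw [← e2]; ring)
    have hd : (p : ℤ) ∣ ((k' : ℤ) - h') * p' := ⟨(k : ℤ) - h, by linear_combination e2 - e1⟩
    rcases (Nat.prime_iff_prime_int.1 hp).dvd_or_dvd hd with h3 | h3
    · exact not_dvd hHp (hH _ hk') (hH _ hh') hk h3
    · have : p ∣ p' := by exact_mod_cast h3
      exact hne ((Nat.prime_dvd_prime_iff_eq hp hp').1 this)
  · rintro rfl
    exact ⟨self_mem ha p hh, self_mem ha p' hh'⟩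

/-- the pair is not covered by the correlation inequality -/
def Bad (LL : Finset ℕ) (κ : ℕ → ℝ) (e e' : Finset ℤ) (p p' : ℕ) : Prop :=
  p' = p ∨ ∃ ℓ ∈ LL, κ ℓ < 1 ∧ ∃ b ∈ e \ e', ∃ b' ∈ e' \ e, (ℓ : ℤ) ∣ b ∧ (ℓ : ℤ) ∣ b'

open Classical in
lemma bad_count {LL : Finset ℕ} {κ : ℕ → ℝ} {κ₁ w : ℝ} {L : ℕ} {E : Finset ℤ} {y : ℕ}
    {H PP : Finset ℕ} {Hm : ℕ} {W : ℕ → ℤ → ℝ} {Wm ζ Λ₀ d₀ η : ℝ}
    (F : Fam LL κ κ₁ w L E y H PP Hm W Wm ζ Λ₀ d₀ η) {a : ℤ} (ha : a ∈ E) (p : ℕ)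
    (e : Finset ℤ) (he : e ⊆ E) (hec : e.card ≤ L) (hae : a ∈ e) :
    ∑ p' ∈ PP, ∑ h' ∈ H,
      (if Bad LL κ e (edge E H p' (a - (h' : ℤ) * p')) p p' then (1 : ℝ) else 0) ≤
      L ^ 3 * (1 + log y * ((2 * y + 1) / ζ + 1)) := by
  have hζ : 0 < ζ := lt_of_le_of_lt (Nat.cast_nonneg _) F.hζ
  have hy1 : (1 : ℤ) ≤ y := by
    have := Finset.mem_Icc.1 (F.hE ha)
    omega
  have hy : (1 : ℝ) ≤ y := by exact_mod_cast hy1
  have hlog : 0 ≤ log (y : ℝ) := log_nonneg hy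
  have hL : (1 : ℝ) ≤ L := by exact_mod_cast F.model.L1
  have hH : (H.card : ℝ) ≤ L := by exact_mod_cast F.hH
  have hecR : (e.card : ℝ) ≤ L := by exact_mod_cast hec
  set T : ℤ → Finset ℕ := fun b => LL.filter fun ℓ => κ ℓ < 1 ∧ (ℓ : ℤ) ∣ b with hT
  have step : ∀ p' ∈ PP, ∀ h' ∈ H,
      (if Bad LL κ e (edge E H p' (a - (h' : ℤ) * p')) p p' then (1 : ℝ) else 0) ≤
      (if p' = p then (1 : ℝ) else 0) + ∑ b ∈ e, ∑ ℓ ∈ T b, ∑ k ∈ H,
        (if k ≠ h' ∧ (ℓ : ℤ) ∣ a + ((k : ℤ) - h') * p' then (1 : ℝ) else 0) := by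
    intro p' _ h' _
    have n1 : ∀ (b : ℤ) (ℓ k : ℕ),
        0 ≤ (if k ≠ h' ∧ (ℓ : ℤ) ∣ a + ((k : ℤ) - h') * p' then (1 : ℝ) else 0) := by
      intro b ℓ k
      split_ifs <;> norm_num
    have n2 : ∀ (b : ℤ) (ℓ : ℕ), 0 ≤ ∑ k ∈ H,
        (if k ≠ h' ∧ (ℓ : ℤ) ∣ a + ((k : ℤ) - h') * p' then (1 : ℝ) else 0) :=
      fun b ℓ => Finset.sum_nonneg fun k _ => n1 b ℓ k
    have n3 : ∀ b : ℤ, 0 ≤ ∑ ℓ ∈ T b, ∑ k ∈ H,
        (if k ≠ h' ∧ (ℓ : ℤ) ∣ a + ((k : ℤ) - h') * p' then (1 : ℝ) else 0) :=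
      fun b => Finset.sum_nonneg fun ℓ _ => n2 b ℓ
    have n4 : 0 ≤ ∑ b ∈ e, ∑ ℓ ∈ T b, ∑ k ∈ H,
        (if k ≠ h' ∧ (ℓ : ℤ) ∣ a + ((k : ℤ) - h') * p' then (1 : ℝ) else 0) :=
      Finset.sum_nonneg fun b _ => n3 b
    have n5 : (0 : ℝ) ≤ if p' = p then (1 : ℝ) else 0 := by split_ifs <;> norm_num
    by_cases hb : Bad LL κ e (edge E H p' (a - (h' : ℤ) * p')) p p'
    · rw [if_pos hb]
      rcases hb with hb | ⟨ℓ, hℓ, hκ, b, hb, b', hb', d1, d2⟩
      · rw [if_pos hb]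
        linarith
      · obtain ⟨hb1, -⟩ := Finset.mem_sdiff.1 hb
        obtain ⟨hb2, hb3⟩ := Finset.mem_sdiff.1 hb'
        obtain ⟨⟨k, hk, ek⟩, -⟩ := mem_edge.1 hb2
        have hkh : k ≠ h' := by
          rintro rfl
          apply hb3
          have : b' = a := by rw [← ek]; ring
          rwa [this]
        have hdv : (ℓ : ℤ) ∣ a + ((k : ℤ) - h') * p' := by
          have : a + ((k : ℤ) - h') * p' = b' := by rw [← ek]; ring
          rwa [this]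
        have hℓT : ℓ ∈ T b := Finset.mem_filter.2 ⟨hℓ, hκ, d1⟩
        have s1 := Finset.single_le_sum (f := fun k : ℕ =>
          (if k ≠ h' ∧ (ℓ : ℤ) ∣ a + ((k : ℤ) - h') * p' then (1 : ℝ) else 0))
          (fun k _ => n1 b ℓ k) hk
        have s2 := Finset.single_le_sum (f := fun ℓ : ℕ => ∑ k ∈ H,
          (if k ≠ h' ∧ (ℓ : ℤ) ∣ a + ((k : ℤ) - h') * p' then (1 : ℝ) else 0))
          (fun ℓ _ => n2 b ℓ) hℓT
        have s3 := Finset.single_le_sum (f := fun b : ℤ => ∑ ℓ ∈ T b, ∑ k ∈ H,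
          (if k ≠ h' ∧ (ℓ : ℤ) ∣ a + ((k : ℤ) - h') * p' then (1 : ℝ) else 0))
          (fun b _ => n3 b) hb1
        simp only [if_pos (And.intro hkh hdv)] at s1
        linarith
    · rw [if_neg hb]
      linarith
  have cls : ∀ h' ∈ H, ∀ b ∈ e, ∀ ℓ ∈ T b, ∀ k ∈ H, ∑ p' ∈ PP,
      (if k ≠ h' ∧ (ℓ : ℤ) ∣ a + ((k : ℤ) - h') * p' then (1 : ℝ) else 0) ≤ y / ζ + 1 := by
    intro h' hh' b hb ℓ hℓ k hk
    obtain ⟨hℓ1, hℓ2, hℓ3⟩ := Finset.mem_filter.1 hℓ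
    have hz : ζ ≤ ℓ := F.hdiv ℓ hℓ1 hℓ2 b (he hb) hℓ3
    have hyz : (y : ℝ) / ℓ ≤ y / ζ := div_le_div_of_nonneg_left (by linarith) hζ hz
    by_cases hkh : k = h'
    · have : ∀ p' ∈ PP,
          (if k ≠ h' ∧ (ℓ : ℤ) ∣ a + ((k : ℤ) - h') * p' then (1 : ℝ) else 0) = 0 :=
        fun p' _ => if_neg fun h => h.1 hkh
      rw [Finset.sum_congr rfl this, Finset.sum_const_zero]
      positivity
    · have hlt : Hm < ℓ := by
        have := lt_of_lt_of_le F.hζ hz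
        exact_mod_cast this
      have hc := class_count (F.model.prime ℓ hℓ1) a ((k : ℤ) - h')
        (not_dvd hlt (F.hHm k hk) (F.hHm h' hh') hkh) y PP (fun q hq => (F.hP q hq).2.2.1)
      have : ∑ p' ∈ PP, (if k ≠ h' ∧ (ℓ : ℤ) ∣ a + ((k : ℤ) - h') * p' then (1 : ℝ) else 0) =
          ((PP.filter fun q : ℕ => (ℓ : ℤ) ∣ a + ((k : ℤ) - h') * q).card : ℝ) := by
        rw [Finset.card_filter]
        push_cast
        refine Finset.sum_congr rfl fun q _ => ?_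
        simp only [ne_eq, hkh, not_false_eq_true, true_and]
      rw [this]
      linarith
  have hTc : ∀ b ∈ e, ((T b).card : ℝ) ≤ log y := by
    intro b hb
    have hb' := Finset.mem_Icc.1 (F.hE (he hb))
    refine div_count (T b) (fun l hl => ?_) b y hb'.1 hb'.2
      (fun l hl => (Finset.mem_filter.1 hl).2.2)
    have h1 := (Finset.mem_filter.1 hl).1
    refine ⟨F.model.prime l h1, ?_⟩
    have := F.model.w3.trans (F.model.big l h1)
    exact_mod_cast this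
  have hq : (0 : ℝ) ≤ y / ζ + 1 := by positivity
  have inner : ∀ h' ∈ H, ∑ p' ∈ PP, ((if p' = p then (1 : ℝ) else 0) + ∑ b ∈ e, ∑ ℓ ∈ T b, ∑ k ∈ H,
      (if k ≠ h' ∧ (ℓ : ℤ) ∣ a + ((k : ℤ) - h') * p' then (1 : ℝ) else 0)) ≤
      1 + L * (log y * (L * (y / ζ + 1))) := by
    intro h' hh'
    rw [Finset.sum_add_distrib]
    refine add_le_add ?_ ?_
    · rw [Finset.sum_ite_eq' PP p fun _ => (1 : ℝ)]
      split_ifs <;> norm_num
    · rw [Finset.sum_comm]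
      refine (Finset.sum_le_card_nsmul _ _ (log y * (L * (y / ζ + 1))) fun b hb => ?_).trans ?_
      · rw [Finset.sum_comm]
        refine (Finset.sum_le_card_nsmul _ _ (L * (y / ζ + 1)) fun ℓ hℓ => ?_).trans ?_
        · rw [Finset.sum_comm]
          refine (Finset.sum_le_card_nsmul _ _ (y / ζ + 1)
            fun k hk => cls h' hh' b hb ℓ hℓ k hk).trans ?_
          rw [nsmul_eq_mul]
          exact mul_le_mul_of_nonneg_right hH hq
        · rw [nsmul_eq_mul]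
          exact mul_le_mul_of_nonneg_right (hTc b hb) (by positivity)
      · rw [nsmul_eq_mul]
        exact mul_le_mul_of_nonneg_right hecR (by positivity)
  calc ∑ p' ∈ PP, ∑ h' ∈ H,
        (if Bad LL κ e (edge E H p' (a - (h' : ℤ) * p')) p p' then (1 : ℝ) else 0)
      ≤ ∑ p' ∈ PP, ∑ h' ∈ H, ((if p' = p then (1 : ℝ) else 0) + ∑ b ∈ e, ∑ ℓ ∈ T b, ∑ k ∈ H,
        (if k ≠ h' ∧ (ℓ : ℤ) ∣ a + ((k : ℤ) - h') * p' then (1 : ℝ) else 0)) :=
        Finset.sum_le_sum fun p' hp' => Finset.sum_le_sum fun h' hh' => step p' hp' h' hh'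
    _ ≤ H.card • (1 + L * (log y * (L * (y / ζ + 1)))) := by
        rw [Finset.sum_comm]
        exact Finset.sum_le_card_nsmul _ _ _ inner
    _ ≤ L * (1 + L * (log y * (L * (y / ζ + 1)))) := by
        rw [nsmul_eq_mul]
        exact mul_le_mul_of_nonneg_right hH (by positivity)
    _ = L + L ^ 3 * (log y * (y / ζ + 1)) := by ring
    _ ≤ L ^ 3 + L ^ 3 * (log y * ((2 * y + 1) / ζ + 1)) := by
        refine add_le_add (le_self_pow₀ hL (by norm_num)) ?_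
        refine mul_le_mul_of_nonneg_left (mul_le_mul_of_nonneg_left ?_ hlog) (by positivity)
        have : (y : ℝ) / ζ ≤ (2 * y + 1) / ζ := div_le_div_of_nonneg_right (by linarith) hζ.le
        linarith
    _ = L ^ 3 * (1 + log y * ((2 * y + 1) / ζ + 1)) := by ring

end H2

open H2 in
theorem stmtH2 (h1 : StmtB1) (h2 : StmtB2) : StmtH2 := by
  classical
  intro LL κ κ₁ w L E y H PP Hm W Wm ζ Λ₀ d₀ η F a ha
  have h0 := (h1 LL κ κ₁ w L F.model).1
  have hpos : ∀ e ⊆ E, e.card ≤ L → 0 < Pb LL κ e := by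
    intro e he hc
    refine lt_of_le_of_ne (pb_nonneg h0 e) fun h => ?_
    have := F.hΛ e he hc
    rw [← h] at this
    linarith
  have ha1 : ({a} : Finset ℤ) ⊆ E := Finset.singleton_subset_iff.2 ha
  have hac : ({a} : Finset ℤ).card ≤ L := by
    rw [Finset.card_singleton]
    exact F.model.L1
  have hA : 0 < Pb LL κ {a} := hpos _ ha1 hac
  have hΛ : 0 < Λ₀ := by
    have := F.hΛ _ ha1 hac
    by_contra h
    have : Λ₀ * Pb LL κ {a} ≤ 0 := mul_nonpos_of_nonpos_of_nonneg (not_lt.1 h) hA.le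
    linarith
  have hWm : 0 ≤ Wm := (F.hW 0 0).1.trans (F.hW 0 0).2
  have hcard : ∀ p n, (edge E H p n).card ≤ L := fun p n => (edge_card E H p n).trans F.hH
  set β : ℝ := 4 * L ^ 2 * log y / (w * κ₁ ^ 2) with hβ
  set N : ℝ := L ^ 3 * (1 + log y * ((2 * y + 1) / ζ + 1)) with hN
  set D : ℝ := ∑ p ∈ PP, ∑ h ∈ H, W p (a - (h : ℤ) * p) with hD
  have hx : 0 ≤ exp β / Pb LL κ {a} := by positivity
  have ratio : ∀ p ∈ PP, ∀ h ∈ H, ∀ p' ∈ PP, ∀ h' ∈ H,
      Pb LL κ (edge E H p (a - (h : ℤ) * p) ∪ edge E H p' (a - (h' : ℤ) * p')) /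
        (Pb LL κ (edge E H p (a - (h : ℤ) * p)) * Pb LL κ (edge E H p' (a - (h' : ℤ) * p'))) ≤
      exp β / Pb LL κ {a} + Λ₀ * (if Bad LL κ (edge E H p (a - (h : ℤ) * p))
        (edge E H p' (a - (h' : ℤ) * p')) p p' then (1 : ℝ) else 0) := by
    intro p hp h hh p' hp' h' hh'
    have P1 := hpos _ (edge_sub E H p (a - (h : ℤ) * p)) (hcard _ _)
    have P2 := hpos _ (edge_sub E H p' (a - (h' : ℤ) * p')) (hcard _ _)
    by_cases hb : Bad LL κ (edge E H p (a - (h : ℤ) * p)) (edge E H p' (a - (h' : ℤ) * p')) p p'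
    · rw [if_pos hb, mul_one]
      have q1 := pb_anti h0 (Finset.subset_union_left (s₁ := edge E H p (a - (h : ℤ) * p))
        (s₂ := edge E H p' (a - (h' : ℤ) * p')))
      have q2 := F.hΛ _ (edge_sub E H p' (a - (h' : ℤ) * p')) (hcard _ _)
      have : Pb LL κ (edge E H p (a - (h : ℤ) * p) ∪ edge E H p' (a - (h' : ℤ) * p')) /
          (Pb LL κ (edge E H p (a - (h : ℤ) * p)) * Pb LL κ (edge E H p' (a - (h' : ℤ) * p'))) ≤
          Λ₀ := by
        rw [div_le_iff₀ (mul_pos P1 P2)]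
        nlinarith [mul_le_mul_of_nonneg_left q2 P1.le]
      linarith
    · rw [if_neg hb, mul_zero, add_zero]
      have hne : p ≠ p' := fun h => hb (Or.inl h.symm)
      have q := h2 LL κ κ₁ w L F.model y _ _ ((edge_sub E H p (a - (h : ℤ) * p)).trans F.hE)
        ((edge_sub E H p' (a - (h' : ℤ) * p')).trans F.hE) (hcard _ _) (hcard _ _)
        (fun ℓ hℓ hκ b hb1 b' hb2 hd => hb (Or.inr ⟨ℓ, hℓ, hκ, b, hb1, b', hb2, hd⟩))
      rw [inter_eq F.hHm ha (F.hP p hp).1 (F.hP p' hp').1 hne (F.hP p hp).2.1 hh hh'] at q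
      rw [div_le_div_iff₀ (mul_pos P1 P2) hA]
      linarith
  have row : ∀ p ∈ PP, ∀ h ∈ H, ∑ p' ∈ PP, ∑ h' ∈ H,
      W p (a - (h : ℤ) * p) * W p' (a - (h' : ℤ) * p') *
        (Pb LL κ (edge E H p (a - (h : ℤ) * p) ∪ edge E H p' (a - (h' : ℤ) * p')) /
          (Pb LL κ (edge E H p (a - (h : ℤ) * p)) * Pb LL κ (edge E H p' (a - (h' : ℤ) * p')))) ≤
      W p (a - (h : ℤ) * p) * (exp β / Pb LL κ {a} * D + Λ₀ * Wm * N) := by
    intro p hp h hh
    have hb := bad_count F ha p _ (edge_sub E H p (a - (h : ℤ) * p)) (hcard _ _) (self_mem ha p hh)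
    have hW0 := (F.hW p (a - (h : ℤ) * p)).1
    calc _ ≤ ∑ p' ∈ PP, ∑ h' ∈ H, W p (a - (h : ℤ) * p) *
            (exp β / Pb LL κ {a} * W p' (a - (h' : ℤ) * p') + Λ₀ * Wm *
              (if Bad LL κ (edge E H p (a - (h : ℤ) * p))
                (edge E H p' (a - (h' : ℤ) * p')) p p' then (1 : ℝ) else 0)) := by
          refine Finset.sum_le_sum fun p' hp' => Finset.sum_le_sum fun h' hh' => ?_
          rw [mul_assoc]
          refine mul_le_mul_of_nonneg_left ?_ hW0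
          have r := mul_le_mul_of_nonneg_left (ratio p hp h hh p' hp' h' hh')
            (F.hW p' (a - (h' : ℤ) * p')).1
          have hi : (0 : ℝ) ≤ Λ₀ * (if Bad LL κ (edge E H p (a - (h : ℤ) * p))
              (edge E H p' (a - (h' : ℤ) * p')) p p' then (1 : ℝ) else 0) := by
            split_ifs
            · positivity
            · simp
          have r2 := mul_le_mul_of_nonneg_right (F.hW p' (a - (h' : ℤ) * p')).2 hi
          nlinarith
      _ = W p (a - (h : ℤ) * p) * (exp β / Pb LL κ {a} * D + Λ₀ * Wm * ∑ p' ∈ PP, ∑ h' ∈ H,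
              (if Bad LL κ (edge E H p (a - (h : ℤ) * p))
                (edge E H p' (a - (h' : ℤ) * p')) p p' then (1 : ℝ) else 0)) := by
          simp only [hD, Finset.mul_sum, ← Finset.sum_add_distrib]
      _ ≤ _ := by
          refine mul_le_mul_of_nonneg_left (add_le_add le_rfl ?_) hW0
          exact mul_le_mul_of_nonneg_left hb (by positivity)
  have hDA : Pb LL κ {a} ≤ D := by
    have := F.hdeg a ha
    have h4 := F.hd
    nlinarith
  have hD0 : 0 < D := hA.trans_le hDA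
  have hN0 : 0 ≤ N := by
    have := bad_count F ha 0 {a} ha1 hac (Finset.mem_singleton_self a)
    refine le_trans ?_ this
    refine Finset.sum_nonneg fun p' _ => Finset.sum_nonneg fun h' _ => ?_
    split_ifs <;> norm_num
  have hη : exp β + Λ₀ * Wm * N ≤ 1 + η := by
    have := F.hη
    rw [hN]
    linarith
  have hDD : D ≤ D ^ 2 / Pb LL κ {a} := by
    rw [le_div_iff₀ hA]
    nlinarith
  calc _ ≤ ∑ p ∈ PP, ∑ h ∈ H, W p (a - (h : ℤ) * p) * (exp β / Pb LL κ {a} * D + Λ₀ * Wm * N) :=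
        Finset.sum_le_sum fun p hp => Finset.sum_le_sum fun h hh => row p hp h hh
    _ = D * (exp β / Pb LL κ {a} * D + Λ₀ * Wm * N) := by
        simp only [hD, Finset.sum_mul]
    _ = exp β * (D ^ 2 / Pb LL κ {a}) + Λ₀ * Wm * N * D := by ring
    _ ≤ exp β * (D ^ 2 / Pb LL κ {a}) + Λ₀ * Wm * N * (D ^ 2 / Pb LL κ {a}) :=
        add_le_add le_rfl (mul_le_mul_of_nonneg_left hDD (by positivity))
    _ = (exp β + Λ₀ * Wm * N) * (D ^ 2 / Pb LL κ {a}) := by ring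
    _ ≤ (1 + η) * (D ^ 2 / Pb LL κ {a}) := mul_le_mul_of_nonneg_right hη (by positivity)
    _ = (1 + η) * D ^ 2 / Pb LL κ {a} := by ring

end Vale.Agent.N013L
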