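import Vale.Agent.N013L.Def2
import Vale.Agent.N013L.H1
import Vale.Agent.N013L.H2

/-! Block H12b: the second moment of the degree of a point. -/

namespace Vale.Agent.N013L

open Finset Real

open H1 in
theorem stmtH1b (h1 : StmtB1) (h2 : StmtB2) : StmtH1b := by
  intro LL κ κ₁ w L E y H PP Hm W Wm ζ Λ₀ d₀ η F p hp
  obtain ⟨hw0, hw1, -, -, -⟩ := h1 LL κ κ₁ w L F.model
  have hζ : 0 < ζ := lt_of_le_of_lt (Nat.cast_nonneg Hm) F.hζ
  have hLL : ∀ ℓ ∈ LL, ℓ.Prime ∧ 3 ≤ ℓ := fun ℓ h =>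
    ⟨F.model.prime ℓ h, by exact_mod_cast F.model.w3.trans (F.model.big ℓ h)⟩
  have hΛ0 : 0 ≤ Λ₀ := by
    have h3 := F.hΛ ∅ (Finset.empty_subset _) (by simp)
    rw [Pb_empty hw1] at h3
    linarith
  have hc : ∀ n, (edge E H p n).card ≤ L := fun n => (edge_card E H p n).trans F.hH
  have hs : ∀ n, edge E H p n ⊆ Icc (1 : ℤ) y := fun n => (edge_sub E H p n).trans F.hE
  have hΛ : ∀ n, 1 ≤ Λ₀ * Pb LL κ (edge E H p n) := fun n => F.hΛ _ (edge_sub E H p n) (hc n)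
  have hpos : ∀ n, 0 < Pb LL κ (edge E H p n) := by
    intro n
    rcases (Pb_nonneg hw0 (edge E H p n)).lt_or_eq with h | h
    · exact h
    · have h3 := hΛ n
      rw [← h, mul_zero] at h3
      linarith
  set β : ℝ := 4 * L ^ 2 * log y / (w * κ₁ ^ 2) with hβ
  have hβ0 : 1 ≤ exp β := by
    refine Real.one_le_exp ?_
    have h3 : 0 ≤ log (y : ℝ) := Real.log_natCast_nonneg y
    have h4 : 0 < w := by linarith [F.model.w3]
    positivity
  set B : ℝ := (L : ℝ) ^ 3 * (1 + log y * ((2 * y + 1) / ζ + 1)) with hB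
  have hB0 : 0 ≤ B := by
    have h3 : 0 ≤ log (y : ℝ) := Real.log_natCast_nonneg y
    positivity
  have hWm : 0 ≤ Wm := (F.hW p 0).1.trans (F.hW p 0).2
  set I : Finset ℤ := Icc (-(y : ℤ)) y with hI
  set m : ℝ := ∑ n ∈ I, W p n with hm
  have hm0 : 0 ≤ m := Finset.sum_nonneg fun n _ => (F.hW p n).1
  have hm1 : m ≤ 1 := F.hW1 p hp
  -- the bound for one pair
  have key : ∀ n, ∀ n' ∈ I, W p n' * (Pb LL κ (edge E H p n ∪ edge E H p n') /
      (Pb LL κ (edge E H p n) * Pb LL κ (edge E H p n'))) ≤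
      W p n' * exp β + if n' ∈ bad LL ζ y H p (edge E H p n) then Wm * Λ₀ else 0 := by
    intro n n' hn'
    have hW := F.hW p n'
    have hpp := mul_pos (hpos n) (hpos n')
    by_cases hb : n' ∈ bad LL ζ y H p (edge E H p n)
    · rw [if_pos hb]
      have h3 : Pb LL κ (edge E H p n ∪ edge E H p n') /
          (Pb LL κ (edge E H p n) * Pb LL κ (edge E H p n')) ≤ Λ₀ := by
        rw [div_le_iff₀ hpp]
        have h4 : Pb LL κ (edge E H p n ∪ edge E H p n') ≤ Pb LL κ (edge E H p n) :=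
          Pb_anti hw0 Finset.subset_union_left
        have h5 := mul_le_mul_of_nonneg_left (hΛ n') (hpos n).le
        nlinarith
      have h4 := mul_le_mul hW.2 h3 (div_nonneg (Pb_nonneg hw0 _) hpp.le) hWm
      have h5 : 0 ≤ W p n' * exp β := mul_nonneg hW.1 (exp_pos β).le
      linarith
    · rw [if_neg hb, add_zero]
      refine mul_le_mul_of_nonneg_left ?_ hW.1
      have hd : edge E H p n ∩ edge E H p n' = ∅ := by
        by_contra hne
        obtain ⟨b, hb'⟩ := Finset.nonempty_iff_ne_empty.2 hne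
        obtain ⟨hb1, hb2⟩ := Finset.mem_inter.1 hb'
        obtain ⟨k, hk, hk'⟩ := mem_edge hb2
        refine hb (Finset.mem_union_left _ (Finset.mem_image.2 ⟨(b, k), ?_, ?_⟩))
        · exact Finset.mem_product.2 ⟨hb1, hk⟩
        · simp only
          linarith
      have h3 := h2 LL κ κ₁ w L F.model y (edge E H p n) (edge E H p n') (hs n) (hs n') (hc n)
        (hc n') (by
          rintro ℓ hℓ hκ b hb1 b' hb2 ⟨hd1, hd2⟩
          have hb3 := (Finset.mem_sdiff.1 hb1).1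
          obtain ⟨k, hk, hk'⟩ := mem_edge (Finset.mem_sdiff.1 hb2).1
          refine hb (Finset.mem_union_right _ (Finset.mem_biUnion.2 ⟨b, hb3,
            Finset.mem_biUnion.2 ⟨ℓ, Finset.mem_filter.2 ⟨hℓ, hd1,
              F.hdiv ℓ hℓ hκ b (edge_sub E H p n hb3) hd1⟩,
            Finset.mem_biUnion.2 ⟨k, hk, Finset.mem_filter.2 ⟨hn', ?_⟩⟩⟩⟩))
          rw [hk']
          exact hd2)
      rw [hd, Pb_empty hw1, mul_one] at h3
      rw [div_le_iff₀ hpp, mul_comm]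
      exact h3
  have row : ∀ n, ∑ n' ∈ I, W p n * W p n' * (Pb LL κ (edge E H p n ∪ edge E H p n') /
      (Pb LL κ (edge E H p n) * Pb LL κ (edge E H p n'))) ≤
      W p n * (m * exp β + B * (Wm * Λ₀)) := by
    intro n
    simp_rw [mul_assoc (W p n)]
    rw [← Finset.mul_sum]
    refine mul_le_mul_of_nonneg_left ?_ (F.hW p n).1
    refine le_trans (Finset.sum_le_sum (key n)) ?_
    rw [Finset.sum_add_distrib, ← Finset.sum_mul, ← Finset.sum_filter, Finset.sum_const,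
      nsmul_eq_mul]
    refine add_le_add le_rfl (mul_le_mul_of_nonneg_right ?_ (mul_nonneg hWm hΛ0))
    refine le_trans ?_ (card_bad LL ζ y L H p (edge E H p n) hζ hLL (hs n) (hc n) F.hH F.model.L1)
    exact_mod_cast Finset.card_le_card fun n' hn' => (Finset.mem_filter.1 hn').2
  refine le_trans (Finset.sum_le_sum fun n _ => row n) ?_
  rw [← Finset.sum_mul, ← hm]
  have hη' := F.hη
  rw [← hβ, mul_assoc (Λ₀ * Wm) (L ^ 3 : ℝ), ← hB] at hη'
  have hη : exp β - 1 + Λ₀ * Wm * B ≤ η := by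
    have hd := F.hd
    have h6 : Λ₀ * Wm * B ≤ Λ₀ * Wm * B * (1 + 1 / d₀) :=
      le_mul_of_one_le_right (by positivity) (le_add_of_nonneg_right (by positivity))
    linarith
  have h3 : 0 ≤ B * (Wm * Λ₀) := mul_nonneg hB0 (mul_nonneg hWm hΛ0)
  have h4 : m * (B * (Wm * Λ₀)) ≤ B * (Wm * Λ₀) := mul_le_of_le_one_left h3 hm1
  have h5 : m ^ 2 * (exp β - 1) ≤ exp β - 1 :=
    mul_le_of_le_one_left (by linarith) (pow_le_one₀ hm0 hm1)
  nlinarith

namespace H2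

open Classical in
lemma bad_count2 {LL : Finset ℕ} {κ : ℕ → ℝ} {κ₁ w : ℝ} {L : ℕ} {E : Finset ℤ} {y : ℕ}
    {H PP : Finset ℕ} {Hm : ℕ} {W : ℕ → ℤ → ℝ} {Wm ζ Λ₀ d₀ η : ℝ}
    (F : Fam2 LL κ κ₁ w L E y H PP Hm W Wm ζ Λ₀ d₀ η) {a : ℤ} (ha : a ∈ E) (p : ℕ)
    (e : Finset ℤ) (he : e ⊆ E) (hec : e.card ≤ L) (hae : a ∈ e) :
    ∑ p' ∈ PP, ∑ h' ∈ H,
      (if Bad LL κ e (edge E H p' (a - (h' : ℤ) * p')) p p' then (1 : ℝ) else 0) ≤
      L ^ 3 * (1 + log y * ((2 * y + 1) / ζ + 1)) := by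
  have hζ : 0 < ζ := lt_of_le_of_lt (Nat.cast_nonneg _) F.hζ
  have hy1 : (1 : ℤ) ≤ y := by
    have := Finset.mem_Icc.1 (F.hE ha)
    omega
  have hy : (1 : ℝ) ≤ y := by exact_mod_cast hy1
  have hlog : 0 ≤ log (y : ℝ) := log_nonneg hy
  have hL : (1 : ℝ) ≤ L := by exact_mod_cast F.model.L1
  have hH : (H.card : ℝ) ≤ L := by exact_mod_cast F.hH
  have hecR : (e.card : ℝ) ≤ L := by exact_mod_cast hec
  set T : ℤ → Finset ℕ := fun b => LL.filter fun ℓ => κ ℓ < 1 ∧ (ℓ : ℤ) ∣ b with hT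
  have step : ∀ p' ∈ PP, ∀ h' ∈ H,
      (if Bad LL κ e (edge E H p' (a - (h' : ℤ) * p')) p p' then (1 : ℝ) else 0) ≤
      (if p' = p then (1 : ℝ) else 0) + ∑ b ∈ e, ∑ ℓ ∈ T b, ∑ k ∈ H,
        (if k ≠ h' ∧ (ℓ : ℤ) ∣ a + ((k : ℤ) - h') * p' then (1 : ℝ) else 0) := by
    intro p' _ h' _
    have n1 : ∀ (b : ℤ) (ℓ k : ℕ),
        0 ≤ (if k ≠ h' ∧ (ℓ : ℤ) ∣ a + ((k : ℤ) - h') * p' then (1 : ℝ) else 0) := by
      intro b ℓ k
      split_ifs <;> norm_num
    have n2 : ∀ (b : ℤ) (ℓ : ℕ), 0 ≤ ∑ k ∈ H,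
        (if k ≠ h' ∧ (ℓ : ℤ) ∣ a + ((k : ℤ) - h') * p' then (1 : ℝ) else 0) :=
      fun b ℓ => Finset.sum_nonneg fun k _ => n1 b ℓ k
    have n3 : ∀ b : ℤ, 0 ≤ ∑ ℓ ∈ T b, ∑ k ∈ H,
        (if k ≠ h' ∧ (ℓ : ℤ) ∣ a + ((k : ℤ) - h') * p' then (1 : ℝ) else 0) :=
      fun b => Finset.sum_nonneg fun ℓ _ => n2 b ℓ
    have n4 : 0 ≤ ∑ b ∈ e, ∑ ℓ ∈ T b, ∑ k ∈ H,
        (if k ≠ h' ∧ (ℓ : ℤ) ∣ a + ((k : ℤ) - h') * p' then (1 : ℝ) else 0) :=
      Finset.sum_nonneg fun b _ => n3 b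
    have n5 : (0 : ℝ) ≤ if p' = p then (1 : ℝ) else 0 := by split_ifs <;> norm_num
    by_cases hb : Bad LL κ e (edge E H p' (a - (h' : ℤ) * p')) p p'
    · rw [if_pos hb]
      rcases hb with hb | ⟨ℓ, hℓ, hκ, b, hb, b', hb', d1, d2⟩
      · rw [if_pos hb]
        linarith
      · obtain ⟨hb1, -⟩ := Finset.mem_sdiff.1 hb
        obtain ⟨hb2, hb3⟩ := Finset.mem_sdiff.1 hb'
        obtain ⟨⟨k, hk, ek⟩, -⟩ := mem_edge.1 hb2
        have hkh : k ≠ h' := by
          rintro rfl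
          apply hb3
          have : b' = a := by rw [← ek]; ring
          rwa [this]
        have hdv : (ℓ : ℤ) ∣ a + ((k : ℤ) - h') * p' := by
          have : a + ((k : ℤ) - h') * p' = b' := by rw [← ek]; ring
          rwa [this]
        have hℓT : ℓ ∈ T b := Finset.mem_filter.2 ⟨hℓ, hκ, d1⟩
        have s1 := Finset.single_le_sum (f := fun k : ℕ =>
          (if k ≠ h' ∧ (ℓ : ℤ) ∣ a + ((k : ℤ) - h') * p' then (1 : ℝ) else 0))
          (fun k _ => n1 b ℓ k) hk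
        have s2 := Finset.single_le_sum (f := fun ℓ : ℕ => ∑ k ∈ H,
          (if k ≠ h' ∧ (ℓ : ℤ) ∣ a + ((k : ℤ) - h') * p' then (1 : ℝ) else 0))
          (fun ℓ _ => n2 b ℓ) hℓT
        have s3 := Finset.single_le_sum (f := fun b : ℤ => ∑ ℓ ∈ T b, ∑ k ∈ H,
          (if k ≠ h' ∧ (ℓ : ℤ) ∣ a + ((k : ℤ) - h') * p' then (1 : ℝ) else 0))
          (fun b _ => n3 b) hb1
        simp only [if_pos (And.intro hkh hdv)] at s1
        linarith
    · rw [if_neg hb]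
      linarith
  have cls : ∀ h' ∈ H, ∀ b ∈ e, ∀ ℓ ∈ T b, ∀ k ∈ H, ∑ p' ∈ PP,
      (if k ≠ h' ∧ (ℓ : ℤ) ∣ a + ((k : ℤ) - h') * p' then (1 : ℝ) else 0) ≤ y / ζ + 1 := by
    intro h' hh' b hb ℓ hℓ k hk
    obtain ⟨hℓ1, hℓ2, hℓ3⟩ := Finset.mem_filter.1 hℓ
    have hz : ζ ≤ ℓ := F.hdiv ℓ hℓ1 hℓ2 b (he hb) hℓ3
    have hyz : (y : ℝ) / ℓ ≤ y / ζ := div_le_div_of_nonneg_left (by linarith) hζ hz
    by_cases hkh : k = h'
    · have : ∀ p' ∈ PP,
          (if k ≠ h' ∧ (ℓ : ℤ) ∣ a + ((k : ℤ) - h') * p' then (1 : ℝ) else 0) = 0 :=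
        fun p' _ => if_neg fun h => h.1 hkh
      rw [Finset.sum_congr rfl this, Finset.sum_const_zero]
      positivity
    · have hlt : Hm < ℓ := by
        have := lt_of_lt_of_le F.hζ hz
        exact_mod_cast this
      have hc := class_count (F.model.prime ℓ hℓ1) a ((k : ℤ) - h')
        (not_dvd hlt (F.hHm k hk) (F.hHm h' hh') hkh) y PP (fun q hq => (F.hP q hq).2.2.1)
      have : ∑ p' ∈ PP, (if k ≠ h' ∧ (ℓ : ℤ) ∣ a + ((k : ℤ) - h') * p' then (1 : ℝ) else 0) =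
          ((PP.filter fun q : ℕ => (ℓ : ℤ) ∣ a + ((k : ℤ) - h') * q).card : ℝ) := by
        rw [Finset.card_filter]
        push_cast
        refine Finset.sum_congr rfl fun q _ => ?_
        simp only [ne_eq, hkh, not_false_eq_true, true_and]
      rw [this]
      linarith
  have hTc : ∀ b ∈ e, ((T b).card : ℝ) ≤ log y := by
    intro b hb
    have hb' := Finset.mem_Icc.1 (F.hE (he hb))
    refine div_count (T b) (fun l hl => ?_) b y hb'.1 hb'.2
      (fun l hl => (Finset.mem_filter.1 hl).2.2)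
    have h1 := (Finset.mem_filter.1 hl).1
    refine ⟨F.model.prime l h1, ?_⟩
    have := F.model.w3.trans (F.model.big l h1)
    exact_mod_cast this
  have hq : (0 : ℝ) ≤ y / ζ + 1 := by positivity
  have inner : ∀ h' ∈ H, ∑ p' ∈ PP, ((if p' = p then (1 : ℝ) else 0) + ∑ b ∈ e, ∑ ℓ ∈ T b, ∑ k ∈ H,
      (if k ≠ h' ∧ (ℓ : ℤ) ∣ a + ((k : ℤ) - h') * p' then (1 : ℝ) else 0)) ≤
      1 + L * (log y * (L * (y / ζ + 1))) := by
    intro h' hh'
    rw [Finset.sum_add_distrib]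
    refine add_le_add ?_ ?_
    · rw [Finset.sum_ite_eq' PP p fun _ => (1 : ℝ)]
      split_ifs <;> norm_num
    · rw [Finset.sum_comm]
      refine (Finset.sum_le_card_nsmul _ _ (log y * (L * (y / ζ + 1))) fun b hb => ?_).trans ?_
      · rw [Finset.sum_comm]
        refine (Finset.sum_le_card_nsmul _ _ (L * (y / ζ + 1)) fun ℓ hℓ => ?_).trans ?_
        · rw [Finset.sum_comm]
          refine (Finset.sum_le_card_nsmul _ _ (y / ζ + 1)
            fun k hk => cls h' hh' b hb ℓ hℓ k hk).trans ?_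
          rw [nsmul_eq_mul]
          exact mul_le_mul_of_nonneg_right hH hq
        · rw [nsmul_eq_mul]
          exact mul_le_mul_of_nonneg_right (hTc b hb) (by positivity)
      · rw [nsmul_eq_mul]
        exact mul_le_mul_of_nonneg_right hecR (by positivity)
  calc ∑ p' ∈ PP, ∑ h' ∈ H,
        (if Bad LL κ e (edge E H p' (a - (h' : ℤ) * p')) p p' then (1 : ℝ) else 0)
      ≤ ∑ p' ∈ PP, ∑ h' ∈ H, ((if p' = p then (1 : ℝ) else 0) + ∑ b ∈ e, ∑ ℓ ∈ T b, ∑ k ∈ H,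
        (if k ≠ h' ∧ (ℓ : ℤ) ∣ a + ((k : ℤ) - h') * p' then (1 : ℝ) else 0)) :=
        Finset.sum_le_sum fun p' hp' => Finset.sum_le_sum fun h' hh' => step p' hp' h' hh'
    _ ≤ H.card • (1 + L * (log y * (L * (y / ζ + 1)))) := by
        rw [Finset.sum_comm]
        exact Finset.sum_le_card_nsmul _ _ _ inner
    _ ≤ L * (1 + L * (log y * (L * (y / ζ + 1)))) := by
        rw [nsmul_eq_mul]
        exact mul_le_mul_of_nonneg_right hH (by positivity)
    _ = L + L ^ 3 * (log y * (y / ζ + 1)) := by ring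
    _ ≤ L ^ 3 + L ^ 3 * (log y * ((2 * y + 1) / ζ + 1)) := by
        refine add_le_add (le_self_pow₀ hL (by norm_num)) ?_
        refine mul_le_mul_of_nonneg_left (mul_le_mul_of_nonneg_left ?_ hlog) (by positivity)
        have : (y : ℝ) / ζ ≤ (2 * y + 1) / ζ := div_le_div_of_nonneg_right (by linarith) hζ.le
        linarith
    _ = L ^ 3 * (1 + log y * ((2 * y + 1) / ζ + 1)) := by ring

end H2

open H2 in
theorem stmtH2b (h1 : StmtB1) (h2 : StmtB2) : StmtH2b := by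
  classical
  intro LL κ κ₁ w L E y H PP Hm W Wm ζ Λ₀ d₀ η F a ha
  have h0 := (h1 LL κ κ₁ w L F.model).1
  have hpos : ∀ e ⊆ E, e.card ≤ L → 0 < Pb LL κ e := by
    intro e he hc
    refine lt_of_le_of_ne (pb_nonneg h0 e) fun h => ?_
    have := F.hΛ e he hc
    rw [← h] at this
    linarith
  have ha1 : ({a} : Finset ℤ) ⊆ E := Finset.singleton_subset_iff.2 ha
  have hac : ({a} : Finset ℤ).card ≤ L := by
    rw [Finset.card_singleton]
    exact F.model.L1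
  have hA : 0 < Pb LL κ {a} := hpos _ ha1 hac
  have hΛ : 0 < Λ₀ := by
    have := F.hΛ _ ha1 hac
    by_contra h
    have : Λ₀ * Pb LL κ {a} ≤ 0 := mul_nonpos_of_nonpos_of_nonneg (not_lt.1 h) hA.le
    linarith
  have hWm : 0 ≤ Wm := (F.hW 0 0).1.trans (F.hW 0 0).2
  have hcard : ∀ p n, (edge E H p n).card ≤ L := fun p n => (edge_card E H p n).trans F.hH
  set β : ℝ := 4 * L ^ 2 * log y / (w * κ₁ ^ 2) with hβ
  set N : ℝ := L ^ 3 * (1 + log y * ((2 * y + 1) / ζ + 1)) with hN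
  set D : ℝ := ∑ p ∈ PP, ∑ h ∈ H, W p (a - (h : ℤ) * p) with hD
  have hx : 0 ≤ exp β / Pb LL κ {a} := by positivity
  have ratio : ∀ p ∈ PP, ∀ h ∈ H, ∀ p' ∈ PP, ∀ h' ∈ H,
      Pb LL κ (edge E H p (a - (h : ℤ) * p) ∪ edge E H p' (a - (h' : ℤ) * p')) /
        (Pb LL κ (edge E H p (a - (h : ℤ) * p)) * Pb LL κ (edge E H p' (a - (h' : ℤ) * p'))) ≤
      exp β / Pb LL κ {a} + Λ₀ * (if Bad LL κ (edge E H p (a - (h : ℤ) * p))
        (edge E H p' (a - (h' : ℤ) * p')) p p' then (1 : ℝ) else 0) := by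
    intro p hp h hh p' hp' h' hh'
    have P1 := hpos _ (edge_sub E H p (a - (h : ℤ) * p)) (hcard _ _)
    have P2 := hpos _ (edge_sub E H p' (a - (h' : ℤ) * p')) (hcard _ _)
    by_cases hb : Bad LL κ (edge E H p (a - (h : ℤ) * p)) (edge E H p' (a - (h' : ℤ) * p')) p p'
    · rw [if_pos hb, mul_one]
      have q1 := pb_anti h0 (Finset.subset_union_left (s₁ := edge E H p (a - (h : ℤ) * p))
        (s₂ := edge E H p' (a - (h' : ℤ) * p')))
      have q2 := F.hΛ _ (edge_sub E H p' (a - (h' : ℤ) * p')) (hcard _ _)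
      have : Pb LL κ (edge E H p (a - (h : ℤ) * p) ∪ edge E H p' (a - (h' : ℤ) * p')) /
          (Pb LL κ (edge E H p (a - (h : ℤ) * p)) * Pb LL κ (edge E H p' (a - (h' : ℤ) * p'))) ≤
          Λ₀ := by
        rw [div_le_iff₀ (mul_pos P1 P2)]
        nlinarith [mul_le_mul_of_nonneg_left q2 P1.le]
      linarith
    · rw [if_neg hb, mul_zero, add_zero]
      have hne : p ≠ p' := fun h => hb (Or.inl h.symm)
      have q := h2 LL κ κ₁ w L F.model y _ _ ((edge_sub E H p (a - (h : ℤ) * p)).trans F.hE)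
        ((edge_sub E H p' (a - (h' : ℤ) * p')).trans F.hE) (hcard _ _) (hcard _ _)
        (fun ℓ hℓ hκ b hb1 b' hb2 hd => hb (Or.inr ⟨ℓ, hℓ, hκ, b, hb1, b', hb2, hd⟩))
      rw [inter_eq F.hHm ha (F.hP p hp).1 (F.hP p' hp').1 hne (F.hP p hp).2.1 hh hh'] at q
      rw [div_le_div_iff₀ (mul_pos P1 P2) hA]
      linarith
  have row : ∀ p ∈ PP, ∀ h ∈ H, ∑ p' ∈ PP, ∑ h' ∈ H,
      W p (a - (h : ℤ) * p) * W p' (a - (h' : ℤ) * p') *
        (Pb LL κ (edge E H p (a - (h : ℤ) * p) ∪ edge E H p' (a - (h' : ℤ) * p')) /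
          (Pb LL κ (edge E H p (a - (h : ℤ) * p)) * Pb LL κ (edge E H p' (a - (h' : ℤ) * p')))) ≤
      W p (a - (h : ℤ) * p) * (exp β / Pb LL κ {a} * D + Λ₀ * Wm * N) := by
    intro p hp h hh
    have hb := bad_count2 F ha p _ (edge_sub E H p (a - (h : ℤ) * p)) (hcard _ _) (self_mem ha p hh)
    have hW0 := (F.hW p (a - (h : ℤ) * p)).1
    calc _ ≤ ∑ p' ∈ PP, ∑ h' ∈ H, W p (a - (h : ℤ) * p) *
            (exp β / Pb LL κ {a} * W p' (a - (h' : ℤ) * p') + Λ₀ * Wm *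
              (if Bad LL κ (edge E H p (a - (h : ℤ) * p))
                (edge E H p' (a - (h' : ℤ) * p')) p p' then (1 : ℝ) else 0)) := by
          refine Finset.sum_le_sum fun p' hp' => Finset.sum_le_sum fun h' hh' => ?_
          rw [mul_assoc]
          refine mul_le_mul_of_nonneg_left ?_ hW0
          have r := mul_le_mul_of_nonneg_left (ratio p hp h hh p' hp' h' hh')
            (F.hW p' (a - (h' : ℤ) * p')).1
          have hi : (0 : ℝ) ≤ Λ₀ * (if Bad LL κ (edge E H p (a - (h : ℤ) * p))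
              (edge E H p' (a - (h' : ℤ) * p')) p p' then (1 : ℝ) else 0) := by
            split_ifs
            · positivity
            · simp
          have r2 := mul_le_mul_of_nonneg_right (F.hW p' (a - (h' : ℤ) * p')).2 hi
          nlinarith
      _ = W p (a - (h : ℤ) * p) * (exp β / Pb LL κ {a} * D + Λ₀ * Wm * ∑ p' ∈ PP, ∑ h' ∈ H,
              (if Bad LL κ (edge E H p (a - (h : ℤ) * p))
                (edge E H p' (a - (h' : ℤ) * p')) p p' then (1 : ℝ) else 0)) := by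
          simp only [hD, Finset.mul_sum, ← Finset.sum_add_distrib]
      _ ≤ _ := by
          refine mul_le_mul_of_nonneg_left (add_le_add le_rfl ?_) hW0
          exact mul_le_mul_of_nonneg_left hb (by positivity)
  have hd := F.hd
  have hDA : d₀ * Pb LL κ {a} ≤ D := F.hdeg a ha
  have hD0 : 0 < D := (mul_pos hd hA).trans_le hDA
  have hN0 : 0 ≤ N := by
    have := bad_count2 F ha 0 {a} ha1 hac (Finset.mem_singleton_self a)
    refine le_trans ?_ this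
    refine Finset.sum_nonneg fun p' _ => Finset.sum_nonneg fun h' _ => ?_
    split_ifs <;> norm_num
  have hη : exp β + Λ₀ * Wm * N * (1 + 1 / d₀) ≤ 1 + η := by
    have := F.hη
    rw [hN]
    linarith
  have hDD : D ≤ (1 + 1 / d₀) * (D ^ 2 / Pb LL κ {a}) := by
    have h5 : D ≤ 1 / d₀ * (D ^ 2 / Pb LL κ {a}) := by
      rw [div_mul_div_comm, one_mul, le_div_iff₀ (mul_pos hd hA), sq]
      exact mul_le_mul_of_nonneg_left hDA hD0.le
    have h6 : 0 ≤ D ^ 2 / Pb LL κ {a} := by positivity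
    linarith
  calc _ ≤ ∑ p ∈ PP, ∑ h ∈ H, W p (a - (h : ℤ) * p) * (exp β / Pb LL κ {a} * D + Λ₀ * Wm * N) :=
        Finset.sum_le_sum fun p hp => Finset.sum_le_sum fun h hh => row p hp h hh
    _ = D * (exp β / Pb LL κ {a} * D + Λ₀ * Wm * N) := by
        simp only [hD, Finset.sum_mul]
    _ = exp β * (D ^ 2 / Pb LL κ {a}) + Λ₀ * Wm * N * D := by ring
    _ ≤ exp β * (D ^ 2 / Pb LL κ {a}) + Λ₀ * Wm * N * ((1 + 1 / d₀) * (D ^ 2 / Pb LL κ {a})) :=
        add_le_add le_rfl (mul_le_mul_of_nonneg_left hDD (by positivity))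
    _ = (exp β + Λ₀ * Wm * N * (1 + 1 / d₀)) * (D ^ 2 / Pb LL κ {a}) := by ring
    _ ≤ (1 + η) * (D ^ 2 / Pb LL κ {a}) := mul_le_mul_of_nonneg_right hη (by positivity)
    _ = (1 + η) * D ^ 2 / Pb LL κ {a} := by ring

end Vale.Agent.N013L
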