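import Vale.Agent.N013L.Def2
import Vale.Agent.N013L.K

/-! Second stage: from the covering theorem to Jacobsthal's function and to gaps between primes. -/

namespace Vale.Agent.N013L

open Real Filter Finset

namespace K

/-- the quantity of the covering theorem at `x = ⌊k log k / 200⌋` -/
lemma asyJ3 : ∀ᶠ v : ℝ in atTop, ∀ x : ℝ, v * log v / 200 - 1 ≤ x → x ≤ v * log v / 200 →
    v * log v ^ 2 / log (log (log v)) ≤ 1600 * (x * log x / log (log (log x))) := by
  filter_upwards [eventually_ge_atTop (1 : ℝ), tendsto_log_atTop.eventually_ge_atTop 400,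
    t1.eventually_ge_atTop 2, t2.eventually_ge_atTop 1] with v h0 h1 h2 h3 x hx1 hx2
  have hv : 0 < v := by linarith
  have hvl : 400 ≤ v * log v := by nlinarith
  have hx3 : v * log v / 400 ≤ x := by linarith
  have hx4 : v ≤ x := by nlinarith
  have hx0 : 0 < x := by linarith
  have hl : log v ≤ v := (log_le_sub_one_of_pos hv).trans (by linarith)
  have hx5 : x ≤ v ^ 2 := by nlinarith
  have a1 : log v ≤ log x := log_le_log hv hx4
  have b1 : log x ≤ 2 * log v := by
    have := log_le_log hx0 hx5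
    rw [log_pow] at this
    exact_mod_cast this
  have a2 : log (log v) ≤ log (log x) := log_le_log (by linarith) a1
  have b2 : log (log x) ≤ 2 * log (log v) := log_two_mul (by linarith) (by linarith) (by linarith) b1
  have a3 : log (log (log v)) ≤ log (log (log x)) := log_le_log (by linarith) a2
  have b3 : log (log (log x)) ≤ 2 * log (log (log v)) := log_two_mul (by linarith) h3 (by linarith) b2
  set s := log (log (log v))
  set t := log (log (log x))
  have hs : 0 < s := by linarith
  have ht : 0 < t := by linarith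
  have c1 : t ≤ 4 * s := by linarith
  have c2 : v * log v ^ 2 ≤ 400 * (x * log x) := by
    have : v * log v / 400 * log v ≤ x * log x := mul_le_mul hx3 a1 (by linarith) hx0.le
    nlinarith
  have c3 : 0 ≤ x * log x := by
    have : 0 ≤ log x := by linarith
    positivity
  rw [← mul_div_assoc, div_le_div_iff₀ (by positivity) (by positivity)]
  calc v * log v ^ 2 * t ≤ 400 * (x * log x) * (4 * s) :=
        mul_le_mul c2 c1 (by positivity) (by positivity)
    _ = 1600 * (x * log x) * s := by ring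

/-- the quantity of the covering theorem at `x = ⌊v / 100⌋` -/
lemma asyG3 : ∀ᶠ v : ℝ in atTop, ∀ x : ℝ, v / 100 - 1 ≤ x → x ≤ v / 100 →
    v * log v / log (log (log v)) ≤ 400 * (x * log x / log (log (log x))) := by
  obtain ⟨x₀, hx₀⟩ := eventually_atTop.1 ((tendsto_log_atTop.eventually_ge_atTop 1).and
    ((t1.eventually_ge_atTop 1).and (t2.eventually_ge_atTop 1)))
  filter_upwards [eventually_ge_atTop (40000 : ℝ), eventually_ge_atTop (200 * x₀)]
    with v h0 h1 x hx1 hx2
  have hv : 0 < v := by linarith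
  have hx3 : v / 200 ≤ x := by linarith
  have hx0 : 0 < x := by linarith
  obtain ⟨g1, g2, g3⟩ := hx₀ x (by linarith)
  have hx5 : v ≤ x ^ 2 := by nlinarith
  have b1 : log v ≤ 2 * log x := by
    have := log_le_log hv hx5
    rw [log_pow] at this
    exact_mod_cast this
  have a1 : log x ≤ log v := log_le_log hx0 (by linarith)
  have a2 : log (log x) ≤ log (log v) := log_le_log (by linarith) a1
  have a3 : log (log (log x)) ≤ log (log (log v)) := log_le_log (by linarith) a2
  set s := log (log (log v))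
  set t := log (log (log x))
  have ht : 0 < t := by linarith
  have hs : 0 < s := by linarith
  have c1 : t ≤ s := a3
  have c2 : v * log v ≤ 400 * (x * log x) := by
    have : v / 200 * (log v / 2) ≤ x * log x := mul_le_mul hx3 (by linarith) (by linarith) hx0.le
    nlinarith
  have c3 : 0 ≤ x * log x := by
    have : 0 ≤ log x := by linarith
    positivity
  rw [← mul_div_assoc, div_le_div_iff₀ (by positivity) (by positivity)]
  exact mul_le_mul c2 c1 (by positivity) (by positivity)

end K

open K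

theorem cover3 (h : Cover2) : Cover3 := by
  obtain ⟨c, hc, h⟩ := h
  have hn : Tendsto (fun x : ℕ => (x : ℝ)) atTop atTop := tendsto_natCast_atTop_atTop
  obtain ⟨x₀, hx₀⟩ := eventually_atTop.1 (h.and
    (((tendsto_log_atTop.comp hn).eventually_ge_atTop 1).and
    (((t1.comp hn).eventually_ge_atTop 1).and ((t2.comp hn).eventually_ge_atTop 1))))
  refine ⟨c / 4, by positivity, ?_⟩
  filter_upwards [eventually_ge_atTop 1, (tendsto_log_atTop.comp hn).eventually_ge_atTop 272,
    (tendsto_log_atTop.comp hn).eventually_ge_atTop (2 * x₀),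
    (t1.comp hn).eventually_ge_atTop 1, (t2.comp hn).eventually_ge_atTop 1] with z z1 z2 z3 z4 z5
  simp only [Function.comp] at z2 z3 z4 z5
  have hz : (0 : ℝ) < z := by exact_mod_cast z1
  set l := log (z : ℝ) with hl
  set J : ℕ := ⌈log (log l)⌉₊ with hJ
  have J1 : log (log l) ≤ J := Nat.le_ceil _
  have J2 : (J : ℝ) ≤ log (log l) + 1 := (Nat.ceil_lt_add_one (by linarith)).le
  set s := exp (l / 2) with hs
  have s0 : 0 < s := exp_pos _
  have s1 : s ^ 2 = z := by
    rw [hs, ← exp_nat_mul, show ((2 : ℕ) : ℝ) * (l / 2) = l by push_cast; ring, hl, exp_log hz]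
  have s2 : (l / 8) ^ 4 ≤ s := by
    have e : s = exp (l / 8) ^ 4 := by
      rw [hs, ← exp_nat_mul]
      congr 1
      push_cast
      ring
    rw [e]
    exact pow_le_pow_left₀ (by linarith) (by linarith [add_one_le_exp (l / 8)]) 4
  have s3 : l / 2 ≤ s := by linarith [add_one_le_exp (l / 2)]
  have T1 : (4 : ℝ) ^ J ≤ 9 * log l ^ 2 := by
    have e1 : exp 1 ≤ 3 := by linarith [exp_one_lt_d9]
    have e2 : (2 : ℝ) ≤ exp 1 := by linarith [add_one_le_exp (1 : ℝ)]
    have e3 : (2 : ℝ) ^ J ≤ 3 * log l := by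
      calc (2 : ℝ) ^ J ≤ exp 1 ^ J := pow_le_pow_left₀ (by norm_num) e2 J
        _ = exp J := by rw [← exp_nat_mul, mul_one]
        _ ≤ exp (log (log l) + 1) := exp_le_exp.2 J2
        _ = log l * exp 1 := by rw [exp_add, exp_log (by linarith)]
        _ ≤ 3 * log l := by nlinarith
    calc (4 : ℝ) ^ J = ((2 : ℝ) ^ J) ^ 2 := by
          rw [← pow_mul, mul_comm, pow_mul]
          norm_num
      _ ≤ (3 * log l) ^ 2 := pow_le_pow_left₀ (by positivity) e3 2
      _ = _ := by ring
  have T2 : (4 : ℝ) ^ J ≤ s / 2 := by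
    have e1 : log l ≤ l := (log_le_sub_one_of_pos (by linarith)).trans (by linarith)
    have e2 : log l ^ 2 ≤ l ^ 2 := pow_le_pow_left₀ (by linarith) e1 2
    have e3 : (272 : ℝ) ^ 2 ≤ l ^ 2 := pow_le_pow_left₀ (by norm_num) z2 2
    have e4 : 18 * l ^ 2 ≤ (l / 8) ^ 4 := by nlinarith [sq_nonneg l]
    linarith
  set x : ℕ := z / 4 ^ J with hx
  have X1 : 4 ^ J * x ≤ z := Nat.mul_div_le _ _
  have X2 : z < 4 ^ J * x + 4 ^ J := by
    have := Nat.lt_mul_div_succ z (show 0 < 4 ^ J by positivity)
    rwa [mul_add, mul_one] at this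
  have X2' : (z : ℝ) < 4 ^ J * x + 4 ^ J := by exact_mod_cast X2
  have X3 : (z : ℝ) / 2 ≤ 4 ^ J * x := by nlinarith
  have x0 : (0 : ℝ) ≤ x := Nat.cast_nonneg x
  have X4 : s ≤ x := by
    have e1 : (4 : ℝ) ^ J * x ≤ s / 2 * x := mul_le_mul_of_nonneg_right T2 x0
    have e2 : s * s ≤ s * x := by nlinarith
    exact le_of_mul_le_mul_left e2 s0
  have X5 : (x : ℝ) ≤ z := by exact_mod_cast Nat.div_le_self z (4 ^ J)
  have X6 : x₀ ≤ x := by
    have : (x₀ : ℝ) ≤ x := by linarith
    exact_mod_cast this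
  obtain ⟨hh, g1, g2, g3⟩ := hx₀ x X6
  simp only [Function.comp] at g1 g2 g3
  have a1 : log x ≤ l := log_le_log (by linarith) X5
  have a2 : log (log x) ≤ log l := log_le_log (by linarith) a1
  have a3 : log (log (log x)) ≤ log (log l) := log_le_log (by linarith) a2
  have b1 : l / 2 ≤ log x := by
    have := log_le_log s0 X4
    rwa [hs, log_exp] at this
  have b2 : log l ≤ 2 * log (log x) := log_two_mul (by linarith) g2 (by linarith) (by linarith)
  have b3 : log (log l) ≤ log (log (log x)) + 1 := by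
    have e1 := log_le_log (by linarith) b2
    rw [log_mul two_ne_zero (by linarith)] at e1
    linarith [log_two_lt_d9]
  obtain ⟨a, ha⟩ := hh J (4 ^ J * x) (a3.trans J1) (by unfold tt; linarith) rfl
  refine ⟨a, fun m h1 h2 => ?_⟩
  have key : c / 4 * z * l / log (log l) ≤ c * (4 ^ J * x : ℕ) * log x / log (tt x) := by
    unfold tt
    push_cast
    refine div_le_div₀ (by positivity) ?_ (by linarith) a3
    have e1 : (z : ℝ) / 2 * (l / 2) ≤ 4 ^ J * x * log x :=
      mul_le_mul X3 b1 (by linarith) (by positivity)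
    nlinarith
  obtain ⟨p, hp, hp1, hp2⟩ := ha m h1 (h2.trans key)
  exact ⟨p, hp, hp1.trans (Nat.mul_le_mul_left 64 X1), hp2⟩

theorem jac3 (h : Cover3) : Jac3 := by
  obtain ⟨c, hc, h⟩ := h
  refine ⟨c / 1600, by positivity, ?_⟩
  have ht : Tendsto (fun k : ℕ => ⌊(k : ℝ) * log k / 200⌋₊) atTop atTop := by
    refine tendsto_nat_floor_atTop.comp (Tendsto.atTop_div_const (by norm_num) ?_)
    exact Tendsto.atTop_mul_atTop₀ tendsto_natCast_atTop_atTop
      (tendsto_log_atTop.comp tendsto_natCast_atTop_atTop)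
  filter_upwards [ht.eventually h, tendsto_natCast_atTop_atTop.eventually asyJ3,
    tendsto_natCast_atTop_atTop.eventually pi_le] with k hk h1 h2
  obtain ⟨a, ha⟩ := hk
  set x : ℕ := ⌊(k : ℝ) * log k / 200⌋₊ with hx
  have hk0 : 0 ≤ (k : ℝ) * log k := mul_nonneg (Nat.cast_nonneg k) (log_natCast_nonneg k)
  have hx1 : (x : ℝ) ≤ (k : ℝ) * log k / 200 := Nat.floor_le (by positivity)
  have hx2 : (k : ℝ) * log k / 200 - 1 ≤ x := (Nat.sub_one_lt_floor _).le
  have h3 := h1 x hx2 hx1
  have h4 : Nat.primeCounting (64 * x) ≤ k := by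
    have := h2 (64 * x) (by push_cast; linarith)
    exact_mod_cast this
  obtain ⟨z, -, -, hz⟩ := crt' (64 * x) a
  refine le_iInf₂ fun m hm => ?_
  rw [← ENNReal.ofReal_natCast]
  refine ENNReal.ofReal_le_ofReal ?_
  by_contra hlt
  have hm1 : (m : ℝ) ≤ c * x * log x / log (log (log x)) := by
    have e1 : c / 1600 * k * log k ^ 2 / log (log (log k)) =
        c / 1600 * (k * log k ^ 2 / log (log (log k))) := by ring
    have e2 : c * x * log x / log (log (log x)) =
        c / 1600 * (1600 * (x * log x / log (log (log x)))) := by ring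
    rw [e1] at hlt
    rw [e2]
    exact (not_le.1 hlt).le.trans (mul_le_mul_of_nonneg_left h3 (by positivity))
  obtain ⟨t, ht1, ht2, ht3⟩ := hm.2 z
  have ht4 : ((t - z : ℤ) : ℝ) ≤ m := by
    have : t - z ≤ (m : ℤ) := by omega
    exact_mod_cast this
  obtain ⟨p, hp, hpx, hd⟩ := ha (t - z) (by omega) (ht4.trans hm1)
  have hd1 : (p : ℤ) ∣ t := by
    have := dvd_add hd (hz p hp hpx).1
    have e : t - z - a p + (z + a p) = t := by ring
    rwa [e] at this
  have hd2 : (p : ℤ) ∣ (N013.P k : ℤ) := Int.natCast_dvd_natCast.2 (dvd_P h4 hp hpx)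
  have hu := ht3.isUnit_of_dvd' hd1 hd2
  exact (Nat.prime_iff_prime_int.1 hp).not_isUnit hu

theorem gap3 (h : Cover3) : Gap3 := by
  obtain ⟨c, hc, h⟩ := h
  refine ⟨c / 400, by positivity, ?_⟩
  have hl : Tendsto (fun X : ℕ => log (X : ℝ)) atTop atTop :=
    tendsto_log_atTop.comp tendsto_natCast_atTop_atTop
  have ht : Tendsto (fun X : ℕ => ⌊log (X : ℝ) / 100⌋₊) atTop atTop :=
    tendsto_nat_floor_atTop.comp (Tendsto.atTop_div_const (by norm_num) hl)
  filter_upwards [ht.eventually h, hl.eventually asyG3, hl.eventually_ge_atTop 100,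
    ht.eventually_ge_atTop 1, eventually_ge_atTop 1] with X hX h1 h2 hx0 hX1
  obtain ⟨a, ha⟩ := hX
  set x : ℕ := ⌊log (X : ℝ) / 100⌋₊ with hx
  have hx1 : (x : ℝ) ≤ log X / 100 := Nat.floor_le (by positivity)
  have hx2 : log X / 100 - 1 ≤ x := (Nat.sub_one_lt_floor _).le
  have h3 := h1 x hx2 hx1
  obtain ⟨z, -, hz2, hz⟩ := crt' (64 * x) a
  have hz3 : 2 ≤ z := (hz 2 Nat.prime_two (by omega)).2
  have hinf := Nat.infinite_setOfPred_prime
  obtain ⟨n, hn⟩ : ∃ n, Nat.count Nat.Prime (z + 1) = n + 1 := by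
    have h5 : Nat.count Nat.Prime 3 ≤ Nat.count Nat.Prime (z + 1) := Nat.count_monotone _ (by omega)
    have h6 : Nat.count Nat.Prime 3 = 1 := by
      rw [Nat.count_succ, if_pos Nat.prime_two, Nat.count_succ, if_neg Nat.not_prime_one,
        Nat.count_succ, if_neg Nat.not_prime_zero, Nat.count_zero]
    exact ⟨Nat.count Nat.Prime (z + 1) - 1, by omega⟩
  have k1 : Nat.nth Nat.Prime n < z + 1 := Nat.nth_lt_of_lt_count (by omega)
  have k2 : z + 1 ≤ Nat.nth Nat.Prime (n + 1) := hn ▸ Nat.le_nth_count hinf (z + 1)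
  have k3 : Nat.nth Nat.Prime (n + 1) ≤ 2 * z := by
    obtain ⟨q, hq, hq1, hq2⟩ := Nat.exists_prime_lt_and_le_two_mul z (by omega)
    have h5 : n + 1 ≤ Nat.count Nat.Prime q := hn ▸ Nat.count_monotone _ (by omega)
    have h6 := Nat.nth_monotone hinf h5
    rw [Nat.nth_count hq] at h6
    exact h6.trans hq2
  refine ⟨n, ?_, ?_⟩
  · have h5 := primorial_le_four_pow (64 * x)
    have h6 : Nat.nth Nat.Prime (n + 1) ≤ 2 ^ (128 * x + 2) := by
      have : 2 ^ (128 * x + 2) = 4 * 4 ^ (64 * x) := by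
        rw [show (4 : ℕ) ^ (64 * x) = (2 ^ 2) ^ (64 * x) by norm_num, ← pow_mul]
        ring
      omega
    have h7 : (2 : ℝ) ^ (128 * x + 2) ≤ X := by
      have hX0 : (0 : ℝ) < X := by exact_mod_cast hX1
      rw [← log_le_log_iff (by positivity) hX0, log_pow]
      push_cast
      have := log_two_lt_d9
      have hx3 : (0 : ℝ) ≤ x := Nat.cast_nonneg x
      nlinarith
    exact h6.trans (by exact_mod_cast h7)
  · have hq := Nat.prime_nth_prime (n + 1)
    set q := Nat.nth Nat.Prime (n + 1)
    have k4 : (Nat.nth Nat.Prime n : ℝ) ≤ z := by exact_mod_cast Nat.lt_succ_iff.1 k1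
    by_contra hlt
    have hm1 : (((q : ℤ) - z : ℤ) : ℝ) ≤ c * x * log x / log (log (log x)) := by
      have e1 : c / 400 * log X * log (log X) / log (log (log (log X))) =
          c / 400 * (log X * log (log X) / log (log (log (log X)))) := by ring
      have e2 : c * x * log x / log (log (log x)) =
          c / 400 * (400 * (x * log x / log (log (log x)))) := by ring
      rw [e1] at hlt
      rw [e2]
      have := (not_le.1 hlt).le.trans (mul_le_mul_of_nonneg_left h3 (by positivity))
      push_cast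
      linarith
    obtain ⟨p, hp, hpx, hd⟩ := ha ((q : ℤ) - z) (by omega) hm1
    have hd1 : (p : ℤ) ∣ (q : ℤ) := by
      have := dvd_add hd (hz p hp hpx).1
      have e : (q : ℤ) - z - a p + (z + a p) = q := by ring
      rwa [e] at this
    have hpq := (Nat.prime_dvd_prime_iff_eq hp hq).1 (Int.natCast_dvd_natCast.1 hd1)
    have := (hz p hp hpx).2
    omega

end Vale.Agent.N013L
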