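import Vale.Agent.N013L.Def

/-! Block L: the local inequalities at one prime. -/

namespace Vale.Agent.N013L

open Finset Real

namespace L

/-- a linear congruence modulo a prime has exactly one root -/
theorem root {ℓ : ℕ} (hp : ℓ.Prime) (a b : ℤ) (ha : ¬ (ℓ : ℤ) ∣ a) :
    ∃ ρ ∈ range ℓ, ∀ r ∈ range ℓ, ((ℓ : ℤ) ∣ b + a * r ↔ r = ρ) := by
  have := Fact.mk hp
  have ha' : (a : ZMod ℓ) ≠ 0 := by rwa [Ne, ZMod.intCast_zmod_eq_zero_iff_dvd]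
  refine ⟨(-(b : ZMod ℓ) / a).val, mem_range.2 (ZMod.val_lt _), fun r hr => ?_⟩
  rw [← ZMod.intCast_zmod_eq_zero_iff_dvd]
  push_cast
  constructor
  · intro h
    have h2 : (r : ZMod ℓ) = -b / a := by
      field_simp
      linear_combination h
    rw [← h2, ZMod.val_cast_of_lt (mem_range.1 hr)]
  · rintro rfl
    rw [ZMod.natCast_zmod_val]
    field_simp
    ring

theorem dv {a b c : ℤ} (h : a ∣ b) (e : b = c) : a ∣ c := e ▸ h

theorem prime_dvd {ℓ : ℕ} (hp : ℓ.Prime) {a b : ℤ} (h : (ℓ : ℤ) ∣ a * b) (hb : ¬ (ℓ : ℤ) ∣ b) :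
    (ℓ : ℤ) ∣ a := ((Nat.prime_iff_prime_int.1 hp).dvd_or_dvd h).resolve_right hb

theorem hh_inj {K ℓ : ℕ} (h : 4 * K ^ 2 < ℓ) {i j : Fin K}
    (hd : (ℓ : ℤ) ∣ (hh i : ℤ) - (hh j : ℤ)) : i = j := by
  have hl : ∀ k : Fin K, hh k < ℓ := fun k => by
    have : (k : ℕ) ^ 2 ≤ K ^ 2 := Nat.pow_le_pow_left k.2.le 2
    unfold hh
    omega
  have h1 := hl i
  have h2 := hl j
  have h3 : (hh i : ℤ) - (hh j : ℤ) = 0 := Int.eq_zero_of_abs_lt_dvd hd (by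
    rw [abs_lt]
    constructor <;> omega)
  have h4 : (i : ℕ) ^ 2 = (j : ℕ) ^ 2 := by
    unfold hh at h3
    have : (4 * (i : ℕ) ^ 2 : ℕ) = 4 * (j : ℕ) ^ 2 := by exact_mod_cast sub_eq_zero.1 h3
    omega
  exact Fin.ext (Nat.pow_left_injective (by norm_num) h4)

/-- the sum of squares over the residues -/
theorem sq_sum {ι : Type} [DecidableEq ι] (s : Finset ℕ) (T : Finset ι) (ρ : ι → ℕ) (c : ι → ℝ)
    (A : ℝ) (hs : ∀ i ∈ T, ρ i ∈ s) (hi : ∀ i ∈ T, ∀ j ∈ T, ρ i = ρ j → i = j) :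
    ∑ r ∈ s, (A - ∑ i ∈ T, if r = ρ i then c i else 0) ^ 2 =
      s.card * A ^ 2 - 2 * A * ∑ i ∈ T, c i + ∑ i ∈ T, c i ^ 2 := by
  have h1 : ∑ r ∈ s, (∑ i ∈ T, if r = ρ i then c i else 0) = ∑ i ∈ T, c i := by
    rw [sum_comm]
    exact sum_congr rfl fun i h => by rw [sum_ite_eq', if_pos (hs i h)]
  have h2 : ∑ r ∈ s, (∑ i ∈ T, if r = ρ i then c i else 0) ^ 2 = ∑ i ∈ T, c i ^ 2 := by
    simp only [sq, sum_mul_sum]
    rw [sum_comm]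
    refine sum_congr rfl fun i h => ?_
    rw [sum_comm, sum_eq_single i]
    · simp only [ite_mul, mul_ite, zero_mul, mul_zero]
      rw [sum_eq_single (ρ i)]
      · simp
      · intro r _ hr
        simp [hr]
      · intro h'
        exact absurd (hs i h) h'
    · intro j hj hji
      refine sum_eq_zero fun r _ => ?_
      by_cases h3 : r = ρ i
      · rw [if_neg (fun h4 : r = ρ j => hji (hi j hj i h (h4.symm.trans h3))), mul_zero]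
      · rw [if_neg h3, zero_mul]
    · intro h'
      exact absurd h h'
  simp only [sub_sq, sum_add_distrib, sum_sub_distrib, h2, ← mul_sum, h1, sum_const, nsmul_eq_mul]

theorem first {K ℓ : ℕ} (hp : ℓ.Prime) (hK : 4 * K ^ 2 < ℓ) (p : ℤ) (hd : ¬ (ℓ : ℤ) ∣ p)
    (c : Option (Fin K) → ℝ) :
    ∑ r ∈ range ℓ, 1 / (ℓ : ℝ) * (∑ o, c o * psi ℓ p r o) ^ 2 ≤
      ∑ o, (if o = none then 1 else 1 / (ℓ : ℝ)) * c o ^ 2 := by
  have h1 : ¬ (ℓ : ℤ) ∣ 1 := (Nat.prime_iff_prime_int.1 hp).not_dvd_one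
  choose ρ hρ hr using fun i : Fin K => root hp 1 ((hh i : ℤ) * p) h1
  have hl : (0 : ℝ) < ℓ := by exact_mod_cast hp.pos
  have hinj : ∀ i ∈ (univ : Finset (Fin K)), ∀ j ∈ (univ : Finset (Fin K)), ρ i = ρ j → i = j := by
    intro i _ j _ h
    have h2 := (hr i _ (hρ i)).2 rfl
    have h3 := (hr j _ (hρ i)).2 h
    refine hh_inj hK (prime_dvd hp ?_ hd)
    exact dv (dvd_sub h2 h3) (by ring)
  have h4 : ∀ r ∈ range ℓ, ∑ o, c o * psi ℓ p r o =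
      (c none + (∑ i, c (some i)) / ℓ) - ∑ i, if r = ρ i then c (some i) else 0 := by
    intro r h
    rw [Fintype.sum_option, sum_div, add_sub_assoc, ← sum_sub_distrib]
    simp only [psi, mul_one]
    congr 1
    refine sum_congr rfl fun i _ => ?_
    have h5 := hr i r h
    rw [one_mul, add_comm] at h5
    simp only [h5]
    split_ifs <;> ring
  rw [← mul_sum, sum_congr rfl fun r h => by rw [h4 r h],
    sq_sum _ _ ρ _ _ (fun i _ => hρ i) hinj, Fintype.sum_option, card_range]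
  simp only [if_true, reduceCtorEq, if_false, ← mul_sum]
  set S := ∑ i, c (some i)
  set Q := ∑ i, c (some i) ^ 2
  have h6 : 1 / (ℓ : ℝ) * (ℓ * (c none + S / ℓ) ^ 2 - 2 * (c none + S / ℓ) * S + Q) =
      c none ^ 2 + 1 / ℓ * Q - (S / ℓ) ^ 2 := by
    field_simp
    ring
  rw [h6]
  nlinarith [sq_nonneg (S / ℓ)]

theorem ineq {l K x s Q : ℝ} (hl : 2 ≤ l) (hK : 3 * K ≤ l) (hQ : 0 ≤ Q) (hs : s ^ 2 ≤ K * Q) :
    (1 - 2 / l ^ 2) * x ^ 2 + 1 / l * (1 - 3 * K / l) * Q ≤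
      1 / (l - 1) * ((l - 1) * (x + s / l) ^ 2 - 2 * (x + s / l) * s + Q) := by
  have h0 : 0 < l := by linarith
  have h1 : 0 < l - 1 := by linarith
  set ε := 1 / (l * (l - 1)) with hε
  have hε0 : 0 ≤ ε := by positivity
  have h2 : 1 / (l - 1) * ((l - 1) * (x + s / l) ^ 2 - 2 * (x + s / l) * s + Q) =
      x ^ 2 - 2 * ε * x * s + (s / l) ^ 2 - 2 * ε * s ^ 2 + 1 / (l - 1) * Q := by
    rw [hε]
    field_simp
    ring
  have h3 : ε ≤ 2 / l ^ 2 := by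
    rw [hε, div_le_div_iff₀ (by positivity) (by positivity)]
    nlinarith
  have h4 : 0 ≤ 1 - 3 * K / l := by
    rw [sub_nonneg, div_le_one h0]
    exact hK
  have h5 : 1 / l ≤ 1 / (l - 1) := one_div_le_one_div_of_le h1 (by linarith)
  have h6 : 1 / (l - 1) * (1 - 3 * K / l) = 1 / (l - 1) - 3 * ε * K := by
    rw [hε]
    field_simp
  have h7 : 1 / l * (1 - 3 * K / l) * Q ≤ (1 / (l - 1) - 3 * ε * K) * Q := by
    rw [← h6]
    gcongr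
  have h8 : ε * s ^ 2 ≤ ε * (K * Q) := mul_le_mul_of_nonneg_left hs hε0
  have h9 : ε * x ^ 2 ≤ 2 / l ^ 2 * x ^ 2 := mul_le_mul_of_nonneg_right h3 (sq_nonneg x)
  have h10 : 0 ≤ ε * (x - s) ^ 2 := by positivity
  rw [h2]
  nlinarith [sq_nonneg (s / l)]

theorem second {K ℓ : ℕ} (hp : ℓ.Prime) (hK : 4 * K ^ 2 < ℓ) (q : ℤ) (m : Fin K)
    (hd : ¬ (ℓ : ℤ) ∣ q) (c : Option (Fin K) → ℝ) :
    ∑ v, aa m ℓ v * (∑ o, c o * ph m ℓ o v) ^ 2 ≤
      ∑ r ∈ Ico 1 ℓ, 1 / ((ℓ : ℝ) - 1) * (∑ o, c o * psi ℓ r (q - (hh m : ℤ) * r) o) ^ 2 := by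
  have h1 : ∀ i : Fin K, ∃ ρ : ℕ, i ≠ m → ρ ∈ range ℓ ∧
      ∀ r ∈ range ℓ, ((ℓ : ℤ) ∣ q + ((hh i : ℤ) - hh m) * r ↔ r = ρ) := by
    intro i
    by_cases h : i = m
    · exact ⟨0, fun h' => absurd h h'⟩
    · obtain ⟨ρ, h2, h3⟩ := root hp ((hh i : ℤ) - hh m) q fun h' => h (hh_inj hK h')
      exact ⟨ρ, fun _ => ⟨h2, h3⟩⟩
  choose ρ hρ using h1
  have hsub : ∀ r ∈ Ico 1 ℓ, r ∈ range ℓ := fun r h => mem_range.2 (mem_Ico.1 h).2
  have hmem : ∀ i ∈ univ.erase m, ρ i ∈ Ico 1 ℓ := by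
    intro i hi
    obtain ⟨h2, h3⟩ := hρ i (ne_of_mem_erase hi)
    refine mem_Ico.2 ⟨Nat.one_le_iff_ne_zero.2 fun h => hd ?_, mem_range.1 h2⟩
    have h4 := (h3 _ h2).2 rfl
    simpa [h] using h4
  have hinj : ∀ i ∈ univ.erase m, ∀ j ∈ univ.erase m, ρ i = ρ j → i = j := by
    intro i hi j hj h
    obtain ⟨h2, h3⟩ := hρ i (ne_of_mem_erase hi)
    have h4 := (h3 _ h2).2 rfl
    have h5 := ((hρ j (ne_of_mem_erase hj)).2 _ h2).2 h
    have h6 := mem_Ico.1 (hmem i hi)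
    have h7 : ¬ (ℓ : ℤ) ∣ (ρ i : ℤ) := fun h' => by
      have := Nat.le_of_dvd (by omega) (Int.natCast_dvd_natCast.1 h')
      omega
    refine hh_inj hK (prime_dvd hp ?_ h7)
    exact dv (dvd_sub h4 h5) (by ring)
  set x := c none + c (some m) / ℓ with hx
  set s := ∑ i ∈ univ.erase m, c (some i) with hs
  set Q := ∑ i ∈ univ.erase m, c (some i) ^ 2 with hQ
  have h4 : ∀ r ∈ Ico 1 ℓ, ∑ o, c o * psi ℓ r (q - (hh m : ℤ) * r) o =
      (x + s / ℓ) - ∑ i ∈ univ.erase m, if r = ρ i then c (some i) else 0 := by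
    intro r h
    rw [Fintype.sum_option, ← add_sum_erase _ _ (mem_univ m), hs, sum_div, add_sub_assoc,
      ← sum_sub_distrib, hx, add_assoc]
    simp only [psi, mul_one, sub_add_cancel, if_neg hd]
    congr 1
    congr 1
    · ring
    refine sum_congr rfl fun i hi => ?_
    have h5 := (hρ i (ne_of_mem_erase hi)).2 r (hsub r h)
    rw [show q + ((hh i : ℤ) - hh m) * r = q - (hh m : ℤ) * r + (hh i : ℤ) * r by ring] at h5
    simp only [h5]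
    split_ifs <;> ring
  have h5 : ∑ v, aa m ℓ v * (∑ o, c o * ph m ℓ o v) ^ 2 =
      (1 - 2 / (ℓ : ℝ) ^ 2) * x ^ 2 + 1 / (ℓ : ℝ) * (1 - 3 * K / ℓ) * Q := by
    rw [Fintype.sum_option, ← add_sum_erase _ _ (mem_univ m), hQ, mul_sum]
    congr 1
    · have : ∑ o, c o * ph m ℓ o none = x := by
        rw [Fintype.sum_option, sum_eq_single m]
        · simp [ph, hx, div_eq_mul_inv]
        · intro j _ hj
          simp [ph, hj]
        · simp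
      rw [this, aa]
    · simp only [aa, if_true, zero_mul, zero_add]
      refine sum_congr rfl fun j hj => ?_
      have hjm := ne_of_mem_erase hj
      have : ∑ o, c o * ph m ℓ o (some j) = c (some j) := by
        rw [sum_eq_single (some j)]
        · simp [ph, hjm]
        · intro o _ ho
          simp [ph, ho]
        · simp
      rw [this, if_neg hjm]
  have h2 : (2 : ℝ) ≤ ℓ := by exact_mod_cast hp.two_le
  have h6 : ((Ico 1 ℓ).card : ℝ) = (ℓ : ℝ) - 1 := by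
    rw [Nat.card_Ico, Nat.cast_sub hp.one_le, Nat.cast_one]
  rw [h5, ← mul_sum, sum_congr rfl fun r h => by rw [h4 r h], sq_sum _ _ ρ _ _ hmem hinj, h6]
  refine ineq h2 ?_ (sum_nonneg fun _ _ => sq_nonneg _) ?_
  · have : 3 * K ≤ ℓ := by nlinarith [Nat.le_self_pow (two_ne_zero) K]
    exact_mod_cast this
  · refine (sq_sum_le_card_mul_sum_sq).trans ?_
    refine mul_le_mul_of_nonneg_right ?_ (sum_nonneg fun _ _ => sq_nonneg _)
    have : (univ.erase m).card ≤ K := (card_le_univ _).trans (by simp)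
    exact_mod_cast this

theorem nu_lt {K ℓ : ℕ} (hp : ℓ.Prime) : nu K ℓ < ℓ := by
  have := Fact.mk hp
  have h1 : ∃ z : ZMod ℓ, ∀ i : ℕ, (hh i : ZMod ℓ) ≠ z := by
    by_cases h2 : ℓ = 2
    · subst h2
      refine ⟨1, fun i => ?_⟩
      have : (hh i : ZMod 2) = 0 := by
        rw [ZMod.natCast_eq_zero_iff]
        exact ⟨2 * i ^ 2, by unfold hh; ring⟩
      rw [this]
      exact zero_ne_one
    · obtain ⟨z, hz⟩ := FiniteField.exists_nonsquare (F := ZMod ℓ) (by rwa [ZMod.ringChar_zmod_n])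
      refine ⟨z, fun i h => hz ⟨2 * i, ?_⟩⟩
      rw [← h]
      unfold hh
      push_cast
      ring
  obtain ⟨z, hz⟩ := h1
  have h3 : ((range K).image fun i => hh i % ℓ) ⊆ (range ℓ).erase z.val := by
    intro r hr
    obtain ⟨i, -, rfl⟩ := mem_image.1 hr
    refine mem_erase.2 ⟨fun h => hz i ?_, mem_range.2 (Nat.mod_lt _ hp.pos)⟩
    rw [← ZMod.natCast_mod, h, ZMod.natCast_zmod_val]
  have h4 := card_le_card h3
  rw [card_erase_of_mem (mem_range.2 (ZMod.val_lt z)), card_range] at h4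
  have := hp.pos
  unfold nu
  omega

theorem dvd_mod (ℓ a : ℕ) : (ℓ : ℤ) ∣ (a : ℤ) - ((a % ℓ : ℕ) : ℤ) := by
  push_cast
  exact Int.dvd_self_sub_of_emod_eq rfl

theorem eq_of_dvd {ℓ a b : ℕ} (ha : a < ℓ) (hb : b < ℓ) (h : (ℓ : ℤ) ∣ (a : ℤ) - b) : a = b := by
  have h3 : (a : ℤ) - b = 0 := Int.eq_zero_of_abs_lt_dvd h (by
    rw [abs_lt]
    constructor <;> omega)
  omega

open Classical in
theorem sum_chi (K ℓ : ℕ) (s : Finset ℕ) (p n : ℕ → ℤ) : ∑ r ∈ s, chi K ℓ (p r) (n r) =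
    s.card - ((s.filter fun r => ∃ i : Fin K, (ℓ : ℤ) ∣ n r + (hh i : ℤ) * p r).card : ℝ) := by
  rw [card_filter, card_eq_sum_ones s]
  push_cast
  rw [← sum_sub_distrib]
  refine sum_congr rfl fun r _ => ?_
  unfold chi
  by_cases h : ∃ i : Fin K, (ℓ : ℤ) ∣ n r + (hh i : ℤ) * p r
  · rw [if_pos h, if_neg (by simpa using h), sub_self]
  · rw [if_neg h, if_pos (by simpa using h), sub_zero]

theorem upper {K ℓ : ℕ} (hp : ℓ.Prime) (p : ℤ) (hd : ¬ (ℓ : ℤ) ∣ p) :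
    (∑ r ∈ range ℓ, chi K ℓ p r) / ℓ ≤ 1 - (nu K ℓ : ℝ) / ℓ := by
  classical
  have hl : (0 : ℝ) < ℓ := by exact_mod_cast hp.pos
  have h1 : ¬ (ℓ : ℤ) ∣ 1 := (Nat.prime_iff_prime_int.1 hp).not_dvd_one
  choose ρ hρ hr using fun t : ℕ => root hp 1 ((t : ℤ) * p) h1
  have h2 : nu K ℓ ≤
      ((range ℓ).filter fun r : ℕ => ∃ i : Fin K, (ℓ : ℤ) ∣ (r : ℤ) + (hh i : ℤ) * p).card := by
    refine card_le_card_of_injOn ρ (fun t ht => ?_) fun t ht t' ht' h => ?_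
    · obtain ⟨i, hi, rfl⟩ := mem_image.1 (mem_coe.1 ht)
      refine mem_coe.2 (mem_filter.2 ⟨hρ _, ⟨i, mem_range.1 hi⟩, ?_⟩)
      exact dv (dvd_add ((hr (hh i % ℓ) _ (hρ _)).2 rfl) ((dvd_mod ℓ (hh i)).mul_right p)) (by ring)
    · obtain ⟨i, -, rfl⟩ := mem_image.1 (mem_coe.1 ht)
      obtain ⟨j, -, rfl⟩ := mem_image.1 (mem_coe.1 ht')
      refine eq_of_dvd (Nat.mod_lt _ hp.pos) (Nat.mod_lt _ hp.pos) (prime_dvd hp ?_ hd)
      exact dv (dvd_sub ((hr (hh i % ℓ) _ (hρ _)).2 rfl) ((hr (hh j % ℓ) _ (hρ _)).2 h)) (by ring)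
  have h3 := sum_chi K ℓ (range ℓ) (fun _ => p) fun r => r
  rw [h3, card_range, sub_div, div_self hl.ne']
  gcongr

theorem lower {K ℓ : ℕ} (hp : ℓ.Prime) (q : ℤ) (m : Fin K) (hd : ¬ (ℓ : ℤ) ∣ q) :
    (1 - (nu K ℓ : ℝ) / ℓ) * (1 - 1 / (ℓ : ℝ))⁻¹ ≤
      (∑ r ∈ Ico 1 ℓ, chi K ℓ r (q - (hh m : ℤ) * r)) / ((ℓ : ℝ) - 1) := by
  classical
  have hl : (2 : ℝ) ≤ ℓ := by exact_mod_cast hp.two_le
  have h1 : ∀ t : ℕ, ∃ ρ : ℕ, t < ℓ → t ≠ hh m % ℓ →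
      ∀ r ∈ range ℓ, ((ℓ : ℤ) ∣ q + ((t : ℤ) - (hh m % ℓ : ℕ)) * r ↔ r = ρ) := by
    intro t
    by_cases h : t < ℓ ∧ t ≠ hh m % ℓ
    · obtain ⟨ρ, -, h3⟩ := root hp ((t : ℤ) - (hh m % ℓ : ℕ)) q
        fun h' => h.2 (eq_of_dvd h.1 (Nat.mod_lt _ hp.pos) h')
      exact ⟨ρ, fun _ _ => h3⟩
    · exact ⟨0, fun h2 h3 => absurd ⟨h2, h3⟩ h⟩
  choose ρ hρ using h1
  have hm : hh m % ℓ ∈ (range K).image fun i => hh i % ℓ :=
    mem_image.2 ⟨m, mem_range.2 m.2, rfl⟩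
  have h2 : ((Ico 1 ℓ).filter fun r : ℕ => ∃ i : Fin K,
      (ℓ : ℤ) ∣ (q - (hh m : ℤ) * r) + (hh i : ℤ) * r) ⊆
      (((range K).image fun i => hh i % ℓ).erase (hh m % ℓ)).image ρ := by
    intro r hr
    obtain ⟨h3, i, h4⟩ := mem_filter.1 hr
    have h5 : (ℓ : ℤ) ∣ q + (((hh i % ℓ : ℕ) : ℤ) - (hh m % ℓ : ℕ)) * r := by
      exact dv (dvd_add (dvd_sub h4 ((dvd_mod ℓ (hh i)).mul_right r))
        ((dvd_mod ℓ (hh m)).mul_right r)) (by ring)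
    have h6 : hh i % ℓ ≠ hh m % ℓ := fun h => hd (by simpa [h] using h5)
    refine mem_image.2 ⟨hh i % ℓ, mem_erase.2 ⟨h6, mem_image.2 ⟨i, mem_range.2 i.2, rfl⟩⟩, ?_⟩
    exact ((hρ _ (Nat.mod_lt _ hp.pos) h6 r (mem_range.2 (mem_Ico.1 h3).2)).1 h5).symm
  have h3 := (card_le_card h2).trans card_image_le
  rw [card_erase_of_mem hm] at h3
  have h4 : 1 ≤ nu K ℓ := card_pos.2 ⟨_, hm⟩
  have h5 := sum_chi K ℓ (Ico 1 ℓ) (fun r => r) fun r => q - (hh m : ℤ) * r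
  have h6 : ((Ico 1 ℓ).card : ℝ) = (ℓ : ℝ) - 1 := by
    rw [Nat.card_Ico, Nat.cast_sub hp.one_le, Nat.cast_one]
  have h7 : (1 - (nu K ℓ : ℝ) / ℓ) * (1 - 1 / (ℓ : ℝ))⁻¹ = (ℓ - nu K ℓ) / ((ℓ : ℝ) - 1) := by
    have : (ℓ : ℝ) - 1 ≠ 0 := by linarith
    have : (ℓ : ℝ) ≠ 0 := by linarith
    field_simp
  have h8 : ((((Ico 1 ℓ).filter fun r : ℕ => ∃ i : Fin K,
      (ℓ : ℤ) ∣ (q - (hh m : ℤ) * r) + (hh i : ℤ) * r).card : ℕ) : ℝ) + 1 ≤ nu K ℓ := by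
    have : ((Ico 1 ℓ).filter fun r : ℕ => ∃ i : Fin K,
      (ℓ : ℤ) ∣ (q - (hh m : ℤ) * r) + (hh i : ℤ) * r).card + 1 ≤ nu K ℓ := by
      unfold nu at h4 ⊢
      omega
    exact_mod_cast this
  rw [h5, h6, h7]
  exact div_le_div_of_nonneg_right (by linarith) (by linarith)

end L

theorem stmtL1 : StmtL1 := fun _ _ hp hK =>
  ⟨fun p hd c => L.first hp hK p hd c, fun q m hd c => L.second hp hK q m hd c⟩

theorem stmtL2 : StmtL2 := fun _ _ hp =>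
  ⟨L.nu_lt hp, fun p hd => L.upper hp p hd, fun q m hd => L.lower hp q m hd⟩

end Vale.Agent.N013L
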