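import Vale.Agent.N013L.M1
import Vale.Agent.P031.Mertens

/-! The sieve weights: choice of the parameters. -/

namespace Vale.Agent.N013L

open Finset Real Filter

namespace M

theorem pi_ge (z : ℝ) (hz : 3 ≤ z) :
    exp (-21) * log z ≤
      ∏ ℓ ∈ (range (⌊z⌋₊ + 1)).filter Nat.Prime, (1 - 1 / (ℓ : ℝ))⁻¹ := by
  have h := (abs_le.1 (P031.mertens_explicit z hz)).1
  have hl : 0 < log z := log_pos (by linarith)
  calc exp (-21) * log z = exp (log (log z) - 21) := by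
        rw [sub_eq_add_neg, exp_add, exp_log hl, mul_comm]
    _ ≤ exp (∑ p ∈ (range (⌊z⌋₊ + 1)).filter Nat.Prime, (1 : ℝ) / p) := exp_le_exp.2 (by linarith)
    _ = ∏ p ∈ (range (⌊z⌋₊ + 1)).filter Nat.Prime, exp ((1 : ℝ) / p) := exp_sum _ _
    _ ≤ _ := by
      refine prod_le_prod (fun _ _ => (exp_pos _).le) fun ℓ h => ?_
      have h2' : (2 : ℝ) ≤ ℓ := by exact_mod_cast (mem_filter.1 h).2.two_le
      have h3 : 1 / (ℓ : ℝ) ≤ 1 / 2 := one_div_le_one_div_of_le (by norm_num) h2'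
      rw [le_inv_comm₀ (exp_pos _) (by linarith), ← exp_neg]
      have := add_one_le_exp (-(1 / (ℓ : ℝ)))
      linarith

theorem Q_le (z : ℝ) (hz : 0 ≤ z) :
    ∏ ℓ ∈ (range (⌊z⌋₊ + 1)).filter Nat.Prime, (ℓ : ℝ) ≤ exp (2 * z) := by
  have h := primorial_le_four_pow ⌊z⌋₊
  have h1 : ∏ ℓ ∈ (range (⌊z⌋₊ + 1)).filter Nat.Prime, (ℓ : ℝ) = (primorial ⌊z⌋₊ : ℝ) := by
    rw [primorial, Nat.cast_prod]
  have h4 : (4 : ℝ) ≤ exp 2 := by
    have := add_one_le_exp (1 : ℝ)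
    have e : exp 2 = exp 1 * exp 1 := by rw [← exp_add]; norm_num
    nlinarith
  rw [h1]
  calc (primorial ⌊z⌋₊ : ℝ) ≤ 4 ^ ⌊z⌋₊ := by exact_mod_cast h
    _ ≤ exp 2 ^ ⌊z⌋₊ := pow_le_pow_left₀ (by norm_num) h4 _
    _ = exp (⌊z⌋₊ * 2) := (exp_nat_mul _ _).symm
    _ ≤ _ := exp_le_exp.2 (by have := Nat.floor_le hz; linarith)

/-- size of the error factor -/
theorem err_le {u δ Q : ℝ} {K : ℕ} (hu : 8 ≤ u) (hK : (K : ℝ) ≤ u ^ 2) (hQ0 : 0 ≤ Q)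
    (hQ : Q ≤ exp (2 * u ^ 5)) :
    (2 ^ K * 3 * exp (δ * u ^ 10) ^ 2) ^ 2 * Q ^ 2 * exp (δ * u ^ 10) ^ 2 ≤
      exp (9 * u ^ 5 + 6 * δ * u ^ 10) := by
  have h2 : (2 : ℝ) ≤ exp 1 := by have := add_one_le_exp (1 : ℝ); linarith
  have h25 : u ^ 2 ≤ u ^ 5 := pow_le_pow_right₀ (by linarith) (by norm_num)
  have h15 : u ≤ u ^ 5 := le_self_pow₀ (by linarith) (by norm_num)
  have h1 : (2 : ℝ) ^ K ≤ exp (u ^ 5) :=
    calc (2 : ℝ) ^ K ≤ exp 1 ^ K := pow_le_pow_left₀ (by norm_num) h2 _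
      _ = exp (K * 1) := (exp_nat_mul _ _).symm
      _ ≤ _ := exp_le_exp.2 (by linarith)
  have h3 : (3 : ℝ) ≤ exp (u ^ 5) := by have := add_one_le_exp (u ^ 5); linarith
  calc (2 ^ K * 3 * exp (δ * u ^ 10) ^ 2) ^ 2 * Q ^ 2 * exp (δ * u ^ 10) ^ 2
      ≤ (exp (u ^ 5) * exp (u ^ 5) * exp (δ * u ^ 10) ^ 2) ^ 2 * exp (2 * u ^ 5) ^ 2 *
          exp (δ * u ^ 10) ^ 2 := by gcongr
    _ = exp (8 * u ^ 5 + 6 * δ * u ^ 10) := by
        simp only [← exp_nat_mul, ← exp_add]; congr 1; push_cast; ring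
    _ ≤ _ := exp_le_exp.2 (by nlinarith)

theorem e3_le {u c CE M : ℝ} (hu : 8 ≤ u) (hc : 0 < c) (hc1 : c ≤ 1) (hCE : 0 < CE)
    (h1 : 256 * CE ≤ u) (h2 : 30 / c ≤ u) (hM1 : 1 ≤ M) (hM : M ≤ exp (u ^ 10)) :
    16 * exp (9 * u ^ 5 + 6 * (c / 20) * u ^ 10) *
      (CE * (16 * exp (u ^ 10)) ^ (1 - c) * (1 + log M) ^ 2) ≤ exp (u ^ 10) / u ^ 10 := by
  have h15 : u ≤ u ^ 5 := le_self_pow₀ (by linarith) (by norm_num)
  have hv : 0 < u ^ 5 := by linarith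
  have e10 : u ^ 10 = u ^ 5 * u ^ 5 := by ring
  have hL : 1 + u ^ 10 ≤ exp (2 * u ^ 5) := by
    have := quadratic_le_exp_of_nonneg (x := 2 * u ^ 5) (by linarith)
    nlinarith
  have hlM : 1 + log M ≤ exp (2 * u ^ 5) := by
    have := log_le_log (by linarith) hM
    rw [log_exp] at this
    linarith
  have hl0 : 0 ≤ 1 + log M := by have := log_nonneg hM1; linarith
  have h16 : (16 * exp (u ^ 10)) ^ (1 - c) ≤ 16 * exp ((1 - c) * u ^ 10) := by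
    rw [mul_rpow (by norm_num) (exp_pos _).le, ← exp_mul, mul_comm (u ^ 10)]
    refine mul_le_mul_of_nonneg_right ?_ (exp_pos _).le
    calc (16 : ℝ) ^ (1 - c) ≤ 16 ^ (1 : ℝ) := rpow_le_rpow_of_exponent_le (by norm_num) (by linarith)
      _ = 16 := rpow_one _
  have hC : 256 * CE ≤ exp (u ^ 5) := by have := add_one_le_exp (u ^ 5); linarith
  have hcu : 30 ≤ c * u ^ 5 := by
    rw [div_le_iff₀ hc] at h2
    nlinarith
  rw [le_div_iff₀ (by positivity)]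
  calc 16 * exp (9 * u ^ 5 + 6 * (c / 20) * u ^ 10) *
        (CE * (16 * exp (u ^ 10)) ^ (1 - c) * (1 + log M) ^ 2) * u ^ 10
      ≤ 16 * exp (9 * u ^ 5 + 6 * (c / 20) * u ^ 10) *
        (CE * (16 * exp ((1 - c) * u ^ 10)) * exp (2 * u ^ 5) ^ 2) * exp (2 * u ^ 5) := by
        gcongr; linarith
    _ = 256 * CE * (exp (9 * u ^ 5 + 6 * (c / 20) * u ^ 10) * exp ((1 - c) * u ^ 10) *
          exp (2 * u ^ 5) ^ 2 * exp (2 * u ^ 5)) := by ring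
    _ ≤ exp (u ^ 5) * (exp (9 * u ^ 5 + 6 * (c / 20) * u ^ 10) * exp ((1 - c) * u ^ 10) *
          exp (2 * u ^ 5) ^ 2 * exp (2 * u ^ 5)) := by gcongr
    _ = exp (16 * u ^ 5 + 6 * (c / 20) * u ^ 10 + (1 - c) * u ^ 10) := by
        simp only [← exp_nat_mul, ← exp_add]; congr 1; push_cast; ring
    _ ≤ _ := exp_le_exp.2 (by rw [e10]; nlinarith)

theorem fin_le {x y L t K J T C δ P Pi Jj I lw : ℝ} (hx : 0 ≤ x) (hy : 0 < y) (hL : 0 < L)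
    (ht : 0 < t) (hK : 0 < K) (hJ : t / 6 ≤ J) (hC : 1 ≤ C) (hδ : 0 < δ)
    (hT : T = δ * L / (8 * C * K * J)) (hP : x / L ≤ P) (hPi : exp (-21) * (t / 2) ≤ Pi)
    (hlw0 : 0 < lw) (hlw : lw ≤ 3 * t) (hI0 : 0 < I) (hI : I ≤ C * T / lw)
    (hJj : J * T / (C * lw) ≤ Jj) :
    δ * exp (-21) / (27648 * C ^ 4) * t * x / y ≤ K * P * Pi * Jj ^ 2 / (96 * y * I) := by
  have hJ0 : 0 < J := by linarith
  have hC0 : 0 < C := by linarith
  have hT0 : 0 < T := by rw [hT]; positivity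
  have hP0 : 0 ≤ P := le_trans (by positivity) hP
  have hPi0 : 0 ≤ Pi := le_trans (by positivity) hPi
  calc δ * exp (-21) / (27648 * C ^ 4) * t * x / y
      = δ * exp (-21) * t * x * (t / 6) / (1536 * C ^ 4 * y * (3 * t)) := by field_simp; ring
    _ ≤ δ * exp (-21) * t * x * J / (1536 * C ^ 4 * y * lw) := by gcongr
    _ = K * (x / L) * (exp (-21) * (t / 2)) * (J * T / (C * lw)) ^ 2 / (96 * y * (C * T / lw)) := by
        rw [hT]; field_simp; ring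
    _ ≤ _ := by gcongr

theorem pw8 {u : ℝ} (hu : 8 ≤ u) (m n : ℕ) (h : m < n) : 8 * u ^ m ≤ u ^ n :=
  calc 8 * u ^ m ≤ u * u ^ m := mul_le_mul_of_nonneg_right hu (by positivity)
    _ = u ^ (m + 1) := by ring
    _ ≤ _ := pow_le_pow_right₀ (by linarith) h

theorem parK {u : ℝ} (hu : 8 ≤ u) : ∃ K J : ℕ, (K : ℝ) ≤ u ^ 2 ∧ (0 : ℝ) < K ∧ (2 : ℝ) ^ J ≤ K ∧
    (J : ℝ) + 1 ≤ K ∧ 10 * log u / 6 ≤ (J : ℝ) + 1 := by
  have hlu : 3 * log 2 ≤ log u := by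
    have := log_le_log (by norm_num) hu
    rwa [show (8 : ℝ) = 2 ^ 3 by norm_num, log_pow] at this
  have hu64 : 64 ≤ u ^ 2 := by nlinarith
  obtain ⟨K, hKd⟩ : ∃ K, K = ⌊u ^ 2⌋₊ := ⟨_, rfl⟩
  have hK1 : (K : ℝ) ≤ u ^ 2 := hKd ▸ Nat.floor_le (by positivity)
  have hK2 : u ^ 2 / 2 ≤ K := by have := Nat.lt_floor_add_one (u ^ 2); rw [← hKd] at this; linarith
  have hK0 : (0 : ℝ) < K := by linarith
  have hK0' : K ≠ 0 := by rintro rfl; simp at hK0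
  have hJ1 : (2 : ℝ) ^ Nat.log 2 K ≤ K := by exact_mod_cast Nat.pow_log_le_self 2 hK0'
  have hJ2 : (K : ℝ) ≤ 2 ^ (Nat.log 2 K + 1) := by
    exact_mod_cast (Nat.lt_pow_succ_log_self (by norm_num) K).le
  refine ⟨K, Nat.log 2 K, hK1, hK0, hJ1, ?_, ?_⟩
  · refine le_trans ?_ hJ1
    exact_mod_cast Nat.lt_two_pow_self
  · have h1 := log_le_log (by positivity) (hK2.trans hJ2)
    rw [log_div (by positivity) (by norm_num), log_pow, log_pow] at h1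
    have h3 : log 2 ≤ 1 := by have := log_le_sub_one_of_pos (x := 2) (by norm_num); linarith
    have h4 : ((Nat.log 2 K + 1 : ℕ) : ℝ) * log 2 ≤ (Nat.log 2 K + 1 : ℕ) :=
      mul_le_of_le_one_right (by positivity) h3
    push_cast at h1 h4
    linarith

theorem parW {u : ℝ} (hu : 8 ≤ u) : ∃ w : ℕ, u ^ 20 ≤ (w : ℝ) ∧ 16 ≤ w ∧ 0 < log w ∧
    log w ≤ 3 * (10 * log u) := by
  have hw1 : u ^ 20 ≤ (⌈u ^ 20⌉₊ : ℝ) := Nat.le_ceil _
  have h1 := Nat.ceil_lt_add_one (a := u ^ 20) (by positivity)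
  have h2 := pw8 hu 20 30 (by norm_num)
  have h3 := pw8 hu 1 20 (by norm_num)
  rw [pow_one] at h3
  have hw16 : 16 ≤ ⌈u ^ 20⌉₊ := by
    have : (16 : ℝ) ≤ ⌈u ^ 20⌉₊ := by linarith
    exact_mod_cast this
  refine ⟨⌈u ^ 20⌉₊, hw1, hw16, log_pos (by exact_mod_cast (by omega : 1 < ⌈u ^ 20⌉₊)), ?_⟩
  have := log_le_log (x := ⌈u ^ 20⌉₊) (y := u ^ 30) (by linarith) (by linarith)
  rw [log_pow] at this
  push_cast at this; linarith

theorem parT {u C δ K J w lw P : ℝ} (hu : 8 ≤ u) (hC : 1 ≤ C) (hδ : 0 < δ) (hδ1 : δ ≤ 1 / 20)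
    (hu3 : 240 * C ^ 2 / δ ≤ u) (hK1 : K ≤ u ^ 2) (hK0 : 0 < K) (hP0 : 0 ≤ P) (hJ1 : P ≤ K)
    (hJ0 : 0 ≤ J) (hJ3 : J + 1 ≤ K) (hw1 : u ^ 20 ≤ w) (hlw0 : 0 < lw)
    (hlw : lw ≤ 3 * (10 * log u)) :
    ∃ T, T = δ * u ^ 10 / (8 * C * K * (J + 1)) ∧ 0 < T ∧ 8 * C * K * (J + 1) * T = δ * u ^ 10 ∧
      C * lw ≤ T ∧ C * P * T ≤ δ * u ^ 10 ∧ P * T ≤ u ^ 10 ∧ 2 ≤ δ * u ^ 10 ∧
      δ * u ^ 10 ≤ u ^ 10 / 20 ∧ 8 * K ^ 2 ≤ w ∧ 12 * K * (δ * u ^ 10) ≤ w := by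
  have hu0 : 0 < u := by linarith
  have hC0 : 0 < C := by linarith
  have hlu1 : log u ≤ u := by have := log_le_sub_one_of_pos hu0; linarith
  have hδu : 240 * C ^ 2 ≤ δ * u := by rwa [div_le_iff₀ hδ, mul_comm u] at hu3
  obtain ⟨T, hT⟩ : ∃ T, T = δ * u ^ 10 / (8 * C * K * (J + 1)) := ⟨_, rfl⟩
  have hT0 : 0 < T := by rw [hT]; positivity
  have hTe : 8 * C * K * (J + 1) * T = δ * u ^ 10 := by rw [hT]; field_simp
  have h10 : 0 ≤ u ^ 10 := by positivity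
  have hδL1 : δ * u ^ 10 ≤ u ^ 10 / 20 := by nlinarith
  have hT2 : C * P * T ≤ δ * u ^ 10 := by
    rw [← hTe]
    refine mul_le_mul_of_nonneg_right ?_ hT0.le
    have h1 : C * P ≤ C * K := by gcongr
    have h2 : 0 ≤ C * K * J := by positivity
    have h3 : 0 ≤ C * K := by positivity
    nlinarith
  refine ⟨T, hT, hT0, hTe, ?_, hT2, ?_, ?_, hδL1, ?_, ?_⟩
  · rw [hT, le_div_iff₀ (by positivity)]
    have h5 : u ^ 5 ≤ u ^ 9 := pow_le_pow_right₀ (by linarith) (by norm_num)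
    have h6 : lw ≤ 30 * u := by linarith
    have h7 : J + 1 ≤ u ^ 2 := by linarith
    calc C * lw * (8 * C * K * (J + 1)) ≤ C * (30 * u) * (8 * C * u ^ 2 * u ^ 2) := by gcongr
      _ = 240 * C ^ 2 * u ^ 5 := by ring
      _ ≤ δ * u * u ^ 9 := by gcongr
      _ = _ := by ring
  · have h1 : 0 ≤ P * T := by positivity
    have h2 := le_mul_of_one_le_left h1 hC
    rw [← mul_assoc] at h2
    linarith
  · have h1 : δ * u ≤ δ * u ^ 10 := by gcongr; exact le_self_pow₀ (by linarith) (by norm_num)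
    have h2 : 1 ≤ C ^ 2 := one_le_pow₀ hC
    linarith
  · have h3 : K ^ 2 ≤ (u ^ 2) ^ 2 := by gcongr
    have := pw8 hu 4 20 (by norm_num)
    have e : (u ^ 2) ^ 2 = u ^ 4 := by ring
    linarith
  · have h1 : 12 * K * (δ * u ^ 10) ≤ 12 * u ^ 2 * (u ^ 10 / 20) := by gcongr
    have := pw8 hu 12 20 (by norm_num)
    have : 0 ≤ u ^ 12 := by positivity
    have e : 12 * u ^ 2 * (u ^ 10 / 20) = 12 / 20 * u ^ 12 := by ring
    linarith

end M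

open M in
theorem may (hP : StmtEP) (hPT : PT) (hU : StmtU) (hLw : StmtLw) (h2 : StmtL2) (hN1 : StmtN1)
    (hN2 : StmtN2) (hV : StmtV) (hCh : StmtCh) : May := by
  obtain ⟨c, hc, hc1, CE, hCE, hE⟩ := hP hPT
  obtain ⟨C, hC, hV⟩ := hV
  have hC0 : 0 < C := by linarith
  have hδ : 0 < c / 20 := by positivity
  refine ⟨c / 20 * exp (-21) / (27648 * C ^ 4), by positivity, ?_⟩
  have hlim : Tendsto (fun x : ℕ => log x ^ (1 / 10 : ℝ)) atTop atTop :=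
    (tendsto_rpow_atTop (by norm_num)).comp (tendsto_log_atTop.comp tendsto_natCast_atTop_atTop)
  filter_upwards [hCh, hlim.eventually_ge_atTop 8, hlim.eventually_ge_atTop (256 * CE),
    hlim.eventually_ge_atTop (30 / c), hlim.eventually_ge_atTop (240 * C ^ 2 / (c / 20)),
    eventually_ge_atTop 1] with x hCh hu hu1 hu2 hu3 hx1 y hxy
  have hx0 : (0 : ℝ) < x := by exact_mod_cast hx1
  have hL0 : 0 ≤ log x := log_natCast_nonneg x
  obtain ⟨u, hud⟩ : ∃ u, u = log x ^ (1 / 10 : ℝ) := ⟨_, rfl⟩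
  rw [← hud] at hu hu1 hu2 hu3
  have hL : log x = u ^ 10 := by
    rw [hud, ← rpow_natCast, ← rpow_mul hL0]; norm_num
  clear hud hlim
  have hxe : (x : ℝ) = exp (u ^ 10) := by rw [← hL, exp_log hx0]
  have hu0 : 0 < u := by linarith
  have hu1' : 1 ≤ u := by linarith
  have hsq : √(log x) = u ^ 5 := by
    rw [hL, show u ^ 10 = (u ^ 5) ^ 2 by ring, sqrt_sq (by positivity)]
  have ht : tt x = 10 * log u := by rw [tt, hL, log_pow]; norm_num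
  have ht0 : 0 < tt x := by rw [ht]; have := log_pos (x := u) (by linarith); linarith
  have pw : ∀ m n : ℕ, m ≤ n → u ^ m ≤ u ^ n := fun m n h => pow_le_pow_right₀ hu1' h
  have h05 : 8 ≤ u ^ 5 := hu.trans (le_self_pow₀ hu1' (by norm_num))
  obtain ⟨K, J, hK1, hK0, hJ1, hJ3, hJ4⟩ := parK hu
  obtain ⟨w₂, hw1, hw16, hlw0, hlw⟩ := parW hu
  obtain ⟨δ, hδd⟩ : ∃ δ, δ = c / 20 := ⟨_, rfl⟩
  have hδ1 : δ ≤ 1 / 20 := by rw [hδd]; linarith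
  rw [← hδd] at hδ hu3 ⊢
  obtain ⟨T, hT, hT0, hTe, hT1, hT2, hT3, hδL, hδL1, hKw, hKw2⟩ :=
    parT hu hC hδ hδ1 hu3 hK1 hK0 (by positivity) hJ1 (Nat.cast_nonneg J) hJ3 hw1 hlw0 hlw
  rw [← ht] at hJ4 hlw
  have hR3 : 3 ≤ exp (δ * u ^ 10) := by
    have := add_one_le_exp (δ * u ^ 10); linarith only [this, hδL]
  obtain ⟨g1, g2, g3, g4, g5, g6⟩ := hV w₂ J T (exp (δ * u ^ 10)) (by omega) hT1
    (by rw [log_exp]; exact hT2) (by linarith only [hR3]) _ rfl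
  have hux : u ^ 10 ≤ (x : ℝ) := by rw [hxe]; have := add_one_le_exp (u ^ 10); linarith only [this]
  have hQm : ∀ ℓ ∈ (range (⌊u ^ 5⌋₊ + 1)).filter Nat.Prime, ℓ.Prime ∧ (ℓ : ℝ) ≤ u ^ 5 := by
    intro ℓ h
    obtain ⟨h1, h3⟩ := mem_filter.1 h
    exact ⟨h3, (Nat.le_floor_iff (by positivity)).1 (by have := mem_range.1 h1; omega)⟩
  have hRm : ∀ ℓ ∈ RRs w₂ (exp (2 ^ J * T)), ℓ.Prime ∧ w₂ ≤ ℓ ∧ ℓ ≤ x := by
    intro ℓ h
    obtain ⟨h1, h3⟩ := mem_filter.1 h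
    refine ⟨h3, (mem_Icc.1 h1).1, ?_⟩
    have h4 := (Nat.le_floor_iff (exp_pos _).le).1 (mem_Icc.1 h1).2
    have : (ℓ : ℝ) ≤ x := by rw [hxe]; exact h4.trans (exp_le_exp.2 hT3)
    exact_mod_cast this
  have hall : ∀ ℓ ∈ (range (⌊u ^ 5⌋₊ + 1)).filter Nat.Prime ∪ RRs w₂ (exp (2 ^ J * T)),
      ℓ.Prime ∧ ℓ ≤ x := by
    intro ℓ h
    rcases mem_union.1 h with h | h
    · refine ⟨(hQm ℓ h).1, ?_⟩
      have : (ℓ : ℝ) ≤ x := (hQm ℓ h).2.trans ((pw 5 10 (by norm_num)).trans hux)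
      exact_mod_cast this
    · exact ⟨(hRm ℓ h).1, (hRm ℓ h).2.2⟩
  have hQle := Q_le (u ^ 5) (by positivity)
  have hQ1 : 1 ≤ ∏ ℓ ∈ (range (⌊u ^ 5⌋₊ + 1)).filter Nat.Prime, (ℓ : ℝ) :=
    one_le_pr _ _ fun ℓ h => by exact_mod_cast (hQm ℓ h).1.one_lt.le
  have h510 : 64 * u ^ 5 ≤ u ^ 10 := by
    have h1 := pw8 hu 5 6 (by norm_num)
    have h3 := pw8 hu 6 10 (by norm_num)
    linarith only [h1, h3]
  have hM1 : 1 ≤ (∏ ℓ ∈ (range (⌊u ^ 5⌋₊ + 1)).filter Nat.Prime, (ℓ : ℝ)) * exp (δ * u ^ 10) ^ 2 :=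
    one_le_mul_of_one_le_of_one_le hQ1 (one_le_pow₀ (by linarith only [hR3]))
  have hM2 : (∏ ℓ ∈ (range (⌊u ^ 5⌋₊ + 1)).filter Nat.Prime, (ℓ : ℝ)) * exp (δ * u ^ 10) ^ 2 ≤
      exp (u ^ 10) :=
    calc _ ≤ exp (2 * u ^ 5) * exp (δ * u ^ 10) ^ 2 := by gcongr
      _ = exp (2 * u ^ 5 + 2 * (δ * u ^ 10)) := by rw [← exp_nat_mul, ← exp_add]; norm_num
      _ ≤ _ := exp_le_exp.2 (by linarith only [h510, h05, hδL1])
  have herr := err_le (δ := δ) hu hK1 (by linarith only [hQ1]) hQle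
  obtain ⟨W, w1, w2, w3⟩ := alg hU hLw h2 hN1 hN2 x y K w₂ _ (RRs w₂ (exp (2 ^ J * T)))
    (pr (4 * x) (16 * x)) (GG T J) (exp (δ * u ^ 10)) _ hx1 hxy
    (disjoint_left.2 fun ℓ h h' => by
      have h1 := (hQm ℓ h).2
      have h3 : (w₂ : ℝ) ≤ ℓ := by exact_mod_cast (hRm ℓ h').2.1
      have h4 := pw8 hu 5 20 (by norm_num)
      linarith only [h1, h3, h4, h05, hw1])
    hall (fun ℓ h => (hRm ℓ h).2.1) hw16
    (by exact_mod_cast hKw)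
    g1 g2 g3
    (by
      refine le_trans ?_ g6
      rw [le_div_iff₀ (by positivity), one_mul]
      have : (0 : ℝ) ≤ J * T := by positivity
      linarith only [this, hT1])
    hR3
    (by rw [log_exp]; exact hKw2)
    (by
      rw [log_exp, ← hTe]
      calc 8 * K * MM (GG T J) ≤ 8 * K * (C * (J + 1) * T * II (GG T J)) := by gcongr
        _ = _ := by ring)
    (fun p hp => by
      obtain ⟨h1, h3⟩ := mem_filter.1 hp
      exact ⟨h3, by have := (mem_Ioc.1 h1).1; omega⟩)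
    (by positivity)
    (hE (4 * x) (16 * x) _ _ (by omega) (by omega) hM1 fun ℓ h => (hall ℓ h).1)
    (by
      refine herr.trans ?_
      rw [hxe, ← exp_half]
      refine exp_le_exp.2 ?_
      linarith only [h510, h05, hδL1])
    (by
      refine le_trans ?_ hCh.2.1
      have h1 := e3_le hu hc hc1 hCE hu1 hu2 hM1 hM2
      rw [← hδd, ← hxe, ← hL] at h1
      refine le_trans ?_ h1
      push_cast
      rw [hL]
      gcongr)
  refine ⟨(range K).image hh, W, ?_, fun h hh' => ?_, w1, w2, fun q hq hxq => le_trans ?_ (w3 q hq hxq)⟩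
  · rw [hsq]
    have h1 : (((range K).image hh).card : ℝ) ≤ K := by
      exact_mod_cast card_image_le.trans (card_range K).le
    exact h1.trans (hK1.trans (pw 2 5 (by norm_num)))
  · obtain ⟨i, hi, rfl⟩ := mem_image.1 hh'
    have h1 : (i : ℝ) ≤ u ^ 2 := le_trans (by exact_mod_cast (mem_range.1 hi).le) hK1
    have h3 : (i : ℝ) ^ 2 ≤ (u ^ 2) ^ 2 := by gcongr
    rw [hsq, hh]
    push_cast
    have h4 := pw8 hu 4 5 (by norm_num)
    have h5 : 0 ≤ u ^ 4 := by positivity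
    have e : (u ^ 2) ^ 2 = u ^ 4 := by ring
    linarith only [h3, h4, h5, e]
  · have hy0 : (0 : ℝ) < y := lt_of_lt_of_le hx0 (by exact_mod_cast hxy)
    refine fin_le (L := u ^ 10) (T := T) (J := J + 1) hx0.le hy0 (by positivity)
      ht0 hK0 hJ4 hC hδ hT (hL ▸ hCh.2.1) ?_ hlw0 hlw (by linarith only [g3]) g4 g6
    have h1 := pi_ge (u ^ 5) (by linarith only [h05])
    rw [log_pow] at h1
    rw [ht]
    refine le_trans (le_of_eq ?_) h1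
    push_cast; ring

end Vale.Agent.N013L
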