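import Vale.Agent.N013L.Def

/-! The sieve weights from the algebraic blocks, with explicit numerical hypotheses. -/

namespace Vale.Agent.N013L.M

open Finset Real

theorem abs_psi {K : ℕ} (ℓ : ℕ) (p n : ℤ) (o : Option (Fin K)) : |psi ℓ p n o| ≤ 1 := by
  have h0 : (0 : ℝ) ≤ 1 / (ℓ : ℝ) := by positivity
  have h1 : 1 / (ℓ : ℝ) ≤ 1 := by
    rcases Nat.eq_zero_or_pos ℓ with rfl | h
    · simp
    · rw [div_le_one (by exact_mod_cast h)]; exact_mod_cast h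
  cases o with
  | none => simp [psi]
  | some i =>
    simp only [psi]
    split_ifs <;> rw [abs_le] <;> constructor <;> linarith

theorem chi_mem (K ℓ : ℕ) (p n : ℤ) : 0 ≤ chi K ℓ p n ∧ chi K ℓ p n ≤ 1 := by
  unfold chi; split_ifs <;> simp

theorem W0_mem (QQ RR : Finset ℕ) (K : ℕ) (c : Cf RR K → ℝ) (p n : ℤ) :
    0 ≤ W0 QQ RR K c p n ∧ W0 QQ RR K c p n ≤ (∑ σ, |c σ|) ^ 2 := by
  have h0 : 0 ≤ ∏ ℓ ∈ QQ, chi K ℓ p n := prod_nonneg fun ℓ _ => (chi_mem K ℓ p n).1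
  have h1 : ∏ ℓ ∈ QQ, chi K ℓ p n ≤ 1 :=
    prod_le_one (fun ℓ _ => (chi_mem K ℓ p n).1) fun ℓ _ => (chi_mem K ℓ p n).2
  refine ⟨mul_nonneg h0 (sq_nonneg _), ?_⟩
  have h2 : |∑ σ, c σ * ∏ ℓ : RR, psi ℓ p n (σ ℓ)| ≤ ∑ σ, |c σ| := by
    refine (abs_sum_le_sum_abs _ _).trans (sum_le_sum fun σ _ => ?_)
    rw [abs_mul, abs_prod]
    exact mul_le_of_le_one_right (abs_nonneg _)
      (prod_le_one (fun ℓ _ => abs_nonneg _) fun ℓ _ => abs_psi _ _ _ _)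
  have h3 : (∑ σ, c σ * ∏ ℓ : RR, psi ℓ p n (σ ℓ)) ^ 2 ≤ (∑ σ, |c σ|) ^ 2 := by
    rw [← sq_abs]
    exact pow_le_pow_left₀ (abs_nonneg _) h2 2
  unfold W0
  exact (mul_le_of_le_one_left (sq_nonneg _) h1).trans h3

theorem SS_ge (h2 : StmtL2) (QQ : Finset ℕ) (K : ℕ) (hQ : ∀ ℓ ∈ QQ, ℓ.Prime) :
    1 / ∏ ℓ ∈ QQ, (ℓ : ℝ) ≤ SS QQ K := by
  rw [SS, one_div, ← prod_inv_distrib]
  refine prod_le_prod (fun ℓ _ => by positivity) fun ℓ hℓ => ?_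
  have h := (h2 K ℓ (hQ ℓ hℓ)).1
  have h0 : (0 : ℝ) < ℓ := by exact_mod_cast (hQ ℓ hℓ).pos
  have h1 : (nu K ℓ : ℝ) + 1 ≤ ℓ := by exact_mod_cast h
  rw [inv_eq_one_div, le_sub_iff_add_le, ← add_div, div_le_one h0]
  linarith

theorem hh_inj : Function.Injective hh := by
  intro i j h
  unfold hh at h
  have : i ^ 2 = j ^ 2 := by omega
  exact Nat.pow_left_injective (by norm_num) this

theorem one_le_pr (s : Finset ℕ) (f : ℕ → ℝ) (h : ∀ i ∈ s, 1 ≤ f i) : 1 ≤ ∏ i ∈ s, f i := by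
  have := prod_le_prod (s := s) (f := fun _ => (1 : ℝ)) (g := f) (fun _ _ => zero_le_one) h
  simpa using this

theorem r1 {B Q R x y S I : ℝ} (hB : 0 ≤ B) (hQ : 1 ≤ Q) (hR : 1 ≤ R) (hx : 1 ≤ x) (hxy : x ≤ y)
    (hSQ : 1 ≤ S * Q) (hI : 1 ≤ I) (e0 : B * Q ^ 2 * R ≤ √x) :
    B * √x ≤ 2 * ((2 * y + 1) * S * I) ∧ B * (Q * R) ≤ (2 * y + 1) * S * I := by
  have hQ0 : 0 < Q := by linarith
  have hsx : √x * √x = x := mul_self_sqrt (by linarith)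
  have hsx1 : 1 ≤ √x := one_le_sqrt.2 hx
  have hsx2 : √x ≤ x := by nlinarith
  have h1 : 1 ≤ S * Q * I := one_le_mul_of_one_le_of_one_le hSQ hI
  have hNQ : 2 * y ≤ (2 * y + 1) * S * I * Q := by
    have : (2 * y + 1) * S * I * Q = (2 * y + 1) * (S * Q * I) := by ring
    rw [this]
    have := le_mul_of_one_le_right (a := 2 * y + 1) (by linarith) h1
    linarith
  have h2 : 1 ≤ R * Q := one_le_mul_of_one_le_of_one_le hR hQ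
  have hBQ1 : B * Q ≤ √x := by
    have := le_mul_of_one_le_right (mul_nonneg hB hQ0.le) h2
    calc B * Q ≤ B * Q * (R * Q) := this
      _ = B * Q ^ 2 * R := by ring
      _ ≤ _ := e0
  constructor
  · refine le_of_mul_le_mul_right ?_ hQ0
    calc B * √x * Q = B * Q * √x := by ring
      _ ≤ √x * √x := mul_le_mul_of_nonneg_right hBQ1 (by linarith)
      _ ≤ 2 * ((2 * y + 1) * S * I * Q) := by linarith
      _ = _ := by ring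
  · refine le_of_mul_le_mul_right ?_ hQ0
    calc B * (Q * R) * Q = B * Q ^ 2 * R := by ring
      _ ≤ _ := by linarith

theorem r2 {B Q R E P S Pi A N c2 T J I I' y : ℝ} (hQ : 1 ≤ Q) (hR : 1 ≤ R) (hE : 0 ≤ E) (hP : 0 ≤ P)
    (hS : 0 < S) (hSQ : 1 ≤ S * Q) (hPi : 1 ≤ Pi) (hA : A = J ^ 2 * I') (hJ : 1 ≤ J) (hI' : 1 ≤ I')
    (hI : 1 ≤ I) (hy : 1 ≤ y) (h3 : A / 8 ≤ N) (hc : c2 ≤ B) (e3 : 16 * (B * Q ^ 2 * R) * E ≤ P)
    (h1 : P * S * Pi * N - c2 * (Q * R) * E ≤ T) :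
    P * Pi * J ^ 2 / (96 * y * I) ≤ T / (2 * ((2 * y + 1) * S * (I' * I))) := by
  have hQ0 : 0 < Q := by linarith
  have hA1 : 1 ≤ A := hA ▸ one_le_mul_of_one_le_of_one_le (one_le_pow₀ hJ) hI'
  have h4 : P * S * Pi * (A / 8) ≤ P * S * Pi * N := mul_le_mul_of_nonneg_left h3 (by positivity)
  have h5 : c2 * (Q * R) * E ≤ B * (Q * R) * E :=
    mul_le_mul_of_nonneg_right (mul_le_mul_of_nonneg_right hc (by positivity)) hE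
  have h6 : B * (Q * R) * E * Q ≤ P * S * Pi * (A / 16) * Q := by
    have e1 : B * (Q * R) * E * Q = 16 * (B * Q ^ 2 * R) * E / 16 := by ring
    have e2 : P * S * Pi * (A / 16) * Q = P * (S * Q * (Pi * A)) / 16 := by ring
    have h7 : 1 ≤ S * Q * (Pi * A) :=
      one_le_mul_of_one_le_of_one_le hSQ (one_le_mul_of_one_le_of_one_le hPi hA1)
    rw [e1, e2]
    have := le_mul_of_one_le_right hP h7
    linarith
  have h7 := le_of_mul_le_mul_right h6 hQ0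
  have h8 : P * S * Pi * (A / 16) ≤ T := by linarith
  rw [div_le_div_iff₀ (by positivity) (by positivity)]
  calc P * Pi * J ^ 2 * (2 * ((2 * y + 1) * S * (I' * I)))
      = P * S * Pi * (A / 16) * (32 * (2 * y + 1) * I) := by rw [hA]; ring
    _ ≤ P * S * Pi * (A / 16) * (96 * y * I) := by
        refine mul_le_mul_of_nonneg_left ?_ (by positivity)
        refine mul_le_mul_of_nonneg_right (by linarith) (by linarith)
    _ ≤ _ := mul_le_mul_of_nonneg_right h8 (by positivity)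

theorem alg (hU : StmtU) (hLw : StmtLw) (h2 : StmtL2) (hN1 : StmtN1) (hN2 : StmtN2)
    (x y K w₂ : ℕ) (QQ RR PP : Finset ℕ) (G : Finset RR → ℝ) (R Err : ℝ) (hx : 1 ≤ x) (hxy : x ≤ y)
    (hd : Disjoint QQ RR) (hQ : ∀ ℓ ∈ QQ ∪ RR, ℓ.Prime ∧ ℓ ≤ x) (hR : ∀ ℓ ∈ RR, w₂ ≤ ℓ)
    (hw : 16 ≤ w₂) (hK : 8 * K ^ 2 ≤ w₂) (hG : ∀ S, 0 ≤ G S ∧ G S ≤ 2) (hanti : Antitone G)
    (hI : 1 ≤ II G) (hJ : 1 ≤ JJ G R) (hR3 : 3 ≤ R) (hKR : 12 * K * log R ≤ w₂)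
    (hM : 8 * K * MM G ≤ II G * log R) (hP : ∀ p ∈ PP, p.Prime ∧ x < p) (hErr : 0 ≤ Err)
    (hE : Equi (PP.image fun p : ℕ => (p : ℤ)) (fun ℓ => Ico 1 ℓ) (QQ ∪ RR)
      ((∏ ℓ ∈ QQ, (ℓ : ℝ)) * R ^ 2) Err)
    (e0 : (2 ^ K * 3 * R ^ 2) ^ 2 * (∏ ℓ ∈ QQ, (ℓ : ℝ)) ^ 2 * R ^ 2 ≤ √x)
    (e3 : 16 * ((2 ^ K * 3 * R ^ 2) ^ 2 * (∏ ℓ ∈ QQ, (ℓ : ℝ)) ^ 2 * R ^ 2) * Err ≤ PP.card) :
    ∃ W : ℕ → ℤ → ℝ, (∀ p n, 0 ≤ W p n ∧ W p n ≤ 1 / √x) ∧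
      (∀ p ∈ PP, ∑ n ∈ Icc (-(y : ℤ)) y, W p n ≤ 1) ∧
      ∀ q : ℕ, q.Prime → x < q →
        K * PP.card * (∏ ℓ ∈ QQ, (1 - 1 / (ℓ : ℝ))⁻¹) * JJ G R ^ 2 / (96 * y * II G) ≤
          ∑ p ∈ PP, ∑ h ∈ (range K).image hh, W p ((q : ℤ) - (h : ℤ) * p) := by
  set c : Cf RR K → ℝ := cG K G R with hc
  set Q : ℝ := ∏ ℓ ∈ QQ, (ℓ : ℝ) with hQd
  set B : ℝ := (2 ^ K * 3 * R ^ 2) ^ 2 with hB
  set Pi : ℝ := ∏ ℓ ∈ QQ, (1 - 1 / (ℓ : ℝ))⁻¹ with hPi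
  have hQp : ∀ ℓ ∈ QQ, ℓ.Prime := fun ℓ h => (hQ ℓ (mem_union_left _ h)).1
  have hQ1 : 1 ≤ Q := one_le_pr _ _ fun ℓ h => by exact_mod_cast (hQp ℓ h).one_lt.le
  have hQ0 : 0 < Q := by linarith
  have hR1 : 1 ≤ R := by linarith
  have hR2 : 1 ≤ R ^ 2 := one_le_pow₀ hR1
  have hS : 1 / Q ≤ SS QQ K := SS_ge h2 QQ K hQp
  have hS0 : 0 < SS QQ K := lt_of_lt_of_le (by positivity) hS
  have hSQ : 1 ≤ SS QQ K * Q := by rwa [div_le_iff₀ hQ0] at hS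
  have hPi1 : 1 ≤ Pi := by
    refine one_le_pr _ _ fun ℓ h => ?_
    have h2' : (2 : ℝ) ≤ ℓ := by exact_mod_cast (hQp ℓ h).two_le
    have h3 : 1 / (ℓ : ℝ) ≤ 1 / 2 := one_div_le_one_div_of_le (by norm_num) h2'
    have h4 : 0 < 1 / (ℓ : ℝ) := by positivity
    exact (one_le_inv₀ (by linarith)).2 (by linarith)
  have hK2 : 2 * K ≤ w₂ := by nlinarith
  obtain ⟨n1, n3⟩ := hN1 RR K w₂ G R (by omega) hK2 hR hG hR1
  have hsum0 : 0 ≤ ∑ σ, |c σ| := sum_nonneg fun _ _ => abs_nonneg _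
  have hcB : (∑ σ, |c σ|) ^ 2 ≤ B := pow_le_pow_left₀ hsum0 n3 2
  have hB0 : 0 ≤ B := sq_nonneg _
  have hsupp : ∀ σ, c σ ≠ 0 → rad σ ≤ R := by
    intro σ h
    by_contra h'
    exact h (by simp [hc, cG, h'])
  have hRK : ∀ ℓ ∈ RR, 4 * K ^ 2 < ℓ := fun ℓ h => by have := hR ℓ h; omega
  have hx1 : (1 : ℝ) ≤ x := by exact_mod_cast hx
  have hxy' : (x : ℝ) ≤ y := by exact_mod_cast hxy
  have hsx1 : 1 ≤ √(x : ℝ) := one_le_sqrt.2 hx1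
  have hIK : 1 ≤ II G ^ K := one_le_pow₀ hI
  obtain ⟨a1, a2⟩ := r1 hB0 hQ1 hR2 hx1 hxy' hSQ hIK e0
  have hN0 : 0 < 2 * ((2 * y + 1) * SS QQ K * II G ^ K) := by positivity
  refine ⟨fun p n => W0 QQ RR K c p n / (2 * ((2 * y + 1) * SS QQ K * II G ^ K)),
    fun p n => ⟨div_nonneg (W0_mem _ _ _ _ _ _).1 hN0.le, ?_⟩, fun p hp => ?_, fun q hq hxq => ?_⟩
  · rw [div_le_div_iff₀ hN0 (by linarith), one_mul]
    have h1 : W0 QQ RR K c p n ≤ B := (W0_mem _ _ _ _ _ _).2.trans hcB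
    exact (mul_le_mul_of_nonneg_right h1 (by linarith)).trans a1
  · rw [← sum_div, div_le_one hN0]
    have h1 := hU QQ RR K R c y p hd (hP p hp).1
      (fun ℓ h => ⟨(hQ ℓ h).1, lt_of_le_of_lt (hQ ℓ h).2 (hP p hp).2⟩) hRK hsupp hR1
    have h3 : (2 * y + 1) * SS QQ K * ∑ σ, c σ ^ 2 / rad σ ≤ (2 * y + 1) * SS QQ K * II G ^ K :=
      mul_le_mul_of_nonneg_left n1 (by positivity)
    have h4 : (∑ σ, |c σ|) ^ 2 * (Q * R ^ 2) ≤ B * (Q * R ^ 2) :=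
      mul_le_mul_of_nonneg_right hcB (by positivity)
    exact h1.trans ((add_le_add h3 (h4.trans a2)).trans (le_of_eq (two_mul _).symm))
  · rw [sum_comm, sum_image fun i _ j _ h => hh_inj h, sum_range]
    have key : ∀ m : Fin K, PP.card * Pi * JJ G R ^ 2 / (96 * y * II G) ≤
        ∑ p ∈ PP, W0 QQ RR K c p ((q : ℤ) - (hh m : ℤ) * p) /
          (2 * ((2 * y + 1) * SS QQ K * II G ^ K)) := by
      intro m
      have hK1 : 1 ≤ K := m.pos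
      have h1 := hLw QQ RR PP K R Err c q m hd hq
        (fun ℓ h => ⟨(hQ ℓ h).1, lt_of_le_of_lt (hQ ℓ h).2 hxq⟩)
        (fun p hp => ⟨(hP p hp).1, fun ℓ h => lt_of_le_of_lt (hQ ℓ h).2 (hP p hp).2⟩) hRK hsupp hR1
        hErr hE
      have h3 := hN2 RR K w₂ G R m hw hK hR (fun S => (hG S).1) hanti hI hR3 hKR hM
      have e4 : II G ^ K = II G ^ (K - 1) * II G := by rw [← pow_succ]; congr 1; omega
      rw [← sum_div, e4]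
      exact r2 hQ1 hR2 hErr (Nat.cast_nonneg _) hS0 hSQ hPi1 rfl hJ (one_le_pow₀ hI) hI
        (by linarith) h3 hcB e3 h1
    refine le_trans (le_of_eq ?_) (sum_le_sum fun m _ => key m)
    rw [sum_const, card_univ, Fintype.card_fin, nsmul_eq_mul]
    ring

end Vale.Agent.N013L.M
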