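import Vale.Agent.N013L.Def

/-! Block N2: the lower bound for the collapsed quadratic form. -/

namespace Vale.Agent.N013L

open Finset Real

namespace N2

theorem one_sub_sum_le {ι : Type} (s : Finset ι) (u : ι → ℝ) (h0 : ∀ i ∈ s, 0 ≤ u i)
    (h1 : ∀ i ∈ s, u i ≤ 1) : 1 - ∑ i ∈ s, u i ≤ ∏ i ∈ s, (1 - u i) := by
  classical
  induction s using Finset.induction_on with
  | empty => simp
  | insert a s ha ih =>
    rw [sum_insert ha, prod_insert ha]
    have h2 := ih (fun i hi => h0 i (mem_insert_of_mem hi)) (fun i hi => h1 i (mem_insert_of_mem hi))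
    have h3 := h0 a (mem_insert_self _ _)
    have h4 := h1 a (mem_insert_self _ _)
    have h5 : 0 ≤ ∑ i ∈ s, u i := sum_nonneg fun i hi => h0 i (mem_insert_of_mem hi)
    nlinarith [mul_le_mul_of_nonneg_left h2 (sub_nonneg.2 h4), mul_nonneg h3 h5]

variable {RR : Finset ℕ} {K : ℕ}

theorem rad_eq (τ : Cf RR K) : rad τ = ∏ i, rr (fib τ i) := by
  unfold rad rr fib
  simp only [prod_filter]
  rw [prod_comm]
  refine prod_congr rfl fun ℓ _ => ?_
  cases h : τ ℓ with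
  | none => simp
  | some j =>
    simp only [reduceCtorEq, if_false, Option.some.injEq]
    rw [prod_ite_eq]
    simp

theorem one_le_rr (h : ∀ ℓ ∈ RR, 1 ≤ ℓ) (S : Finset RR) : 1 ≤ rr S :=
  Finset.one_le_prod fun ℓ _ => by exact_mod_cast h ℓ ℓ.2

theorem one_le_rad (h : ∀ ℓ ∈ RR, 1 ≤ ℓ) (τ : Cf RR K) : 1 ≤ rad τ := by
  rw [rad_eq]
  exact Finset.one_le_prod fun i _ => one_le_rr h _

/-- the primes used by `τ` -/
def supp (τ : Cf RR K) : Finset RR := univ.filter fun ℓ => τ ℓ ≠ none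

theorem card_supp (h : ∀ ℓ ∈ RR, 3 ≤ ℓ) (τ : Cf RR K) : ((supp τ).card : ℝ) ≤ log (rad τ) := by
  have h3 : ∀ ℓ : RR, (3 : ℝ) ≤ ((ℓ : ℕ) : ℝ) := fun ℓ => by exact_mod_cast h ℓ ℓ.2
  unfold rad supp
  rw [Real.log_prod, card_filter]
  · push_cast
    refine sum_le_sum fun ℓ _ => ?_
    by_cases hτ : τ ℓ = none
    · simp [hτ]
    · simp only [ne_eq, hτ, not_false_eq_true, if_true, if_false]
      rw [Real.le_log_iff_exp_le (by linarith [h3 ℓ])]
      linarith [Real.exp_one_lt_d9, h3 ℓ]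
  · intro ℓ _
    split_ifs
    · exact one_ne_zero
    · linarith [h3 ℓ]

theorem sum_mem_le (h : ∀ ℓ ∈ RR, 1 ≤ ℓ) {g : Finset RR → ℝ} (g0 : ∀ S, 0 ≤ g S)
    (ga : Antitone g) (ℓ : RR) :
    ∑ S, (if ℓ ∈ S then g S / rr S else 0) ≤ 1 / ((ℓ : ℕ) : ℝ) * ∑ S, g S / rr S := by
  have hl : (1 : ℝ) ≤ ((ℓ : ℕ) : ℝ) := by exact_mod_cast h ℓ ℓ.2
  have hr : ∀ S : Finset RR, 0 < rr S := fun S => one_pos.trans_le (one_le_rr h S)
  rw [← sum_filter, mul_sum]
  calc ∑ S ∈ univ.filter (fun S : Finset RR => ℓ ∈ S), g S / rr S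
      ≤ ∑ S ∈ univ.filter (fun S : Finset RR => ℓ ∈ S),
          1 / ((ℓ : ℕ) : ℝ) * (g (S.erase ℓ) / rr (S.erase ℓ)) := by
        refine sum_le_sum fun S hS => ?_
        have h1 : rr S = ((ℓ : ℕ) : ℝ) * rr (S.erase ℓ) :=
          (mul_prod_erase S (fun ℓ : RR => ((ℓ : ℕ) : ℝ)) (mem_filter.1 hS).2).symm
        rw [h1, div_mul_div_comm, one_mul]
        exact div_le_div_of_nonneg_right (ga (erase_subset ℓ S)) (mul_pos (by linarith) (hr _)).le
    _ = ∑ S ∈ (univ.filter (fun S : Finset RR => ℓ ∈ S)).image (fun S => S.erase ℓ),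
          1 / ((ℓ : ℕ) : ℝ) * (g S / rr S) := by
        rw [sum_image]
        intro S hS T hT hST
        have h1 := (mem_filter.1 (mem_coe.1 hS)).2
        have h2 := (mem_filter.1 (mem_coe.1 hT)).2
        rw [← insert_erase h1, ← insert_erase h2]
        exact congrArg _ hST
    _ ≤ _ := sum_le_sum_of_subset_of_nonneg (subset_univ _) fun S _ _ =>
        mul_nonneg (by positivity) (div_nonneg (g0 S) (hr S).le)

theorem sum_disj (h : ∀ ℓ ∈ RR, 1 ≤ ℓ) {g : Finset RR → ℝ} (g0 : ∀ S, 0 ≤ g S)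
    (ga : Antitone g) (D : Finset RR) :
    (1 - ∑ ℓ ∈ D, 1 / ((ℓ : ℕ) : ℝ)) * ∑ S, g S / rr S ≤
      ∑ S ∈ univ.filter (fun S => Disjoint S D), g S / rr S := by
  have hr : ∀ S : Finset RR, 0 ≤ g S / rr S := fun S =>
    div_nonneg (g0 S) (zero_le_one.trans (one_le_rr h S))
  have h1 : ∑ S, g S / rr S ≤ ∑ S, ((if Disjoint S D then g S / rr S else 0) +
      ∑ ℓ ∈ D, if ℓ ∈ S then g S / rr S else 0) := by
    refine sum_le_sum fun S _ => ?_
    have h2 : ∀ ℓ ∈ D, 0 ≤ (if ℓ ∈ S then g S / rr S else 0) := fun ℓ _ => by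
      split_ifs
      exacts [hr S, le_rfl]
    by_cases hd : Disjoint S D
    · rw [if_pos hd]
      linarith [sum_nonneg h2]
    · obtain ⟨ℓ, h3, h4⟩ := not_disjoint_iff.1 hd
      have h5 := single_le_sum h2 h4
      rw [if_pos h3] at h5
      rw [if_neg hd]
      linarith
  rw [sum_add_distrib, sum_comm, ← sum_filter] at h1
  have h2 : ∑ ℓ ∈ D, ∑ S, (if ℓ ∈ S then g S / rr S else 0) ≤
      ∑ ℓ ∈ D, 1 / ((ℓ : ℕ) : ℝ) * ∑ S, g S / rr S := sum_le_sum fun ℓ _ => sum_mem_le h g0 ga ℓ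
  rw [← sum_mul] at h2
  linarith

/-- `τ` with the primes of `S` given to the form `m` -/
def up (m : Fin K) (τ : Cf RR K) (S : Finset RR) : Cf RR K :=
  fun ℓ => if ℓ ∈ S then some m else τ ℓ

theorem ne_of_fib {m : Fin K} {τ : Cf RR K} (hm : fib τ m = ∅) (ℓ : RR) : τ ℓ ≠ some m := by
  intro h
  have : ℓ ∈ fib τ m := mem_filter.2 ⟨mem_univ _, h⟩
  rw [hm] at this
  exact notMem_empty _ this

theorem fib_up_self {m : Fin K} {τ : Cf RR K} (hm : fib τ m = ∅) (S : Finset RR) :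
    fib (up m τ S) m = S := by
  ext ℓ
  have := ne_of_fib hm ℓ
  by_cases h : ℓ ∈ S <;> simp [fib, up, h, this]

theorem none_of_disj {τ : Cf RR K} {S : Finset RR} (hd : Disjoint S (supp τ)) {ℓ : RR}
    (h : ℓ ∈ S) : τ ℓ = none := by
  by_contra h1
  exact disjoint_left.1 hd h (mem_filter.2 ⟨mem_univ _, h1⟩)

theorem fib_up_ne {m i : Fin K} (hi : i ≠ m) {τ : Cf RR K} {S : Finset RR}
    (hd : Disjoint S (supp τ)) : fib (up m τ S) i = fib τ i := by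
  ext ℓ
  simp only [fib, mem_filter, mem_univ, true_and]
  unfold up
  by_cases h : ℓ ∈ S
  · rw [if_pos h, none_of_disj hd h]
    simp [hi.symm]
  · rw [if_neg h]

theorem ph_nonneg (m : Fin K) (ℓ : ℕ) (o v : Option (Fin K)) : 0 ≤ ph m ℓ o v := by
  unfold ph
  split_ifs <;> positivity

theorem prod_ph {m : Fin K} {τ : Cf RR K} (hm : fib τ m = ∅) {S : Finset RR}
    (hd : Disjoint S (supp τ)) : ∏ ℓ : RR, ph m ℓ (up m τ S ℓ) (τ ℓ) = 1 / rr S := by
  have h1 : ∀ ℓ : RR, ph m ℓ (up m τ S ℓ) (τ ℓ) = if ℓ ∈ S then 1 / ((ℓ : ℕ) : ℝ) else 1 := by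
    intro ℓ
    by_cases h : ℓ ∈ S
    · simp [ph, up, h, none_of_disj hd h]
    · simp [ph, up, h, ne_of_fib hm ℓ]
  simp only [h1]
  rw [← prod_filter, filter_mem_eq_inter, univ_inter, prod_div_distrib, prod_const_one]
  rfl

theorem inner_ge (h : ∀ ℓ ∈ RR, 1 ≤ ℓ) {G : Finset RR → ℝ} (G0 : ∀ S, 0 ≤ G S) {R : ℝ}
    {m : Fin K} {τ : Cf RR K} (hm : fib τ m = ∅) (hτ : rad τ ^ 2 ≤ R) :
    (∏ i ∈ univ.erase m, G (fib τ i)) *
        ∑ S ∈ univ.filter (fun S => Disjoint S (supp τ)), (if rr S ^ 2 ≤ R then G S else 0) / rr S ≤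
      ∑ σ, cG K G R σ * ∏ ℓ : RR, ph m ℓ (σ ℓ) (τ ℓ) := by
  have hA : 0 ≤ ∏ i ∈ univ.erase m, G (fib τ i) := prod_nonneg fun i _ => G0 _
  have hc : ∀ σ : Cf RR K, 0 ≤ cG K G R σ := fun σ => by
    unfold cG
    split_ifs
    exacts [prod_nonneg fun i _ => G0 _, le_rfl]
  rw [mul_sum]
  calc _ ≤ ∑ S ∈ univ.filter (fun S => Disjoint S (supp τ)),
          cG K G R (up m τ S) * ∏ ℓ : RR, ph m ℓ (up m τ S ℓ) (τ ℓ) := by
        refine sum_le_sum fun S hS => ?_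
        have hd := (mem_filter.1 hS).2
        have h1 := one_le_rr h S
        rw [prod_ph hm hd, mul_one_div, ← mul_div_assoc]
        refine div_le_div_of_nonneg_right ?_ (by linarith)
        split_ifs with h2
        · have h3 : rad (up m τ S) = rr S * rad τ := by
            rw [rad_eq, rad_eq, ← mul_prod_erase _ _ (mem_univ m), ← mul_prod_erase _ _ (mem_univ m),
              fib_up_self hm, hm]
            have h4 : rr (∅ : Finset RR) = 1 := prod_empty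
            rw [h4, one_mul]
            exact congrArg _ (prod_congr rfl fun i hi => by rw [fib_up_ne (ne_of_mem_erase hi) hd])
          have h4 : rad (up m τ S) ≤ R := by
            rw [h3]
            nlinarith [sq_nonneg (rr S - rad τ)]
          unfold cG
          rw [if_pos h4, ← mul_prod_erase _ _ (mem_univ m), fib_up_self hm, mul_comm]
          exact le_of_eq (congrArg _
            (prod_congr rfl fun i hi => by rw [fib_up_ne (ne_of_mem_erase hi) hd]))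
        · rw [mul_zero]
          exact hc _
    _ = ∑ σ ∈ (univ.filter (fun S => Disjoint S (supp τ))).image (up m τ),
          cG K G R σ * ∏ ℓ : RR, ph m ℓ (σ ℓ) (τ ℓ) := by
        rw [sum_image]
        intro S _ T _ hST
        rw [← fib_up_self hm S, ← fib_up_self hm T, hST]
    _ ≤ _ := sum_le_sum_of_subset_of_nonneg (subset_univ _) fun σ _ _ =>
        mul_nonneg (hc σ) (prod_nonneg fun ℓ _ => ph_nonneg _ _ _ _)

theorem sum_inv_sq {w : ℕ} (hw : 1 ≤ w) (h : ∀ ℓ ∈ RR, w ≤ ℓ) :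
    ∑ ℓ : RR, (2 : ℝ) / ((ℓ : ℕ) : ℝ) ^ 2 ≤ (4 : ℝ) / w := by
  have h1 := sum_Ioo_inv_sq_le (α := ℝ) (w - 1) (RR.sup id + 1)
  have h2 : ((w - 1 : ℕ) : ℝ) + 1 = w := by
    rw [Nat.cast_sub hw]
    simp
  rw [h2] at h1
  have h3 : ∑ ℓ ∈ RR, ((ℓ : ℝ) ^ 2)⁻¹ ≤ ∑ i ∈ Ioo (w - 1) (RR.sup id + 1), ((i : ℝ) ^ 2)⁻¹ := by
    refine sum_le_sum_of_subset_of_nonneg (fun ℓ hℓ => ?_) fun i _ _ => by positivity
    have h4 := h ℓ hℓ
    have h5 : ℓ ≤ RR.sup id := le_sup (f := id) hℓ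
    rw [mem_Ioo]
    omega
  rw [sum_coe_sort RR (fun ℓ : ℕ => (2 : ℝ) / (ℓ : ℝ) ^ 2)]
  simp only [div_eq_mul_inv] at h1 ⊢
  rw [← mul_sum]
  linarith

theorem aa_nonneg {w : ℕ} (hw : 2 ≤ w) (hK : 3 * K ≤ w) {ℓ : ℕ} (h : w ≤ ℓ) (m : Fin K)
    (o : Option (Fin K)) : 0 ≤ aa m ℓ o := by
  have h1 : (2 : ℝ) ≤ ℓ := by exact_mod_cast hw.trans h
  have h2 : (3 : ℝ) * K ≤ ℓ := by exact_mod_cast hK.trans h
  cases o with
  | none =>
    simp only [aa]
    rw [sub_nonneg, div_le_one (by positivity)]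
    nlinarith
  | some j =>
    simp only [aa]
    split_ifs
    · exact le_rfl
    · refine mul_nonneg (by positivity) ?_
      rw [sub_nonneg, div_le_one (by positivity)]
      exact h2

theorem prod_aa {w : ℕ} (hw : 16 ≤ w) (hK : 3 * K ≤ w) (h : ∀ ℓ ∈ RR, w ≤ ℓ) {m : Fin K}
    {τ : Cf RR K} (hm : fib τ m = ∅) (hc : 12 * K * ((supp τ).card : ℝ) ≤ w) :
    1 / 2 / rad τ ≤ ∏ ℓ : RR, aa m ℓ (τ ℓ) := by
  have hw' : (16 : ℝ) ≤ w := by exact_mod_cast hw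
  have hl : ∀ ℓ : RR, (w : ℝ) ≤ ((ℓ : ℕ) : ℝ) := fun ℓ => by exact_mod_cast h ℓ ℓ.2
  have hK' : (3 : ℝ) * K ≤ w := by exact_mod_cast hK
  set u : RR → ℝ := fun ℓ => if τ ℓ = none then 2 / ((ℓ : ℕ) : ℝ) ^ 2 else 3 * K / ((ℓ : ℕ) : ℝ)
    with hu
  have h1 : ∀ ℓ : RR, aa m ℓ (τ ℓ) = (1 - u ℓ) / if τ ℓ = none then 1 else ((ℓ : ℕ) : ℝ) := by
    intro ℓ
    have h2 := ne_of_fib hm ℓ
    cases h3 : τ ℓ with
    | none => simp [aa, hu, h3]
    | some j =>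
      have h4 : j ≠ m := fun h5 => h2 (by rw [h3, h5])
      simp only [aa, hu, h3, if_neg h4, reduceCtorEq, if_false]
      ring
  simp only [h1]
  rw [prod_div_distrib]
  have h2 : 1 ≤ rad τ := one_le_rad (fun ℓ hℓ => by have := h ℓ hℓ; omega) τ
  refine div_le_div_of_nonneg_right ?_ (zero_le_one.trans h2)
  refine le_trans ?_ (one_sub_sum_le univ u (fun ℓ _ => ?_) (fun ℓ _ => ?_))
  · have h3 : ∑ ℓ, u ℓ ≤ ∑ ℓ : RR, (2 / ((ℓ : ℕ) : ℝ) ^ 2 + if τ ℓ ≠ none then 3 * K / (w : ℝ) else 0) := by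
      refine sum_le_sum fun ℓ _ => ?_
      have h4 := hl ℓ
      by_cases h5 : τ ℓ = none
      · simp [hu, h5]
      · simp only [hu, h5, if_false, ne_eq, not_false_eq_true, if_true]
        have h6 : 3 * (K : ℝ) / ((ℓ : ℕ) : ℝ) ≤ 3 * K / w :=
          div_le_div_of_nonneg_left (by positivity) (by linarith) h4
        have h7 : 0 ≤ 2 / ((ℓ : ℕ) : ℝ) ^ 2 := by positivity
        linarith
    rw [sum_add_distrib, ← sum_filter, sum_const, nsmul_eq_mul] at h3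
    have h4 := sum_inv_sq (by omega) h
    have h5 : (4 : ℝ) / w ≤ 1 / 4 := by
      rw [div_le_iff₀ (by linarith)]
      linarith
    have h6 : ((supp τ).card : ℝ) * (3 * K / w) ≤ 1 / 4 := by
      rw [← mul_div_assoc, div_le_iff₀ (by linarith)]
      linarith
    unfold supp at h6
    linarith
  · simp only [hu]
    split_ifs <;> positivity
  · have h4 := hl ℓ
    simp only [hu]
    split_ifs
    · rw [div_le_one (by nlinarith)]
      nlinarith
    · rw [div_le_one (by linarith)]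
      linarith

/-- the weights of the forms -/
noncomputable def ff (G : Finset RR → ℝ) (m i : Fin K) (S : Finset RR) : ℝ :=
  if i = m then (if S = ∅ then 1 else 0) else G S ^ 2

noncomputable def FF (G : Finset RR → ℝ) (m : Fin K) (τ : Cf RR K) : ℝ :=
  (∏ i, ff G m i (fib τ i)) / rad τ

theorem rr_empty : rr (∅ : Finset RR) = 1 := prod_empty

theorem ff_nonneg (G : Finset RR → ℝ) (m i : Fin K) (S : Finset RR) : 0 ≤ ff G m i S := by
  unfold ff
  split_ifs <;> positivity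

theorem ff_anti {G : Finset RR → ℝ} (G0 : ∀ S, 0 ≤ G S) (Ga : Antitone G) (m i : Fin K) :
    Antitone (ff G m i) := by
  intro S T hST
  unfold ff
  split_ifs with h1 h2 h3
  · exact le_rfl
  · exact absurd (subset_empty.1 (h2 ▸ hST)) h3
  · exact zero_le_one
  · exact le_rfl
  · exact pow_le_pow_left₀ (G0 _) (Ga hST) 2

theorem ff_sum (G : Finset RR → ℝ) (m i : Fin K) :
    ∑ S, ff G m i S / rr S = if i = m then 1 else II G := by
  unfold ff
  split_ifs with h1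
  · rw [sum_eq_single ∅]
    · simp [rr_empty]
    · intro S _ hS
      simp [hS]
    · simp
  · rfl

theorem ff_prod (G : Finset RR → ℝ) (m : Fin K) :
    ∏ i, ∑ S, ff G m i S / rr S = II G ^ (K - 1) := by
  simp only [ff_sum]
  rw [← mul_prod_erase _ _ (mem_univ m), if_pos rfl, one_mul,
    prod_congr rfl (fun i hi => if_neg (ne_of_mem_erase hi)), prod_const, card_erase_of_mem
    (mem_univ m), card_univ, Fintype.card_fin]

theorem FF_nonneg (hl : ∀ ℓ ∈ RR, 1 ≤ ℓ) (G : Finset RR → ℝ) (m : Fin K) (τ : Cf RR K) :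
    0 ≤ FF G m τ :=
  div_nonneg (prod_nonneg fun _ _ => ff_nonneg _ _ _ _) (zero_le_one.trans (one_le_rad hl τ))

theorem low (h : StmtN0) {w : ℕ} {G : Finset RR → ℝ} (m : Fin K) (hw : 16 ≤ w)
    (hK : 8 * K ^ 2 ≤ w) (hl : ∀ ℓ ∈ RR, w ≤ ℓ) (G0 : ∀ S, 0 ≤ G S) (Ga : Antitone G)
    (hI : 1 ≤ II G) : 3 / 4 * II G ^ (K - 1) ≤ ∑ τ, FF G m τ := by
  have hw' : (16 : ℝ) ≤ w := by exact_mod_cast hw
  have h1 := (h RR K w (ff G m) (by omega) hl (ff_nonneg G m)).2 (ff_anti G0 Ga m)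
  rw [ff_prod] at h1
  refine le_trans (mul_le_mul_of_nonneg_right ?_ (pow_nonneg (by linarith) _)) h1
  have h2 : (8 : ℝ) * K ^ 2 ≤ w := by exact_mod_cast hK
  have h3 : 2 * (K : ℝ) ^ 2 / w ≤ 1 / 4 := by
    rw [div_le_iff₀ (by linarith)]
    linarith
  linarith

theorem mom (h : StmtN0) {w : ℕ} {G : Finset RR → ℝ} (m : Fin K) (hw : 16 ≤ w)
    (hl : ∀ ℓ ∈ RR, w ≤ ℓ) (hI : 1 ≤ II G) (i : Fin K) :
    ∑ τ, FF G m τ * log (rr (fib τ i)) ≤ MM G / II G * II G ^ (K - 1) := by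
  have hl1 : ∀ ℓ ∈ RR, 1 ≤ ℓ := fun ℓ hℓ => by have := hl ℓ hℓ; omega
  have hrr : ∀ S : Finset RR, 1 ≤ rr S := one_le_rr hl1
  have f0 := ff_nonneg G m
  have hM0 : 0 ≤ MM G := sum_nonneg fun S _ =>
    div_nonneg (mul_nonneg (sq_nonneg _) (Real.log_nonneg (hrr S))) (zero_le_one.trans (hrr S))
  have h1 := (h RR K w (fun j S => if j = i then ff G m j S * log (rr S) else ff G m j S)
    (by omega) hl (fun j S => by
      split_ifs
      exacts [mul_nonneg (f0 _ _) (Real.log_nonneg (hrr S)), f0 _ _])).1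
  have h2 : ∀ τ : Cf RR K, FF G m τ * log (rr (fib τ i)) =
      (∏ j, if j = i then ff G m j (fib τ j) * log (rr (fib τ j)) else ff G m j (fib τ j)) /
        rad τ := by
    intro τ
    unfold FF
    rw [← mul_prod_erase _ _ (mem_univ i), ← mul_prod_erase _ _ (mem_univ i), if_pos rfl,
      prod_congr rfl (fun j hj => if_neg (ne_of_mem_erase hj))]
    ring
  simp only [h2]
  refine h1.trans ?_
  rw [← ff_prod G m, ← mul_prod_erase _ _ (mem_univ i), ← mul_prod_erase _ _ (mem_univ i),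
    ← mul_assoc]
  simp only [if_true]
  have h3 : ∏ j ∈ univ.erase i,
      ∑ S, (if j = i then ff G m j S * log (rr S) else ff G m j S) / rr S =
      ∏ j ∈ univ.erase i, ∑ S, ff G m j S / rr S :=
    prod_congr rfl fun j hj => by simp only [if_neg (ne_of_mem_erase hj)]
  rw [h3]
  refine mul_le_mul_of_nonneg_right ?_ (prod_nonneg fun j _ => sum_nonneg fun S _ =>
    div_nonneg (f0 _ _) (zero_le_one.trans (hrr S)))
  rw [ff_sum]
  by_cases him : i = m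
  · rw [if_pos him, mul_one, sum_eq_zero]
    · exact div_nonneg hM0 (by linarith)
    · intro S _
      by_cases hS : S = ∅
      · simp [hS, rr_empty]
      · simp [ff, him, hS]
  · rw [if_neg him, div_mul_cancel₀ _ (by linarith)]
    simp only [ff, if_neg him]
    exact le_rfl

theorem mar (h : StmtN0) {w : ℕ} {G : Finset RR → ℝ} {R : ℝ} (m : Fin K) (hw : 16 ≤ w)
    (hl : ∀ ℓ ∈ RR, w ≤ ℓ) (hI : 1 ≤ II G) (hR : 3 ≤ R) (hM : 8 * K * MM G ≤ II G * log R) :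
    ∑ τ, FF G m τ * (2 * log (rad τ) / log R) ≤ 1 / 4 * II G ^ (K - 1) := by
  have hl1 : ∀ ℓ ∈ RR, 1 ≤ ℓ := fun ℓ hℓ => by have := hl ℓ hℓ; omega
  have hrr : ∀ S : Finset RR, 1 ≤ rr S := one_le_rr hl1
  have hlR : 0 < log R := Real.log_pos (by linarith)
  have hI0 : 0 < II G := by linarith
  have h1 : ∀ τ : Cf RR K, FF G m τ * (2 * log (rad τ) / log R) =
      2 / log R * ∑ i, FF G m τ * log (rr (fib τ i)) := by
    intro τ
    rw [← mul_sum, ← Real.log_prod (fun i _ => by linarith [hrr (fib τ i)]), ← rad_eq]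
    ring
  simp only [h1]
  rw [← mul_sum, sum_comm]
  have h2 : ∑ i, ∑ τ, FF G m τ * log (rr (fib τ i)) ≤ K * (MM G / II G * II G ^ (K - 1)) := by
    refine (sum_le_sum fun i _ => mom h m hw hl hI i).trans ?_
    rw [sum_const, card_univ, Fintype.card_fin, nsmul_eq_mul]
  have h3 : 2 / log R * (K * (MM G / II G)) ≤ 1 / 4 := by
    rw [← mul_div_assoc, div_mul_div_comm, div_le_iff₀ (by positivity)]
    linarith
  calc _ ≤ 2 / log R * (K * (MM G / II G * II G ^ (K - 1))) :=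
        mul_le_mul_of_nonneg_left h2 (by positivity)
    _ = 2 / log R * (K * (MM G / II G)) * II G ^ (K - 1) := by ring
    _ ≤ _ := mul_le_mul_of_nonneg_right h3 (by positivity)

theorem JJ_eq (G : Finset RR → ℝ) (R : ℝ) :
    JJ G R = ∑ S, (if rr S ^ 2 ≤ R then G S else 0) / rr S := sum_congr rfl fun S _ => by
  split_ifs
  · rfl
  · simp

theorem cut_anti (hl : ∀ ℓ ∈ RR, 1 ≤ ℓ) {G : Finset RR → ℝ} (G0 : ∀ S, 0 ≤ G S) (Ga : Antitone G)
    (R : ℝ) : Antitone fun S : Finset RR => if rr S ^ 2 ≤ R then G S else 0 := by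
  intro S T hST
  have h1 : rr S ≤ rr T := prod_le_prod_of_subset_of_one_le hST (fun ℓ _ => by positivity)
    fun ℓ _ _ => by exact_mod_cast hl ℓ ℓ.2
  dsimp only
  split_ifs with h2 h3
  · exact Ga hST
  · exact absurd ((pow_le_pow_left₀ (zero_le_one.trans (one_le_rr hl S)) h1 2).trans h2) h3
  · exact G0 S
  · exact le_rfl

theorem good {w : ℕ} {G : Finset RR → ℝ} {R : ℝ} {m : Fin K} (hw : 16 ≤ w) (hK3 : 3 * K ≤ w)
    (hl : ∀ ℓ ∈ RR, w ≤ ℓ) (G0 : ∀ S, 0 ≤ G S) (Ga : Antitone G) (hlog : 12 * K * log R ≤ w)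
    {τ : Cf RR K} (hτ : rad τ ^ 2 ≤ R) (hm : fib τ m = ∅) :
    JJ G R ^ 2 / 4 * FF G m τ ≤
      (∏ ℓ : RR, aa m ℓ (τ ℓ)) * (∑ σ, cG K G R σ * ∏ ℓ : RR, ph m ℓ (σ ℓ) (τ ℓ)) ^ 2 := by
  have hK1 : (1 : ℝ) ≤ K := by exact_mod_cast m.pos
  have hw' : (16 : ℝ) ≤ w := by exact_mod_cast hw
  have hl1 : ∀ ℓ ∈ RR, 1 ≤ ℓ := fun ℓ hℓ => by have := hl ℓ hℓ; omega
  have hl3 : ∀ ℓ ∈ RR, 3 ≤ ℓ := fun ℓ hℓ => by have := hl ℓ hℓ; omega
  have hrad : 1 ≤ rad τ := one_le_rad hl1 τ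
  have h8 : 0 < rad τ := one_pos.trans_le hrad
  have g0 : ∀ S : Finset RR, 0 ≤ (if rr S ^ 2 ≤ R then G S else 0) := fun S => by
    split_ifs
    exacts [G0 S, le_rfl]
  have hJ0 : 0 ≤ JJ G R := by
    rw [JJ_eq]
    exact sum_nonneg fun S _ => div_nonneg (g0 S) (zero_le_one.trans (one_le_rr hl1 S))
  have hc : ((supp τ).card : ℝ) ≤ log R :=
    (card_supp hl3 τ).trans (Real.log_le_log h8 ((le_self_pow₀ hrad two_ne_zero).trans hτ))
  have hc' : 12 * K * ((supp τ).card : ℝ) ≤ w :=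
    (mul_le_mul_of_nonneg_left hc (by positivity)).trans hlog
  have h1 := prod_aa hw hK3 hl hm hc'
  have h2 := inner_ge hl1 G0 hm hτ
  have h3 := sum_disj hl1 g0 (cut_anti hl1 G0 Ga R) (supp τ)
  rw [← JJ_eq] at h3
  have h4 : ∑ ℓ ∈ supp τ, 1 / ((ℓ : ℕ) : ℝ) ≤ 1 / 12 := by
    have h5 : ∑ ℓ ∈ supp τ, 1 / ((ℓ : ℕ) : ℝ) ≤ ∑ _ℓ ∈ supp τ, 1 / (w : ℝ) :=
      sum_le_sum fun ℓ _ => one_div_le_one_div_of_le (by linarith) (by exact_mod_cast hl ℓ ℓ.2)
    rw [sum_const, nsmul_eq_mul, mul_one_div] at h5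
    refine h5.trans ?_
    rw [div_le_iff₀ (by linarith)]
    have h6 := mul_le_mul_of_nonneg_right hK1 (Nat.cast_nonneg (α := ℝ) (supp τ).card)
    linarith
  have hA0 : 0 ≤ ∏ i ∈ univ.erase m, G (fib τ i) := prod_nonneg fun i _ => G0 _
  have h5 : FF G m τ = (∏ i ∈ univ.erase m, G (fib τ i)) ^ 2 / rad τ := by
    unfold FF
    rw [← mul_prod_erase _ _ (mem_univ m), ← prod_pow, hm]
    have h6 : ff G m m (∅ : Finset RR) = 1 := by simp [ff]
    rw [h6, one_mul]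
    exact congrArg (· / rad τ) (prod_congr rfl fun i hi => if_neg (ne_of_mem_erase hi))
  have h6 : (∏ i ∈ univ.erase m, G (fib τ i)) * (11 / 12 * JJ G R) ≤
      ∑ σ, cG K G R σ * ∏ ℓ : RR, ph m ℓ (σ ℓ) (τ ℓ) :=
    le_trans (mul_le_mul_of_nonneg_left
      (le_trans (mul_le_mul_of_nonneg_right (by linarith) hJ0) h3) hA0) h2
  have h7 := pow_le_pow_left₀ (by positivity) h6 2
  have h9 := mul_le_mul h1 h7 (by positivity) (le_trans (by positivity) h1)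
  refine le_trans ?_ h9
  rw [h5]
  generalize (∏ i ∈ univ.erase m, G (fib τ i)) = A
  generalize JJ G R = J
  generalize rad τ = r at h8
  have h10 : 0 ≤ J ^ 2 * (A ^ 2 / r) := by positivity
  have h11 : 1 / 2 / r * (A * (11 / 12 * J)) ^ 2 = 121 / 288 * (J ^ 2 * (A ^ 2 / r)) := by ring
  rw [h11]
  linarith

theorem key {w : ℕ} {G : Finset RR → ℝ} {R : ℝ} (m : Fin K) (hw : 16 ≤ w) (hK3 : 3 * K ≤ w)
    (hl : ∀ ℓ ∈ RR, w ≤ ℓ) (G0 : ∀ S, 0 ≤ G S) (Ga : Antitone G) (hR : 3 ≤ R)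
    (hlog : 12 * K * log R ≤ w) (τ : Cf RR K) :
    JJ G R ^ 2 / 4 * (FF G m τ - FF G m τ * (2 * log (rad τ) / log R)) ≤
      (∏ ℓ : RR, aa m ℓ (τ ℓ)) * (∑ σ, cG K G R σ * ∏ ℓ : RR, ph m ℓ (σ ℓ) (τ ℓ)) ^ 2 := by
  have hl1 : ∀ ℓ ∈ RR, 1 ≤ ℓ := fun ℓ hℓ => by have := hl ℓ hℓ; omega
  have hlR : 0 < log R := Real.log_pos (by linarith)
  have hF := FF_nonneg hl1 G m τ
  have h0 : 0 ≤ (∏ ℓ : RR, aa m ℓ (τ ℓ)) *
      (∑ σ, cG K G R σ * ∏ ℓ : RR, ph m ℓ (σ ℓ) (τ ℓ)) ^ 2 :=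
    mul_nonneg (prod_nonneg fun ℓ _ => aa_nonneg (by omega) hK3 (hl ℓ ℓ.2) m _) (sq_nonneg _)
  have hlr : 0 ≤ log (rad τ) := Real.log_nonneg (one_le_rad hl1 τ)
  by_cases hτ : rad τ ^ 2 ≤ R
  swap
  · refine le_trans (mul_nonpos_of_nonneg_of_nonpos (by positivity) ?_) h0
    have h1 : log R ≤ 2 * log (rad τ) := by
      have h2 := Real.log_le_log (by linarith) (not_le.1 hτ).le
      rwa [Real.log_pow] at h2
    have h2 : 1 ≤ 2 * log (rad τ) / log R := (one_le_div hlR).2 h1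
    exact sub_nonpos.2 (le_mul_of_one_le_right hF h2)
  by_cases hm : fib τ m = ∅
  swap
  · have h1 : FF G m τ = 0 := by
      unfold FF
      have h2 : ff G m m (fib τ m) = 0 := by simp [ff, hm]
      rw [← mul_prod_erase _ _ (mem_univ m), h2, zero_mul, zero_div]
    rw [h1, zero_mul, sub_zero, mul_zero]
    exact h0
  refine le_trans (mul_le_mul_of_nonneg_left (sub_le_self _ ?_) (by positivity))
    (good hw hK3 hl G0 Ga hlog hτ hm)
  exact mul_nonneg hF (by positivity)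

end N2

open N2 in
theorem stmtN2 (h : StmtN0) : StmtN2 := by
  intro RR K w G R m hw hK hl G0 Ga hI hR hlog hM
  have hK1 : 1 ≤ K := m.pos
  have hK3 : 3 * K ≤ w := by nlinarith
  have h1 := low h m hw hK hl G0 Ga hI
  have h2 := mar h m hw hl hI hR hM
  refine le_trans ?_ (sum_le_sum fun τ _ => key m hw hK3 hl G0 Ga hR hlog τ)
  rw [← mul_sum, sum_sub_distrib]
  have h3 : 1 / 2 * II G ^ (K - 1) ≤
      ∑ τ, FF G m τ - ∑ τ, FF G m τ * (2 * log (rad τ) / log R) := by linarith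
  refine le_trans (le_of_eq ?_) (mul_le_mul_of_nonneg_left h3 (by positivity))
  ring

end Vale.Agent.N013L
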