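import Vale.Agent.N013L.Def

/-! Block Q: from sums over integers to sums over residue vectors. -/

namespace Vale.Agent.N013L

open Finset Real Filter

namespace Q

/-- A product of periodic functions, summed over an equidistributed set. -/
theorem core (X : Finset ℤ) (A : ℕ → Finset ℕ) (MM D : Finset ℕ) (M Err : ℝ) (f : ℕ → ℤ → ℝ)
    (hD : D ⊆ MM) (hM : ∏ ℓ ∈ D, (ℓ : ℝ) ≤ M)
    (hA : ∀ ℓ ∈ D, 0 < ℓ ∧ A ℓ ⊆ range ℓ ∧ (A ℓ).Nonempty ∧ ∀ n ∈ X, (n % (ℓ : ℤ)).toNat ∈ A ℓ)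
    (hf : ∀ ℓ ∈ D, ∀ n, |f ℓ n| ≤ 1 ∧ f ℓ n = f ℓ (n % (ℓ : ℤ))) (hE : 0 ≤ Err)
    (hEq : Equi X A MM M Err) :
    |∑ n ∈ X, ∏ ℓ ∈ D, f ℓ n - X.card * ∏ ℓ ∈ D, (∑ r ∈ A ℓ, f ℓ r) / (A ℓ).card| ≤ M * Err := by
  classical
  set P : Finset (D → ℕ) := Fintype.piFinset fun ℓ : D => A ℓ with hP
  set g : ℤ → (D → ℕ) := fun n ℓ => (n % ((ℓ : ℕ) : ℤ)).toNat with hg
  have hmod : ∀ (n : ℤ) (ℓ : D), ((g n ℓ : ℕ) : ℤ) = n % ((ℓ : ℕ) : ℤ) := by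
    intro n ℓ
    have h0 : ((ℓ : ℕ) : ℤ) ≠ 0 := by exact_mod_cast (hA ℓ ℓ.2).1.ne'
    exact Int.toNat_of_nonneg (Int.emod_nonneg n h0)
  have hgP : ∀ n ∈ X, g n ∈ P := by
    intro n hn
    exact Fintype.mem_piFinset.2 fun ℓ => (hA ℓ ℓ.2).2.2.2 n hn
  have h1 : ∑ n ∈ X, ∏ ℓ ∈ D, f ℓ n =
      ∑ a ∈ P, ((X.filter fun n => g n = a).card : ℝ) * ∏ ℓ : D, f ℓ (a ℓ) := by
    rw [← sum_fiberwise_of_maps_to hgP]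
    refine sum_congr rfl fun a _ => ?_
    rw [← nsmul_eq_mul, ← sum_const]
    refine sum_congr rfl fun n hn => ?_
    rw [← (mem_filter.1 hn).2, ← prod_coe_sort D]
    refine prod_congr rfl fun ℓ _ => ?_
    rw [hmod, ← (hf ℓ ℓ.2 n).2]
  have h2 : (X.card : ℝ) * ∏ ℓ ∈ D, (∑ r ∈ A ℓ, f ℓ r) / (A ℓ).card =
      ∑ a ∈ P, (X.card / ∏ ℓ ∈ D, ((A ℓ).card : ℝ)) * ∏ ℓ : D, f ℓ (a ℓ) := by
    rw [← mul_sum, hP, ← prod_univ_sum (fun ℓ : D => A ℓ) (fun ℓ r => f ℓ r), prod_div_distrib,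
      prod_coe_sort D (fun ℓ => ∑ r ∈ A ℓ, f ℓ r)]
    ring
  have h3 : ∀ a ∈ P, |((X.filter fun n => g n = a).card : ℝ) * ∏ ℓ : D, f ℓ (a ℓ) -
      (X.card / ∏ ℓ ∈ D, ((A ℓ).card : ℝ)) * ∏ ℓ : D, f ℓ (a ℓ)| ≤ Err := by
    intro a ha
    have hb := hEq D hD hM (fun ℓ => if h : ℓ ∈ D then a ⟨ℓ, h⟩ else 0) (by
      intro ℓ hℓ
      rw [dif_pos hℓ]
      exact Fintype.mem_piFinset.1 ha ⟨ℓ, hℓ⟩)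
    have hfil : (X.filter fun n => ∀ ℓ ∈ D, n % (ℓ : ℤ) =
        ((if h : ℓ ∈ D then a ⟨ℓ, h⟩ else 0 : ℕ) : ℤ)) = X.filter fun n => g n = a := by
      refine filter_congr fun n _ => ⟨fun h => ?_, fun h ℓ hℓ => ?_⟩
      · funext ℓ
        have := h ℓ ℓ.2
        rw [dif_pos ℓ.2, ← hmod] at this
        exact_mod_cast this
      · rw [dif_pos hℓ, ← h]
        exact (hmod n ⟨ℓ, hℓ⟩).symm
    rw [hfil] at hb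
    have hp : |∏ ℓ : D, f ℓ (a ℓ)| ≤ 1 := by
      rw [abs_prod]
      exact prod_le_one (fun _ _ => abs_nonneg _) fun ℓ _ => (hf ℓ ℓ.2 _).1
    rw [← sub_mul, abs_mul]
    calc _ ≤ Err * 1 := mul_le_mul hb hp (abs_nonneg _) hE
      _ = Err := mul_one _
  have h4 : (P.card : ℝ) ≤ M := by
    refine le_trans ?_ hM
    rw [hP, Fintype.card_piFinset, ← prod_coe_sort D]
    push_cast
    refine prod_le_prod (fun _ _ => Nat.cast_nonneg _) fun ℓ _ => ?_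
    have := card_le_card (hA ℓ ℓ.2).2.1
    rw [card_range] at this
    exact_mod_cast this
  rw [h1, h2, ← sum_sub_distrib]
  calc _ ≤ ∑ a ∈ P, Err := (abs_sum_le_sum_abs _ _).trans (sum_le_sum h3)
    _ = P.card * Err := by rw [sum_const, nsmul_eq_mul]
    _ ≤ M * Err := mul_le_mul_of_nonneg_right h4 hE

/-- The same with trivial factors outside `D`. -/
theorem core2 (X : Finset ℤ) (A : ℕ → Finset ℕ) (MM D : Finset ℕ) (M Err : ℝ) (f : ℕ → ℤ → ℝ)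
    (hD : D ⊆ MM) (hM : ∏ ℓ ∈ D, (ℓ : ℝ) ≤ M)
    (hA : ∀ ℓ ∈ MM, 0 < ℓ ∧ A ℓ ⊆ range ℓ ∧ (A ℓ).Nonempty ∧ ∀ n ∈ X, (n % (ℓ : ℤ)).toNat ∈ A ℓ)
    (hf : ∀ ℓ ∈ MM, ∀ n, |f ℓ n| ≤ 1 ∧ f ℓ n = f ℓ (n % (ℓ : ℤ)))
    (h1 : ∀ ℓ ∈ MM, ℓ ∉ D → ∀ n, f ℓ n = 1) (hE : 0 ≤ Err) (hEq : Equi X A MM M Err) :
    |∑ n ∈ X, ∏ ℓ ∈ MM, f ℓ n - X.card * ∏ ℓ ∈ MM, (∑ r ∈ A ℓ, f ℓ r) / (A ℓ).card| ≤ M * Err := by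
  have e1 : ∀ n, ∏ ℓ ∈ MM, f ℓ n = ∏ ℓ ∈ D, f ℓ n := fun n =>
    (prod_subset hD fun ℓ hℓ hn => h1 ℓ hℓ hn n).symm
  have e2 : ∏ ℓ ∈ MM, (∑ r ∈ A ℓ, f ℓ r) / (A ℓ).card =
      ∏ ℓ ∈ D, (∑ r ∈ A ℓ, f ℓ r) / (A ℓ).card := by
    refine (prod_subset hD fun ℓ hℓ hn => ?_).symm
    have h0 : ((A ℓ).card : ℝ) ≠ 0 := by exact_mod_cast (hA ℓ hℓ).2.2.1.card_pos.ne'
    rw [sum_congr rfl fun (r : ℕ) _ => h1 ℓ hℓ hn (r : ℤ), sum_const, nsmul_eq_mul, mul_one, div_self h0]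
  rw [sum_congr rfl fun n _ => e1 n, e2]
  exact core X A MM D M Err f hD hM (fun ℓ hℓ => hA ℓ (hD hℓ)) (fun ℓ hℓ => hf ℓ (hD hℓ)) hE hEq

/-- One pair of configurations. -/
theorem pair (X : Finset ℤ) (A : ℕ → Finset ℕ) (QQ RR : Finset ℕ) (K : ℕ) (R Err : ℝ)
    (χ : ℕ → ℤ → ℝ) (ψ : ℕ → ℤ → Option (Fin K) → ℝ) (hd : Disjoint QQ RR)
    (hA : ∀ ℓ ∈ QQ ∪ RR,
      0 < ℓ ∧ A ℓ ⊆ range ℓ ∧ (A ℓ).Nonempty ∧ ∀ n ∈ X, (n % (ℓ : ℤ)).toNat ∈ A ℓ)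
    (hχ : ∀ ℓ ∈ QQ, ∀ n, |χ ℓ n| ≤ 1 ∧ χ ℓ n = χ ℓ (n % (ℓ : ℤ)))
    (hψ : ∀ ℓ ∈ RR, ∀ n o, |ψ ℓ n o| ≤ 1 ∧ ψ ℓ n o = ψ ℓ (n % (ℓ : ℤ)) o ∧ ψ ℓ n none = 1)
    (hR : 1 ≤ R) (hE : 0 ≤ Err)
    (hEq : Equi X A (QQ ∪ RR) ((∏ ℓ ∈ QQ, (ℓ : ℝ)) * R ^ 2) Err) (σ τ : Cf RR K)
    (hσ : rad σ ≤ R) (hτ : rad τ ≤ R) :
    |∑ n ∈ X, (∏ ℓ ∈ QQ, χ ℓ n) * ((∏ ℓ : RR, ψ ℓ n (σ ℓ)) * ∏ ℓ : RR, ψ ℓ n (τ ℓ)) -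
      X.card * (∏ ℓ ∈ QQ, (∑ r ∈ A ℓ, χ ℓ r) / (A ℓ).card) *
        ∑ u ∈ Fintype.piFinset (fun ℓ : RR => A ℓ), (∏ ℓ : RR, 1 / ((A ℓ).card : ℝ)) *
          ((∏ ℓ : RR, ψ ℓ (u ℓ) (σ ℓ)) * ∏ ℓ : RR, ψ ℓ (u ℓ) (τ ℓ))| ≤
      ((∏ ℓ ∈ QQ, (ℓ : ℝ)) * R ^ 2) * Err := by
  classical
  set f : ℕ → ℤ → ℝ := fun ℓ n =>
    if h : ℓ ∈ RR then ψ ℓ n (σ ⟨ℓ, h⟩) * ψ ℓ n (τ ⟨ℓ, h⟩) else χ ℓ n with hf
  have fQ : ∀ ℓ ∈ QQ, ∀ n, f ℓ n = χ ℓ n := fun ℓ hℓ n => dif_neg (disjoint_left.1 hd hℓ)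
  have fR : ∀ (ℓ : RR) (n : ℤ), f ℓ n = ψ ℓ n (σ ℓ) * ψ ℓ n (τ ℓ) := fun ℓ n => dif_pos ℓ.2
  set S : Finset ℕ := (univ.filter fun ℓ : RR => ¬ (σ ℓ = none ∧ τ ℓ = none)).map
    (Function.Embedding.subtype _) with hS
  have hSR : S ⊆ RR := by
    intro ℓ hℓ
    obtain ⟨j, -, rfl⟩ := mem_map.1 hℓ
    exact j.2
  have hQ0 : 0 ≤ ∏ ℓ ∈ QQ, (ℓ : ℝ) := prod_nonneg fun _ _ => Nat.cast_nonneg _
  have hrad : ∀ s : Cf RR K, 0 ≤ rad s := fun s =>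
    prod_nonneg fun ℓ _ => by split_ifs <;> positivity
  have hprod : ∏ ℓ ∈ S, (ℓ : ℝ) ≤ R ^ 2 := by
    calc ∏ ℓ ∈ S, (ℓ : ℝ) ≤ rad σ * rad τ := by
          rw [hS, prod_map, prod_filter, rad, rad, ← prod_mul_distrib]
          refine prod_le_prod (fun ℓ _ => by split_ifs <;> positivity) fun ℓ _ => ?_
          have h1 : (1 : ℝ) ≤ ((ℓ : ℕ) : ℝ) := by
            exact_mod_cast (hA ℓ (mem_union_right _ ℓ.2)).1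
          simp only [Function.Embedding.coe_subtype]
          by_cases h2 : σ ℓ = none <;> by_cases h3 : τ ℓ = none <;> simp [h2, h3]
          nlinarith
      _ ≤ R * R := mul_le_mul hσ hτ (hrad τ) (by linarith)
      _ = R ^ 2 := (sq R).symm
  have key := core2 X A (QQ ∪ RR) (QQ ∪ S) _ Err f (union_subset_union_right hSR) (by
      rw [prod_union (hd.mono_right hSR)]
      exact mul_le_mul_of_nonneg_left hprod hQ0) hA (by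
      intro ℓ hℓ n
      rcases mem_union.1 hℓ with h | h
      · rw [fQ ℓ h, fQ ℓ h]
        exact hχ ℓ h n
      · rw [fR ⟨ℓ, h⟩, fR ⟨ℓ, h⟩, abs_mul]
        exact ⟨mul_le_one₀ (hψ ℓ h n _).1 (abs_nonneg _) (hψ ℓ h n _).1,
          by rw [← (hψ ℓ h n _).2.1, ← (hψ ℓ h n _).2.1]⟩) (by
      intro ℓ hℓ hn n
      have h : ℓ ∈ RR := (mem_union.1 hℓ).resolve_left fun h => hn (mem_union_left _ h)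
      have h2 : σ ⟨ℓ, h⟩ = none ∧ τ ⟨ℓ, h⟩ = none := by
        by_contra h3
        exact hn (mem_union_right _ (mem_map.2 ⟨⟨ℓ, h⟩, mem_filter.2 ⟨mem_univ _, h3⟩, rfl⟩))
      rw [fR ⟨ℓ, h⟩, h2.1, h2.2, (hψ ℓ h n none).2.2, mul_one]) hE hEq
  have e1 : ∀ n, ∏ ℓ ∈ QQ ∪ RR, f ℓ n =
      (∏ ℓ ∈ QQ, χ ℓ n) * ((∏ ℓ : RR, ψ ℓ n (σ ℓ)) * ∏ ℓ : RR, ψ ℓ n (τ ℓ)) := by
    intro n
    rw [prod_union hd, prod_congr rfl fun ℓ hℓ => fQ ℓ hℓ n, ← prod_coe_sort RR,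
      prod_congr rfl fun ℓ _ => fR ℓ n, prod_mul_distrib]
  have e2 : ∏ ℓ ∈ QQ ∪ RR, (∑ r ∈ A ℓ, f ℓ r) / (A ℓ).card =
      (∏ ℓ ∈ QQ, (∑ r ∈ A ℓ, χ ℓ r) / (A ℓ).card) *
        ∑ u ∈ Fintype.piFinset (fun ℓ : RR => A ℓ), (∏ ℓ : RR, 1 / ((A ℓ).card : ℝ)) *
          ((∏ ℓ : RR, ψ ℓ (u ℓ) (σ ℓ)) * ∏ ℓ : RR, ψ ℓ (u ℓ) (τ ℓ)) := by
    rw [prod_union hd, ← prod_coe_sort RR]
    congr 1
    · exact prod_congr rfl fun ℓ hℓ => by rw [sum_congr rfl fun (r : ℕ) _ => fQ ℓ hℓ (r : ℤ)]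
    · rw [← mul_sum, sum_congr rfl fun u _ => (prod_mul_distrib).symm,
        ← prod_univ_sum (fun ℓ : RR => A ℓ) (fun ℓ r => ψ ℓ r (σ ℓ) * ψ ℓ r (τ ℓ)),
        ← prod_mul_distrib]
      refine prod_congr rfl fun ℓ _ => ?_
      rw [sum_congr rfl fun (r : ℕ) _ => fR ℓ (r : ℤ)]
      ring
  rw [sum_congr rfl fun n _ => e1 n, e2, ← mul_assoc] at key
  exact key

theorem sq_sum {ι : Type} [Fintype ι] (c P : ι → ℝ) (w : ℝ) :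
    w * (∑ σ, c σ * P σ) ^ 2 = ∑ σ, ∑ τ, c σ * c τ * (w * (P σ * P τ)) := by
  rw [sq, sum_mul_sum, mul_sum]
  refine sum_congr rfl fun σ _ => ?_
  rw [mul_sum]
  exact sum_congr rfl fun τ _ => by ring

theorem swap3 {ι β : Type} [Fintype ι] (c : ι → ℝ) (s : Finset β) (F : β → ι → ι → ℝ) :
    ∑ n ∈ s, ∑ σ, ∑ τ, c σ * c τ * F n σ τ = ∑ σ, ∑ τ, c σ * c τ * ∑ n ∈ s, F n σ τ := by
  rw [sum_comm]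
  refine sum_congr rfl fun σ _ => ?_
  rw [sum_comm]
  exact sum_congr rfl fun τ _ => (mul_sum _ _ _).symm

end Q

theorem stmtQ : StmtQ := by
  intro X A QQ RR K R Err c χ ψ hd hA hχ hψ hc hR hE hEq
  have hB : 0 ≤ ((∏ ℓ ∈ QQ, (ℓ : ℝ)) * R ^ 2) * Err :=
    mul_nonneg (mul_nonneg (prod_nonneg fun _ _ => Nat.cast_nonneg _) (sq_nonneg _)) hE
  rw [sum_congr rfl fun n _ => Q.sq_sum c (fun σ => ∏ ℓ : RR, ψ ℓ n (σ ℓ)) _,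
    sum_congr rfl fun (u : RR → ℕ) _ => Q.sq_sum c (fun σ => ∏ ℓ : RR, ψ ℓ (u ℓ) (σ ℓ)) _,
    Q.swap3, Q.swap3, mul_sum, ← sum_sub_distrib, mul_assoc ((∑ σ, |c σ|) ^ 2), sq, sum_mul_sum,
    sum_mul]
  refine (abs_sum_le_sum_abs _ _).trans (sum_le_sum fun σ _ => ?_)
  rw [mul_sum, ← sum_sub_distrib, sum_mul]
  refine (abs_sum_le_sum_abs _ _).trans (sum_le_sum fun τ _ => ?_)
  rw [mul_left_comm, ← mul_sub, abs_mul, abs_mul]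
  by_cases h1 : c σ = 0
  · simp [h1]
  by_cases h2 : c τ = 0
  · simp [h2]
  exact mul_le_mul_of_nonneg_left
    (Q.pair X A QQ RR K R Err χ ψ hd hA hχ hψ hR hE hEq σ τ (hc σ h1) (hc τ h2)) (by positivity)

end Vale.Agent.N013L
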