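import Vale.Agent.N013L.Def

/-! Block T: tensor product of inequalities between sums of squares (Schur product theorem). -/

namespace Vale.Agent.N013L

open Finset Matrix

namespace T

/-- the Gram kernel of a weighted family -/
def gram {O β : Type} (U : Finset β) (ρ : β → ℝ) (ψ : O → β → ℝ) : Matrix O O ℝ :=
  Matrix.of fun o o' => ∑ u ∈ U, ρ u * (ψ o u * ψ o' u)

lemma gram_form {O β : Type} [Fintype O] (U : Finset β) (ρ : β → ℝ) (ψ : O → β → ℝ) (c : O → ℝ) :
    star c ⬝ᵥ (gram U ρ ψ *ᵥ c) = ∑ u ∈ U, ρ u * (∑ o, c o * ψ o u) ^ 2 := by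
  simp only [dotProduct, mulVec, gram, of_apply, star_trivial, sq, sum_mul, mul_sum]
  rw [sum_comm (s := U)]
  refine sum_congr rfl fun o _ => ?_
  rw [sum_comm (s := U)]
  refine sum_congr rfl fun o' _ => sum_congr rfl fun u _ => by ring

lemma gram_herm {O β : Type} (U : Finset β) (ρ : β → ℝ) (ψ : O → β → ℝ) :
    (gram U ρ ψ).IsHermitian := by
  ext o o'
  simp only [conjTranspose_apply, gram, of_apply, star_trivial]
  exact sum_congr rfl fun u _ => by ring

lemma gram_psd {O β : Type} [Fintype O] (U : Finset β) (ρ : β → ℝ) (ψ : O → β → ℝ)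
    (h : ∀ u ∈ U, 0 ≤ ρ u) : (gram U ρ ψ).PosSemidef := by
  refine .of_dotProduct_mulVec_nonneg (gram_herm U ρ ψ) fun c => ?_
  rw [gram_form]
  exact sum_nonneg fun u hu => mul_nonneg (h u hu) (sq_nonneg _)

/-- entrywise product of kernels -/
def hp {ι X : Type} (s : Finset ι) (A : ι → Matrix X X ℝ) : Matrix X X ℝ :=
  Matrix.of fun x x' => ∏ i ∈ s, A i x x'

lemma hp_insert {ι X : Type} [DecidableEq ι] {s : Finset ι} {j : ι} (hj : j ∉ s)
    (A : ι → Matrix X X ℝ) : hp (insert j s) A = A j ⊙ hp s A := by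
  ext x x'
  simp only [hp, of_apply, hadamard_apply, prod_insert hj]

lemma hp_psd {ι X : Type} [DecidableEq ι] [Fintype X] (A B : ι → Matrix X X ℝ)
    (hA : ∀ i, (A i).PosSemidef) (hB : ∀ i, (B i).PosSemidef) (hD : ∀ i, (B i - A i).PosSemidef)
    (s : Finset ι) : (hp s A).PosSemidef ∧ (hp s B - hp s A).PosSemidef := by
  induction s using Finset.induction_on with
  | empty =>
    constructor
    · have e : hp (∅ : Finset ι) A = gram {()} (fun _ => 1) (fun _ _ => 1) := by
        ext x x'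
        simp [hp, gram]
      rw [e]
      exact gram_psd _ _ _ fun _ _ => zero_le_one
    · have e : hp (∅ : Finset ι) B - hp ∅ A = 0 := by
        ext x x'
        simp [hp]
      rw [e]
      exact PosSemidef.zero
  | insert j s hj ih =>
    rw [hp_insert hj, hp_insert hj]
    refine ⟨(hA j).hadamard ih.1, ?_⟩
    have e : B j ⊙ hp s B - A j ⊙ hp s A = B j ⊙ (hp s B - hp s A) + (B j - A j) ⊙ hp s A := by
      ext x x'
      simp only [Matrix.sub_apply, Matrix.add_apply, hadamard_apply]
      ring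
    rw [e]
    exact ((hB j).hadamard ih.2).add ((hD j).hadamard ih.1)

lemma gram_pi {ι O β : Type} [Fintype ι] [DecidableEq ι] (U : ι → Finset β) (ρ : ι → β → ℝ)
    (ψ : ι → O → β → ℝ) :
    gram (Fintype.piFinset U) (fun u => ∏ i, ρ i (u i)) (fun (σ : ι → O) u => ∏ i, ψ i (σ i) (u i))
      = hp univ fun i =>
        (gram (U i) (ρ i) (ψ i)).submatrix (fun σ : ι → O => σ i) (fun σ : ι → O => σ i) := by
  ext σ σ'
  simp only [gram, hp, of_apply, submatrix_apply, prod_univ_sum, prod_mul_distrib]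

end T

open T in
theorem stmtT : StmtT := by
  intro ι O β γ _ _ _ U V ρ a ψ φ hρ ha hloc c
  have hD : ∀ i, (gram (V i) (a i) (φ i) - gram (U i) (ρ i) (ψ i)).PosSemidef := fun i => by
    refine .of_dotProduct_mulVec_nonneg ((gram_herm _ _ _).sub (gram_herm _ _ _)) fun c => ?_
    rw [sub_mulVec, dotProduct_sub, gram_form, gram_form]
    exact sub_nonneg.mpr (hloc i c)
  have h := (hp_psd
    (fun i => (gram (U i) (ρ i) (ψ i)).submatrix (fun σ : ι → O => σ i) (fun σ : ι → O => σ i))
    (fun i => (gram (V i) (a i) (φ i)).submatrix (fun σ : ι → O => σ i) (fun σ : ι → O => σ i))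
    (fun i => (gram_psd _ _ _ (hρ i)).submatrix _) (fun i => (gram_psd _ _ _ (ha i)).submatrix _)
    (fun i => (hD i).submatrix _) univ).2.dotProduct_mulVec_nonneg c
  rw [← gram_pi, ← gram_pi, sub_mulVec, dotProduct_sub, gram_form, gram_form] at h
  exact sub_nonneg.mp h

end Vale.Agent.N013L
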