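import Vale.Agent.N013L.Def

/-! Block U: the total mass of the sieve weights and their mass at prime values. -/

namespace Vale.Agent.N013L

open Finset Real Filter

namespace U

theorem dvd_iff_of_modEq {l : ℤ} {a b : ℤ} (h : a ≡ b [ZMOD l]) : l ∣ a ↔ l ∣ b := by
  constructor
  · intro ha
    exact (Int.modEq_zero_iff_dvd).1 (h.symm.trans ((Int.modEq_zero_iff_dvd).2 ha))
  · intro hb
    exact (Int.modEq_zero_iff_dvd).1 (h.trans ((Int.modEq_zero_iff_dvd).2 hb))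

theorem chi_congr (K ℓ : ℕ) {p n p' n' : ℤ} (hp : p ≡ p' [ZMOD ℓ]) (hn : n ≡ n' [ZMOD ℓ]) :
    chi K ℓ p n = chi K ℓ p' n' := by
  unfold chi
  have : ∀ i : Fin K, ((ℓ : ℤ) ∣ n + (hh i : ℤ) * p ↔ (ℓ : ℤ) ∣ n' + (hh i : ℤ) * p') := fun i =>
    dvd_iff_of_modEq (hn.add (hp.mul_left _))
  simp only [this]

theorem psi_congr {K : ℕ} (ℓ : ℕ) {p n p' n' : ℤ} (hp : p ≡ p' [ZMOD ℓ]) (hn : n ≡ n' [ZMOD ℓ])
    (o : Option (Fin K)) : psi ℓ p n o = psi ℓ p' n' o := by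
  cases o with
  | none => rfl
  | some i =>
    have : ((ℓ : ℤ) ∣ n + (hh i : ℤ) * p ↔ (ℓ : ℤ) ∣ n' + (hh i : ℤ) * p') :=
      dvd_iff_of_modEq (hn.add (hp.mul_left _))
    simp only [psi, this]

theorem chi_nonneg (K ℓ : ℕ) (p n : ℤ) : 0 ≤ chi K ℓ p n := by
  unfold chi; split_ifs <;> norm_num

theorem abs_chi (K ℓ : ℕ) (p n : ℤ) : |chi K ℓ p n| ≤ 1 := by
  unfold chi; split_ifs <;> norm_num

theorem abs_psi {K : ℕ} {ℓ : ℕ} (hℓ : 0 < ℓ) (p n : ℤ) (o : Option (Fin K)) :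
    |psi ℓ p n o| ≤ 1 := by
  have h1 : (1 : ℝ) ≤ ℓ := by exact_mod_cast hℓ
  have h2 : 0 ≤ 1 / (ℓ : ℝ) := by positivity
  have h3 : 1 / (ℓ : ℝ) ≤ 1 := by rw [div_le_one (by linarith)]; exact h1
  cases o with
  | none => simp [psi]
  | some i =>
    simp only [psi]
    split_ifs <;> rw [abs_le] <;> constructor <;> linarith

theorem mod_modEq (n : ℤ) (ℓ : ℕ) : n ≡ n % (ℓ : ℤ) [ZMOD ℓ] := (Int.mod_modEq n ℓ).symm

theorem not_dvd {ℓ p : ℕ} (hℓ : ℓ.Prime) (hp : p.Prime) (h : ℓ < p) : ¬ (ℓ : ℤ) ∣ (p : ℤ) := by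
  rw [Int.natCast_dvd_natCast, Nat.prime_dvd_prime_iff_eq hℓ hp]
  exact h.ne

theorem toNat_lt (n : ℤ) {ℓ : ℕ} (hℓ : 0 < ℓ) : (n % (ℓ : ℤ)).toNat < ℓ := by
  have h1 : (0 : ℤ) < ℓ := by exact_mod_cast hℓ
  have h2 := Int.emod_lt_of_pos n h1
  have h3 := Int.emod_nonneg n h1.ne'
  omega

end U

open U

theorem stmtU (hT : StmtT) (hQ : StmtQ) (hE : StmtEI) (h1 : StmtL1) (h2 : StmtL2) : StmtU := by
  intro QQ RR K R c y p hd hp hℓ hK hc hR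
  have hq := hQ (Icc (-(y : ℤ)) y) (fun ℓ => range ℓ) QQ RR K R 1 c (fun ℓ n => chi K ℓ p n)
    (fun ℓ n o => psi ℓ p n o) hd
    (fun ℓ h => ⟨(hℓ ℓ h).1.pos, Subset.refl _, nonempty_range_iff.2 (hℓ ℓ h).1.pos.ne',
      fun n _ => mem_range.2 (toNat_lt n (hℓ ℓ h).1.pos)⟩)
    (fun ℓ _ n => ⟨abs_chi _ _ _ _, chi_congr K ℓ (Int.ModEq.refl _) (mod_modEq n ℓ)⟩)
    (fun ℓ h n o => ⟨abs_psi (hℓ ℓ (mem_union_right _ h)).1.pos _ _ _,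
      psi_congr ℓ (Int.ModEq.refl _) (mod_modEq n ℓ) o, rfl⟩)
    hc hR zero_le_one (hE y _ _ fun ℓ h => (hℓ ℓ h).1)
  have ht := hT RR (Option (Fin K)) ℕ (Option (Fin K)) (fun ℓ => range (ℓ : ℕ)) (fun _ => univ)
    (fun ℓ _ => 1 / ((ℓ : ℕ) : ℝ)) (fun ℓ o => if o = none then 1 else 1 / ((ℓ : ℕ) : ℝ))
    (fun ℓ o r => psi (ℓ : ℕ) p (r : ℤ) o) (fun _ o v => if o = v then 1 else 0)
    (fun ℓ _ _ => by positivity) (fun ℓ v _ => by split_ifs <;> positivity)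
    (fun ℓ c => by
      have hl := hℓ ℓ (mem_union_right _ ℓ.2)
      refine ((h1 K ℓ hl.1 (hK ℓ ℓ.2)).1 p (not_dvd hl.1 hp hl.2) c).trans (le_of_eq ?_)
      refine sum_congr rfl fun v _ => ?_
      simp) c
  have e1 : ∑ v ∈ Fintype.piFinset (fun _ : RR => (univ : Finset (Option (Fin K)))),
      (∏ ℓ : RR, if v ℓ = none then 1 else 1 / ((ℓ : ℕ) : ℝ)) *
        (∑ σ : Cf RR K, c σ * ∏ ℓ : RR, if σ ℓ = v ℓ then (1 : ℝ) else 0) ^ 2 =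
      ∑ σ, c σ ^ 2 / rad σ := by
    rw [Fintype.piFinset_univ]
    refine sum_congr rfl fun v _ => ?_
    have a1 : (∏ ℓ : RR, if v ℓ = none then 1 else 1 / ((ℓ : ℕ) : ℝ)) = (rad v)⁻¹ := by
      rw [rad, ← prod_inv_distrib]
      refine prod_congr rfl fun ℓ _ => ?_
      split_ifs <;> simp
    have a2 : ∀ σ : Cf RR K, (∏ ℓ : RR, if σ ℓ = v ℓ then (1 : ℝ) else 0) =
        if σ = v then 1 else 0 := by
      intro σ
      rw [Fintype.prod_boole]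
      simp only [funext_iff]
    simp only [a1, a2, mul_ite, mul_one, mul_zero, sum_ite_eq', mem_univ, if_true]
    rw [div_eq_mul_inv, mul_comm]
  rw [e1] at ht
  have e2 : ((Icc (-(y : ℤ)) y).card : ℝ) = 2 * y + 1 := by
    rw [Int.card_Icc]
    have : (y : ℤ) + 1 - -(y : ℤ) = ((2 * y + 1 : ℕ) : ℤ) := by push_cast; ring
    rw [this, Int.toNat_natCast]
    push_cast; ring
  simp only [card_range, e2, mul_one] at hq
  have hS : ∏ ℓ ∈ QQ, (∑ r ∈ range ℓ, chi K ℓ p r) / ℓ ≤ SS QQ K := by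
    refine prod_le_prod (fun ℓ _ => div_nonneg (sum_nonneg fun r _ => chi_nonneg _ _ _ _)
      (Nat.cast_nonneg _)) fun ℓ h => ?_
    have hl := hℓ ℓ (mem_union_left _ h)
    exact (h2 K ℓ hl.1).2.1 p (not_dvd hl.1 hp hl.2)
  have hS0 : 0 ≤ ∏ ℓ ∈ QQ, (∑ r ∈ range ℓ, chi K ℓ p r) / ℓ :=
    prod_nonneg fun ℓ _ => div_nonneg (sum_nonneg fun r _ => chi_nonneg _ _ _ _) (Nat.cast_nonneg _)
  have hN0 : 0 ≤ ∑ u ∈ Fintype.piFinset (fun ℓ : RR => range (ℓ : ℕ)),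
      (∏ ℓ : RR, 1 / ((ℓ : ℕ) : ℝ)) * (∑ σ, c σ * ∏ ℓ : RR, psi (ℓ : ℕ) p (u ℓ) (σ ℓ)) ^ 2 :=
    sum_nonneg fun u _ => by positivity
  have hm := mul_le_mul (mul_le_mul_of_nonneg_left hS (show (0 : ℝ) ≤ 2 * y + 1 by positivity)) ht
    hN0 (mul_nonneg (by positivity) (hS0.trans hS))
  have := (abs_le.1 hq).2
  unfold W0
  linarith

theorem stmtLw (hT : StmtT) (hQ : StmtQ) (h1 : StmtL1) (h2 : StmtL2) : StmtLw := by
  intro QQ RR PP K R Err c q m hd hqp hℓ hP hK hc hR hErr hE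
  have hmod : ∀ (ℓ : ℕ) (n : ℤ), (q : ℤ) - (hh m : ℤ) * n ≡ q - (hh m : ℤ) * (n % (ℓ : ℤ)) [ZMOD ℓ] :=
    fun ℓ n => (Int.ModEq.refl _).sub ((mod_modEq n ℓ).mul_left _)
  have hq := hQ (PP.image fun p : ℕ => (p : ℤ)) (fun ℓ => Ico 1 ℓ) QQ RR K R Err c
    (fun ℓ n => chi K ℓ n ((q : ℤ) - (hh m : ℤ) * n))
    (fun ℓ n o => psi ℓ n ((q : ℤ) - (hh m : ℤ) * n) o) hd
    (fun ℓ h => ⟨(hℓ ℓ h).1.pos, fun r hr => mem_range.2 (mem_Ico.1 hr).2,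
      nonempty_Ico.2 (hℓ ℓ h).1.one_lt, fun n hn => by
        obtain ⟨p, hp, rfl⟩ := mem_image.1 hn
        refine mem_Ico.2 ⟨?_, toNat_lt _ (hℓ ℓ h).1.pos⟩
        have a1 := not_dvd (hℓ ℓ h).1 (hP p hp).1 ((hP p hp).2 ℓ h)
        have a2 : (p : ℤ) % (ℓ : ℤ) ≠ 0 := fun h0 => a1 (Int.dvd_of_emod_eq_zero h0)
        have a3 := Int.emod_nonneg (p : ℤ) (show (ℓ : ℤ) ≠ 0 by exact_mod_cast (hℓ ℓ h).1.pos.ne')
        omega⟩)
    (fun ℓ _ n => ⟨abs_chi _ _ _ _, chi_congr K ℓ (mod_modEq n ℓ) (hmod ℓ n)⟩)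
    (fun ℓ h n o => ⟨abs_psi (hℓ ℓ (mem_union_right _ h)).1.pos _ _ _,
      psi_congr ℓ (mod_modEq n ℓ) (hmod ℓ n) o, rfl⟩)
    hc hR hErr hE
  have hcard : ∀ ℓ ∈ QQ ∪ RR, ((Ico 1 ℓ).card : ℝ) = ℓ - 1 := by
    intro ℓ h
    rw [Nat.card_Ico, Nat.cast_sub (hℓ ℓ h).1.one_le, Nat.cast_one]
  have two : ∀ ℓ ∈ QQ ∪ RR, (2 : ℝ) ≤ ℓ := fun ℓ h => by exact_mod_cast (hℓ ℓ h).1.two_le
  have ht := hT RR (Option (Fin K)) (Option (Fin K)) ℕ (fun _ => univ) (fun ℓ => Ico 1 (ℓ : ℕ))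
    (fun ℓ v => aa m (ℓ : ℕ) v) (fun ℓ _ => 1 / ((Ico 1 (ℓ : ℕ)).card : ℝ))
    (fun ℓ o v => ph m (ℓ : ℕ) o v)
    (fun ℓ o r => psi (ℓ : ℕ) (r : ℤ) ((q : ℤ) - (hh m : ℤ) * r) o)
    (fun ℓ v _ => by
      have l2 := two ℓ (mem_union_right _ ℓ.2)
      cases v with
      | none =>
        simp only [aa]
        rw [sub_nonneg, div_le_one (by positivity)]
        nlinarith
      | some j =>
        simp only [aa]
        split_ifs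
        · exact le_rfl
        · refine mul_nonneg (by positivity) ?_
          rw [sub_nonneg, div_le_one (by positivity)]
          have k1 : 1 ≤ K := m.pos
          have k2 := hK ℓ ℓ.2
          have k3 : 3 * K ≤ (ℓ : ℕ) := by nlinarith
          exact_mod_cast k3)
    (fun ℓ v _ => by positivity)
    (fun ℓ c => by
      have hl := hℓ ℓ (mem_union_right _ ℓ.2)
      rw [hcard ℓ (mem_union_right _ ℓ.2)]
      exact (h1 K ℓ hl.1 (hK ℓ ℓ.2)).2 q m (not_dvd hl.1 hqp hl.2) c) c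
  rw [Fintype.piFinset_univ] at ht
  have inj : Set.InjOn (fun p : ℕ => (p : ℤ)) PP := fun a _ b _ h => Int.ofNat.inj h
  rw [sum_image inj, card_image_of_injOn inj] at hq
  have hS0 : 0 ≤ SS QQ K * ∏ ℓ ∈ QQ, (1 - 1 / (ℓ : ℝ))⁻¹ := by
    refine mul_nonneg (prod_nonneg fun ℓ h => ?_) (prod_nonneg fun ℓ h => ?_)
    · have l2 := two ℓ (mem_union_left _ h)
      have a1 : (nu K ℓ : ℝ) ≤ ℓ := by exact_mod_cast (h2 K ℓ (hℓ ℓ (mem_union_left _ h)).1).1.le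
      rw [sub_nonneg, div_le_one (by positivity)]
      exact a1
    · have l2 := two ℓ (mem_union_left _ h)
      rw [inv_nonneg, sub_nonneg, div_le_one (by positivity)]
      linarith
  have hS : SS QQ K * ∏ ℓ ∈ QQ, (1 - 1 / (ℓ : ℝ))⁻¹ ≤
      ∏ ℓ ∈ QQ, (∑ r ∈ Ico 1 ℓ, chi K ℓ r ((q : ℤ) - (hh m : ℤ) * r)) / ((Ico 1 ℓ).card : ℝ) := by
    rw [SS, ← prod_mul_distrib]
    refine prod_le_prod (fun ℓ h => ?_) fun ℓ h => ?_
    · have l2 := two ℓ (mem_union_left _ h)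
      have a1 : (nu K ℓ : ℝ) ≤ ℓ := by exact_mod_cast (h2 K ℓ (hℓ ℓ (mem_union_left _ h)).1).1.le
      refine mul_nonneg ?_ ?_
      · rw [sub_nonneg, div_le_one (by positivity)]
        exact a1
      · rw [inv_nonneg, sub_nonneg, div_le_one (by positivity)]
        linarith
    · have hl := hℓ ℓ (mem_union_left _ h)
      rw [hcard ℓ (mem_union_left _ h)]
      exact (h2 K ℓ hl.1).2.2 q m (not_dvd hl.1 hqp hl.2)
  have hN0 : 0 ≤ ∑ u ∈ Fintype.piFinset (fun ℓ : RR => Ico 1 (ℓ : ℕ)),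
      (∏ ℓ : RR, 1 / ((Ico 1 (ℓ : ℕ)).card : ℝ)) *
        (∑ σ, c σ * ∏ ℓ : RR, psi (ℓ : ℕ) (u ℓ) ((q : ℤ) - (hh m : ℤ) * (u ℓ)) (σ ℓ)) ^ 2 :=
    sum_nonneg fun u _ => by positivity
  have m1 := mul_le_mul_of_nonneg_left ht hS0
  have m2 := mul_le_mul_of_nonneg_right hS hN0
  have m3 := mul_le_mul_of_nonneg_left (m1.trans m2) (Nat.cast_nonneg (α := ℝ) PP.card)
  have := (abs_le.1 hq).1
  unfold W0 NN
  linarith

end Vale.Agent.N013L
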