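import Vale.Agent.N013L.Def
import Vale.Agent.P031.Mertens

/-! Block V: the one-dimensional sums of the sieve weights. -/

namespace Vale.Agent.N013L

open Finset Real

namespace V

theorem geom_le (B : Finset ℕ) (m : ℕ) (hm : ∀ j ∈ B, m ≤ j) :
    ∑ j ∈ B, (1 / 2 : ℝ) ^ j ≤ 2 * (1 / 2) ^ m := by
  have h1 : B ⊆ Ico m (B.sup id + 1) := fun j hj =>
    mem_Ico.mpr ⟨hm j hj, Nat.lt_succ_of_le (le_sup (f := id) hj)⟩
  refine (sum_le_sum_of_subset_of_nonneg h1 fun _ _ _ => by positivity).trans ?_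
  refine (geom_sum_Ico_le_of_lt_one (by norm_num) (by norm_num)).trans (le_of_eq ?_)
  ring

theorem sq_le (B : Finset ℕ) :
    (∑ j ∈ B, (1 / 2 : ℝ) ^ j) ^ 2 ≤ 4 * ∑ j ∈ B, (1 / 4 : ℝ) ^ j := by
  rcases B.eq_empty_or_nonempty with rfl | hB
  · simp
  have h1 := geom_le B (B.min' hB) fun j hj => B.min'_le j hj
  have h2 : (1 / 4 : ℝ) ^ B.min' hB ≤ ∑ j ∈ B, (1 / 4 : ℝ) ^ j :=
    single_le_sum (f := fun j => (1 / 4 : ℝ) ^ j) (fun _ _ => by positivity) (B.min'_mem hB)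
  have h3 : (2 * (1 / 2 : ℝ) ^ B.min' hB) ^ 2 = 4 * (1 / 4 : ℝ) ^ B.min' hB := by
    rw [mul_pow, ← pow_mul, mul_comm (B.min' hB) 2, pow_mul]
    norm_num
  have h4 : 0 ≤ ∑ j ∈ B, (1 / 2 : ℝ) ^ j := sum_nonneg fun _ _ => by positivity
  calc _ ≤ (2 * (1 / 2 : ℝ) ^ B.min' hB) ^ 2 := pow_le_pow_left₀ h4 h1 2
    _ ≤ _ := by rw [h3]; linarith

theorem moment {ι : Type*} [DecidableEq ι] (x a : ι → ℝ) (hx : ∀ i, 0 ≤ x i) (ha : ∀ i, 0 ≤ a i)
    (P : Finset ι) : ∑ S ∈ P.powerset, (∑ i ∈ S, a i) * ∏ i ∈ S, x i ≤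
      (∏ i ∈ P, (1 + x i)) * ∑ i ∈ P, a i * x i := by
  induction P using Finset.induction_on with
  | empty => simp
  | insert i P hi ih =>
    rw [sum_powerset_insert hi, prod_insert hi, sum_insert hi]
    have h1 : ∑ S ∈ P.powerset, (∑ j ∈ insert i S, a j) * ∏ j ∈ insert i S, x j =
        x i * (∑ S ∈ P.powerset, (∑ j ∈ S, a j) * ∏ j ∈ S, x j) +
          a i * x i * ∏ j ∈ P, (1 + x j) := by
      rw [prod_one_add, mul_sum, mul_sum, ← sum_add_distrib]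
      refine sum_congr rfl fun S hS => ?_
      have : i ∉ S := fun h => hi (mem_powerset.mp hS h)
      rw [sum_insert this, prod_insert this]
      ring
    rw [h1]
    have hV : 0 ≤ ∏ j ∈ P, (1 + x j) := prod_nonneg fun j _ => by linarith [hx j]
    have h2 := mul_le_mul_of_nonneg_left ih (hx i)
    have h3 : 0 ≤ x i * (a i * x i * ∏ j ∈ P, (1 + x j)) :=
      mul_nonneg (hx i) (mul_nonneg (mul_nonneg (ha i) (hx i)) hV)
    nlinarith

variable {RR : Finset ℕ}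

/-- total mass of the subsets of `P` -/
noncomputable def VV (P : Finset RR) : ℝ := ∏ ℓ ∈ P, (1 + 1 / ((ℓ : ℕ) : ℝ))

theorem rr_ge (h : ∀ ℓ ∈ RR, 1 ≤ ℓ) (S : Finset RR) : 1 ≤ rr S := by
  unfold rr
  exact Finset.one_le_prod fun ℓ _ => by exact_mod_cast h ℓ ℓ.2

theorem inv_rr (S : Finset RR) : 1 / rr S = ∏ ℓ ∈ S, 1 / ((ℓ : ℕ) : ℝ) := by
  unfold rr
  rw [prod_div_distrib, prod_const_one]

theorem sum_sub (P : Finset RR) (f : Finset RR → ℝ) :
    ∑ S, (if S ⊆ P then f S else 0) = ∑ S ∈ P.powerset, f S := by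
  rw [← sum_filter, filter_subset_univ]

theorem sum_V (P : Finset RR) : ∑ S ∈ P.powerset, 1 / rr S = VV P := by
  unfold VV
  rw [prod_one_add]
  exact sum_congr rfl fun S _ => inv_rr S

theorem sum_M (h : ∀ ℓ ∈ RR, 1 ≤ ℓ) (P : Finset RR) :
    ∑ S ∈ P.powerset, log (rr S) / rr S ≤
      VV P * ∑ ℓ ∈ P, log ((ℓ : ℕ) : ℝ) / ((ℓ : ℕ) : ℝ) := by
  have h1 := moment (fun ℓ : RR => 1 / ((ℓ : ℕ) : ℝ)) (fun ℓ : RR => log ((ℓ : ℕ) : ℝ))
    (fun _ => by positivity) (fun ℓ => log_natCast_nonneg _) P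
  simp only [mul_one_div] at h1
  refine le_trans (le_of_eq (sum_congr rfl fun S _ => ?_)) h1
  rw [← inv_rr, mul_one_div]
  congr 1
  unfold rr
  refine log_prod fun ℓ _ => ?_
  have := h ℓ ℓ.2
  positivity

/-- the weight attached to a family of sets -/
noncomputable def GP (P : ℕ → Finset RR) (J : ℕ) (S : Finset RR) : ℝ :=
  ∑ j ∈ range (J + 1), if S ⊆ P j then (1 / 2) ^ j else 0

theorem GP_nonneg (P : ℕ → Finset RR) (J : ℕ) (S : Finset RR) : 0 ≤ GP P J S :=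
  sum_nonneg fun _ _ => by split_ifs <;> positivity

theorem GP_le (P : ℕ → Finset RR) (J : ℕ) (S : Finset RR) : GP P J S ≤ 2 := by
  unfold GP
  rw [← sum_filter]
  simpa using geom_le _ 0 fun _ _ => Nat.zero_le _

theorem GP_anti (P : ℕ → Finset RR) (J : ℕ) : Antitone (GP P J) := by
  intro S S' h
  refine sum_le_sum fun j _ => ?_
  by_cases h1 : S' ⊆ P j
  · rw [if_pos h1, if_pos (Subset.trans h h1)]
  · rw [if_neg h1]
    split_ifs <;> positivity

theorem GP_sq (P : ℕ → Finset RR) (J : ℕ) (S : Finset RR) :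
    GP P J S ^ 2 ≤ 4 * ∑ j ∈ range (J + 1), if S ⊆ P j then (1 / 4 : ℝ) ^ j else 0 := by
  unfold GP
  rw [← sum_filter, ← sum_filter]
  exact sq_le _

theorem GP_ge (P : ℕ → Finset RR) (J : ℕ) (S : Finset RR) (h : S ⊆ P 0) : 1 ≤ GP P J S := by
  have := single_le_sum (f := fun j => if S ⊆ P j then (1 / 2 : ℝ) ^ j else 0)
    (fun _ _ => by split_ifs <;> positivity) (mem_range.mpr (Nat.succ_pos J))
  simpa [h, GP] using this

theorem sq_sum (P : ℕ → Finset RR) (J : ℕ) (f : Finset RR → ℝ) (hf : ∀ S, 0 ≤ f S) :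
    ∑ S, GP P J S ^ 2 * f S ≤
      4 * ∑ j ∈ range (J + 1), (1 / 4 : ℝ) ^ j * ∑ S ∈ (P j).powerset, f S := by
  refine (sum_le_sum fun S _ => mul_le_mul_of_nonneg_right (GP_sq P J S) (hf S)).trans ?_
  simp only [mul_assoc]
  rw [← mul_sum]
  refine le_of_eq (congrArg _ ?_)
  simp only [sum_mul]
  rw [sum_comm]
  refine sum_congr rfl fun j _ => ?_
  rw [mul_sum, ← sum_sub]
  exact sum_congr rfl fun S _ => by split_ifs <;> simp

theorem lin_sum (P : ℕ → Finset RR) (J : ℕ) (f : Finset RR → ℝ) :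
    ∑ S, GP P J S * f S =
      ∑ j ∈ range (J + 1), (1 / 2 : ℝ) ^ j * ∑ S ∈ (P j).powerset, f S := by
  unfold GP
  simp only [sum_mul]
  rw [sum_comm]
  refine sum_congr rfl fun j _ => ?_
  rw [mul_sum, ← sum_sub]
  exact sum_congr rfl fun S _ => by split_ifs <;> simp

theorem II_ge (h : ∀ ℓ ∈ RR, 1 ≤ ℓ) (P : ℕ → Finset RR) (J : ℕ) : VV (P 0) ≤ II (GP P J) := by
  unfold II
  rw [← sum_V, ← sum_sub]
  refine sum_le_sum fun S _ => ?_
  have h1 := rr_ge h S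
  split_ifs with h2
  · exact div_le_div_of_nonneg_right (one_le_pow₀ (GP_ge P J S h2)) (by linarith)
  · positivity

theorem VV_ge_one (P : Finset RR) : 1 ≤ VV P :=
  Finset.one_le_prod fun ℓ _ => le_add_of_nonneg_right (by positivity)

theorem core (h : ∀ ℓ ∈ RR, 1 ≤ ℓ) (P : ℕ → Finset RR) (J : ℕ) {b v T R : ℝ} (hb : 1 ≤ b)
    (hv : 0 < v) (hT : 0 < T) (hR : 12 * b ^ 2 * 2 ^ J * T ≤ log R) (hR1 : 1 ≤ R)
    (hlo : ∀ j ≤ J, 2 ^ j * v ≤ b * VV (P j)) (hup : ∀ j ≤ J, VV (P j) ≤ b * (2 ^ j * v))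
    (hA : ∀ j ≤ J, ∑ ℓ ∈ P j, log ((ℓ : ℕ) : ℝ) / ((ℓ : ℕ) : ℝ) ≤ 3 * (2 ^ j * T)) :
    II (GP P J) ≤ 12 * b ^ 2 * v ∧ MM (GP P J) ≤ 12 * b ^ 2 * (J + 1) * T * II (GP P J) ∧
      (J + 1) * v / (12 * b ^ 2) ≤ JJ (GP P J) R := by
  have hr : ∀ S : Finset RR, 0 < rr S := fun S => by linarith [rr_ge h S]
  have hM : ∀ j ≤ J, ∑ S ∈ (P j).powerset, log (rr S) / rr S ≤ VV (P j) * (3 * (2 ^ j * T)) :=
    fun j hj => (sum_M h _).trans
      (mul_le_mul_of_nonneg_left (hA j hj) (by linarith [VV_ge_one (P j)]))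
  have hq : ∀ j : ℕ, (1 / 4 : ℝ) ^ j * 2 ^ j = (1 / 2) ^ j := fun j => by
    rw [← mul_pow]; norm_num
  have hq2 : ∀ j : ℕ, (1 / 2 : ℝ) ^ j * 2 ^ j = 1 := fun j => by
    rw [← mul_pow]; norm_num
  refine ⟨?_, ?_, ?_⟩
  · have h1 := sq_sum P J (fun S => 1 / rr S) fun S => by have := hr S; positivity
    simp only [mul_one_div, sum_V] at h1
    refine le_trans h1 ?_
    have h2 : ∑ j ∈ range (J + 1), (1 / 4 : ℝ) ^ j * VV (P j) ≤
        ∑ j ∈ range (J + 1), (1 / 2 : ℝ) ^ j * (b * v) := by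
      refine sum_le_sum fun j hj => ?_
      refine (mul_le_mul_of_nonneg_left (hup j (Nat.lt_succ_iff.mp (mem_range.mp hj)))
        (by positivity)).trans (le_of_eq ?_)
      rw [← hq]; ring
    rw [← sum_mul] at h2
    have h3 := geom_le (range (J + 1)) 0 fun _ _ => Nat.zero_le _
    have h4 : 0 < b * v := by positivity
    have h5 : b * v ≤ b ^ 2 * v := mul_le_mul_of_nonneg_right (by nlinarith) hv.le
    rw [pow_zero] at h3
    nlinarith
  · have h1 := sq_sum P J (fun S => log (rr S) / rr S) fun S =>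
      div_nonneg (log_nonneg (rr_ge h S)) (hr S).le
    simp only [← mul_div_assoc] at h1
    refine le_trans h1 ?_
    have h2 : ∑ j ∈ range (J + 1), (1 / 4 : ℝ) ^ j * ∑ S ∈ (P j).powerset, log (rr S) / rr S ≤
        ∑ _j ∈ range (J + 1), 3 * b * T * v := by
      refine sum_le_sum fun j hj => ?_
      have hj' := Nat.lt_succ_iff.mp (mem_range.mp hj)
      refine (mul_le_mul_of_nonneg_left ((hM j hj').trans (mul_le_mul_of_nonneg_right (hup j hj')
        (by positivity))) (by positivity)).trans (le_of_eq ?_)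
      calc _ = ((1 / 4 : ℝ) ^ j * 2 ^ j * 2 ^ j) * (3 * b * T * v) := by ring
        _ = _ := by rw [hq, hq2, one_mul]
    rw [sum_const, card_range, nsmul_eq_mul] at h2
    push_cast at h2
    have h3 : v ≤ b * II (GP P J) := by
      have := hlo 0 (Nat.zero_le _)
      rw [pow_zero, one_mul] at this
      exact this.trans (mul_le_mul_of_nonneg_left (II_ge h P J) (by linarith))
    have h4 := mul_le_mul_of_nonneg_left h3
      (show 0 ≤ 12 * b * ((J : ℝ) + 1) * T by positivity)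
    nlinarith
  · have hL : 0 < log R := lt_of_lt_of_le (by positivity) hR
    have h1 : ∑ S, GP P J S * (1 / rr S - 2 / log R * (log (rr S) / rr S)) ≤ JJ (GP P J) R := by
      refine sum_le_sum fun S _ => ?_
      have h0 := GP_nonneg P J S
      have h2 := hr S
      have h3 : 0 ≤ log (rr S) := log_nonneg (rr_ge h S)
      split_ifs with h4
      · rw [← mul_one_div (GP P J S)]
        refine mul_le_mul_of_nonneg_left (sub_le_self _ ?_) h0
        positivity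
      · refine mul_nonpos_of_nonneg_of_nonpos h0 ?_
        have h5 : log R ≤ 2 * log (rr S) := by
          have := log_le_log (by linarith) (not_le.mp h4).le
          rwa [log_pow] at this
        have h6 : 1 ≤ 2 / log R * log (rr S) := by
          rw [div_mul_eq_mul_div, le_div_iff₀ hL]; linarith
        rw [← mul_div_assoc, sub_nonpos]
        exact div_le_div_of_nonneg_right h6 h2.le
    refine le_trans ?_ h1
    rw [lin_sum]
    have h2 : ∑ _j ∈ range (J + 1), v / (12 * b ^ 2) ≤ ∑ j ∈ range (J + 1), (1 / 2 : ℝ) ^ j *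
        ∑ S ∈ (P j).powerset, (1 / rr S - 2 / log R * (log (rr S) / rr S)) := by
      refine sum_le_sum fun j hj => ?_
      have hj' := Nat.lt_succ_iff.mp (mem_range.mp hj)
      rw [sum_sub_distrib, ← mul_sum, sum_V]
      have hV := VV_ge_one (P j)
      have h3 : (2 : ℝ) ^ j ≤ 2 ^ J := pow_le_pow_right₀ one_le_two hj'
      have h4 : 12 * (2 ^ j * T) ≤ log R := by
        refine le_trans ?_ hR
        have a1 : 2 ^ j * T ≤ 2 ^ J * T := mul_le_mul_of_nonneg_right h3 hT.le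
        have a2 : 1 * (2 ^ J * T) ≤ b ^ 2 * (2 ^ J * T) :=
          mul_le_mul_of_nonneg_right (by nlinarith) (by positivity)
        nlinarith
      have h5 : 2 / log R * ∑ S ∈ (P j).powerset, log (rr S) / rr S ≤ VV (P j) / 2 := by
        refine (mul_le_mul_of_nonneg_left (hM j hj') (by positivity)).trans ?_
        rw [div_mul_eq_mul_div, div_le_iff₀ hL]
        nlinarith
      have h6 : v / (12 * b ^ 2) ≤ (1 / 2 : ℝ) ^ j * (VV (P j) / 2) := by
        have a1 := mul_le_mul_of_nonneg_left (hlo j hj') (show 0 ≤ (1 / 2 : ℝ) ^ j by positivity)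
        rw [← mul_assoc, hq2, one_mul] at a1
        rw [div_le_iff₀ (by positivity)]
        have a2 : 0 ≤ (1 / 2 : ℝ) ^ j * VV (P j) := by positivity
        have a3 : b * ((1 / 2 : ℝ) ^ j * VV (P j)) ≤ b ^ 2 * ((1 / 2 : ℝ) ^ j * VV (P j)) :=
          mul_le_mul_of_nonneg_right (by nlinarith) a2
        nlinarith
      exact h6.trans (mul_le_mul_of_nonneg_left (by linarith) (by positivity))
    rw [sum_const, card_range, nsmul_eq_mul] at h2
    push_cast at h2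
    rw [mul_div_assoc]
    exact h2

theorem exp_le_one_add {u : ℝ} (hu : 0 ≤ u) : exp (u - u ^ 2) ≤ 1 + u := by
  have h1 : 0 < 1 + u := by linarith
  rw [← le_log_iff_exp_le h1]
  have h2 := one_sub_inv_le_log_of_pos h1
  refine le_trans ?_ h2
  have h3 : (1 + u)⁻¹ ≤ 1 - u + u ^ 2 := by
    rw [inv_eq_one_div, div_le_iff₀ h1]
    nlinarith [pow_nonneg hu 3]
  linarith

theorem mertens {w : ℕ} {z : ℝ} (hw : 3 ≤ w) (hz : (w : ℝ) ≤ z) :
    |∑ ℓ ∈ RRs w z, (1 : ℝ) / ℓ - (log (log z) - log (log w))| ≤ 43 := by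
  have hw' : (3 : ℝ) ≤ w := by exact_mod_cast hw
  have h1 := abs_le.mp (P031.mertens_explicit z (hw'.trans hz))
  have h2 := abs_le.mp (P031.mertens_explicit w hw')
  rw [Nat.floor_natCast] at h2
  have hwz : w ≤ ⌊z⌋₊ := Nat.le_floor hz
  have h3 : ∑ p ∈ (range (⌊z⌋₊ + 1)).filter Nat.Prime, (1 : ℝ) / p =
      ∑ p ∈ (range w).filter Nat.Prime, (1 : ℝ) / p + ∑ ℓ ∈ RRs w z, (1 : ℝ) / ℓ := by
    unfold RRs
    rw [sum_filter, sum_filter, sum_filter, range_eq_Ico, range_eq_Ico, ← Ico_add_one_right_eq_Icc,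
      sum_Ico_consecutive _ (Nat.zero_le _) (by omega)]
  have h4 : ∑ p ∈ (range (w + 1)).filter Nat.Prime, (1 : ℝ) / p =
      ∑ p ∈ (range w).filter Nat.Prime, (1 : ℝ) / p + if w.Prime then (1 : ℝ) / w else 0 := by
    rw [sum_filter, sum_filter, sum_range_succ]
  have h5 : 0 ≤ (if w.Prime then (1 : ℝ) / w else 0) ∧ (if w.Prime then (1 : ℝ) / w else 0) ≤ 1 := by
    split_ifs
    · exact ⟨by positivity, by rw [div_le_one (by linarith)]; linarith⟩
    · exact ⟨le_rfl, zero_le_one⟩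
  rw [abs_le]
  constructor <;> linarith [h1.1, h1.2, h2.1, h2.2, h5.1, h5.2]

theorem prod_bounds {w : ℕ} {z : ℝ} (hw : 3 ≤ w) (hz : (w : ℝ) ≤ z) :
    log z / log w ≤ exp 44 * ∏ ℓ ∈ RRs w z, (1 + (1 : ℝ) / ℓ) ∧
      ∏ ℓ ∈ RRs w z, (1 + (1 : ℝ) / ℓ) ≤ exp 44 * (log z / log w) := by
  have hw' : (3 : ℝ) ≤ w := by exact_mod_cast hw
  have hlw : 0 < log (w : ℝ) := log_pos (by linarith)
  have hlz : 0 < log z := log_pos (by linarith)
  have h0 : log z / log w = exp (log (log z) - log (log w)) := by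
    rw [exp_sub, exp_log hlz, exp_log hlw]
  have h1 := abs_le.mp (mertens hw hz)
  rw [h0]
  constructor
  · have h2 : ∑ ℓ ∈ RRs w z, ((1 : ℝ) / ℓ) ^ 2 ≤ 1 := by
      have a1 : RRs w z ⊆ Ioo 1 (⌊z⌋₊ + 1) := fun ℓ hℓ => by
        have := mem_Icc.mp (mem_filter.mp hℓ).1
        rw [mem_Ioo]; omega
      have a2 := sum_Ioo_inv_sq_le (α := ℝ) 1 (⌊z⌋₊ + 1)
      refine le_trans ?_ (a2.trans (by norm_num))
      refine le_trans (le_of_eq (sum_congr rfl fun ℓ _ => ?_))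
        (sum_le_sum_of_subset_of_nonneg a1 fun _ _ _ => by positivity)
      rw [one_div, inv_pow]
    have h3 : exp (∑ ℓ ∈ RRs w z, ((1 : ℝ) / ℓ - ((1 : ℝ) / ℓ) ^ 2)) ≤
        ∏ ℓ ∈ RRs w z, (1 + (1 : ℝ) / ℓ) := by
      rw [exp_sum]
      exact prod_le_prod (fun _ _ => (exp_pos _).le) fun ℓ _ => exp_le_one_add (by positivity)
    refine le_trans ?_ (mul_le_mul_of_nonneg_left h3 (exp_pos _).le)
    rw [← exp_add, exp_le_exp, sum_sub_distrib]
    linarith [h1.1]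
  · refine (prod_one_add_le_exp_sum _ fun ℓ => by positivity).trans ?_
    rw [← exp_add, exp_le_exp]
    linarith [h1.2]

theorem log_sum {w : ℕ} {z : ℝ} (hz : 3 ≤ z) :
    ∑ ℓ ∈ RRs w z, log (ℓ : ℝ) / ℓ ≤ 3 * log z := by
  have h0 : 1 ≤ ⌊z⌋₊ := Nat.le_floor (by push_cast; linarith)
  have h1 := P003.sum_log_div_le ⌊z⌋₊ h0
  have h2 : RRs w z ⊆ P003.PLE ⌊z⌋₊ := fun ℓ hℓ => by
    have h := mem_filter.mp hℓ
    have := mem_Icc.mp h.1
    exact mem_filter.mpr ⟨mem_range.mpr (by omega), h.2⟩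
  have h3 : log (⌊z⌋₊ : ℝ) ≤ log z :=
    log_le_log (by exact_mod_cast h0) (Nat.floor_le (by linarith))
  have h4 : log 4 ≤ 2 * log z := by
    have := log_le_log (show (0 : ℝ) < 4 by norm_num) (show 4 ≤ z ^ 2 by nlinarith)
    rwa [log_pow] at this
  refine (sum_le_sum_of_subset_of_nonneg h2 fun ℓ _ _ =>
    div_nonneg (log_natCast_nonneg _) (Nat.cast_nonneg _)).trans ?_
  linarith

/-- the primes of the `j`-th level -/
noncomputable def lev (RR : Finset ℕ) (T : ℝ) (j : ℕ) : Finset RR :=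
  univ.filter fun ℓ => log ((ℓ : ℕ) : ℝ) ≤ 2 ^ j * T

theorem GG_eq (RR : Finset ℕ) (T : ℝ) (J : ℕ) :
    (GG T J : Finset RR → ℝ) = GP (lev RR T) J := by
  funext S
  refine sum_congr rfl fun j _ => if_congr ?_ rfl rfl
  simp [lev, subset_iff]

theorem lev_map {w J j : ℕ} {T : ℝ} (hT : 0 ≤ T) (hj : j ≤ J) :
    (lev (RRs w (exp (2 ^ J * T))) T j).map (Function.Embedding.subtype _) =
      RRs w (exp (2 ^ j * T)) := by
  ext ℓ
  have h1 : (2 : ℝ) ^ j * T ≤ 2 ^ J * T :=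
    mul_le_mul_of_nonneg_right (pow_le_pow_right₀ one_le_two hj) hT
  simp only [lev, mem_map, mem_filter, mem_univ, true_and, Function.Embedding.subtype_apply,
    Subtype.exists, exists_and_right, exists_eq_right, exists_prop]
  unfold RRs
  simp only [mem_filter, mem_Icc, Nat.le_floor_iff (exp_pos _).le]
  constructor
  · rintro ⟨⟨⟨a1, -⟩, a2⟩, a3⟩
    exact ⟨⟨a1, (log_le_iff_le_exp (by exact_mod_cast a2.pos)).mp a3⟩, a2⟩
  · rintro ⟨⟨a1, a2⟩, a3⟩
    exact ⟨⟨⟨a1, a2.trans (exp_le_exp.mpr h1)⟩, a3⟩,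
      (log_le_iff_le_exp (by exact_mod_cast a3.pos)).mpr a2⟩

end V

theorem stmtV : StmtV := by
  have hb : (1 : ℝ) ≤ exp 44 := one_le_exp (by norm_num)
  have hC : (1 : ℝ) ≤ 12 * exp 44 ^ 2 := by nlinarith
  refine ⟨12 * exp 44 ^ 2, hC, fun w J T R hw hT hR hR1 G hG => ?_⟩
  have hw' : (3 : ℝ) ≤ w := by exact_mod_cast hw
  have hlw : 0 < log (w : ℝ) := log_pos (by linarith)
  have hT1 : log w ≤ T := le_trans (le_mul_of_one_le_left hlw.le hC) hT
  have hT0 : 0 < T := hlw.trans_le hT1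
  have hz : ∀ j : ℕ, (w : ℝ) ≤ exp (2 ^ j * T) := fun j => by
    rw [← log_le_iff_le_exp (by linarith)]
    exact hT1.trans (le_mul_of_one_le_left hT0.le (one_le_pow₀ one_le_two))
  have h1 : ∀ ℓ ∈ RRs w (exp (2 ^ J * T)), 1 ≤ ℓ := fun ℓ hℓ => (mem_filter.mp hℓ).2.pos
  have hV : ∀ j ≤ J, V.VV (V.lev (RRs w (exp (2 ^ J * T))) T j) =
      ∏ ℓ ∈ RRs w (exp (2 ^ j * T)), (1 + (1 : ℝ) / ℓ) := fun j hj => by
    rw [← V.lev_map hT0.le hj, prod_map]
    rfl
  have hP : ∀ j : ℕ, log (exp (2 ^ j * T)) / log w = 2 ^ j * (T / log w) := fun j => by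
    rw [log_exp, mul_div_assoc]
  rw [hG, V.GG_eq]
  obtain ⟨a1, a2, a3⟩ := V.core h1 (V.lev _ T) J hb (div_pos hT0 hlw) hT0 hR hR1
    (fun j hj => by rw [hV j hj, ← hP]; exact (V.prod_bounds hw (hz j)).1)
    (fun j hj => by rw [hV j hj, ← hP]; exact (V.prod_bounds hw (hz j)).2)
    (fun j hj => by
      have := V.log_sum (w := w) (hw'.trans (hz j))
      rw [← V.lev_map hT0.le hj, sum_map, log_exp] at this
      exact this)
  refine ⟨fun S => ⟨V.GP_nonneg _ _ S, V.GP_le _ _ S⟩, V.GP_anti _ _,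
    (V.VV_ge_one _).trans (V.II_ge h1 _ _), ?_, a2, ?_⟩
  · rw [mul_div_assoc]; exact a1
  · refine le_trans (le_of_eq ?_) a3
    field_simp

end Vale.Agent.N013L
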