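import Vale.Agent.N013L.Def2

/-! Block Mom1: the second moment of the mass of the edges meeting a small set. -/

namespace Vale.Agent.N013L

open Finset Real

theorem mom1_sum_dg (V : Finset ℤ) (PP : Finset ℕ) (ν : ℕ → Finset ℤ → ℝ) (g : Finset ℤ) :
    ∑ x ∈ PP ×ˢ V.powerset, ν x.1 x.2 * (if g ⊆ x.2 then 1 else 0) = ∑ p ∈ PP, dg V ν p g := by
  rw [sum_product]
  refine sum_congr rfl fun p _ => sum_congr rfl fun T _ => ?_
  split_ifs <;> simp

theorem mom1_card (T f : Finset ℤ) :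
    ((T ∩ f).card : ℝ) = ∑ a ∈ f, if ({a} : Finset ℤ) ⊆ T then 1 else 0 := by
  rw [sum_boole]
  congr 2
  ext a
  simp [and_comm]

theorem mom1_off (T f : Finset ℤ) :
    ((T ∩ f).card : ℝ) * ((T ∩ f).card - 1) =
      ∑ q ∈ f.offDiag, if ({q.1, q.2} : Finset ℤ) ⊆ T then 1 else 0 := by
  rw [sum_boole]
  have e : (f.offDiag.filter fun q => ({q.1, q.2} : Finset ℤ) ⊆ T) = (T ∩ f).offDiag := by
    ext ⟨a, b⟩
    simp only [mem_filter, mem_offDiag, insert_subset_iff, singleton_subset_iff, mem_inter]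
    tauto
  rw [e, offDiag_card, Nat.cast_sub (Nat.le_mul_self _)]
  push_cast
  ring

theorem mom1_E1 (V : Finset ℤ) (μ : Finset ℤ → ℝ) (ρ : ℝ) (f T : Finset ℤ) :
    Ef V μ f (fun U => wT ρ T U) = Ef V μ (f ∪ T) (fun _ => 1) / ρ ^ T.card := by
  unfold Ef wT
  rw [sum_div]
  refine sum_congr rfl fun U _ => ?_
  by_cases h1 : f ⊆ U <;> by_cases h2 : T ⊆ U <;> simp [h1, h2, union_subset_iff, div_eq_mul_inv]

theorem mom1_E2 (V : Finset ℤ) (μ : Finset ℤ → ℝ) (ρ : ℝ) (f T T' : Finset ℤ) :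
    Ef V μ f (fun U => wT ρ T U * wT ρ T' U) =
      Ef V μ (f ∪ T ∪ T') (fun _ => 1) / ρ ^ (T.card + T'.card) := by
  unfold Ef wT
  rw [sum_div]
  refine sum_congr rfl fun U _ => ?_
  by_cases h1 : f ⊆ U <;> by_cases h2 : T ⊆ U <;> by_cases h3 : T' ⊆ U <;>
    simp [h1, h2, h3, union_subset_iff, div_eq_mul_inv, pow_add, mul_comm]

theorem mom1_expand (V : Finset ℤ) (μ : Finset ℤ → ℝ) (f : Finset ℤ) {ι : Type} (S : Finset ι)
    (n : ι → ℝ) (w : ι → Finset ℤ → ℝ) (c : ℝ) :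
    Ef V μ f (fun U => (1 / 2 * ∑ x ∈ S, n x * w x U - 2 * c) ^ 2) =
      1 / 4 * ∑ x ∈ S, ∑ y ∈ S, n x * n y * Ef V μ f (fun U => w x U * w y U) -
        2 * c * ∑ x ∈ S, n x * Ef V μ f (fun U => w x U) + 4 * c ^ 2 * Ef V μ f (fun _ => 1) := by
  have e : ∀ g : Finset ℤ → ℝ,
      Ef V μ f g = ∑ U ∈ V.powerset, (if f ⊆ U then μ U else 0) * g U := by
    intro g
    refine sum_congr rfl fun U _ => ?_
    split_ifs <;> simp
  simp only [e]
  generalize (fun U => if f ⊆ U then μ U else 0) = z at *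
  simp only [mul_sum]
  rw [sum_comm (s := S) (t := V.powerset)]
  have e2 : ∑ x ∈ S, ∑ y ∈ S, ∑ U ∈ V.powerset,
      1 / 4 * (n x * n y * ((if f ⊆ U then μ U else 0) * (w x U * w y U))) =
      ∑ U ∈ V.powerset, ∑ x ∈ S, ∑ y ∈ S,
      1 / 4 * (n x * n y * ((if f ⊆ U then μ U else 0) * (w x U * w y U))) := by
    rw [sum_comm (s := V.powerset)]
    exact sum_congr rfl fun x _ => sum_comm
  rw [e2, ← sum_sub_distrib, ← sum_add_distrib]
  refine sum_congr rfl fun U _ => ?_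
  generalize (if f ⊆ U then μ U else 0) = z
  have e3 : ∑ x ∈ S, ∑ y ∈ S, 1 / 4 * (n x * n y * (z * (w x U * w y U))) =
      1 / 4 * z * (∑ x ∈ S, n x * w x U) ^ 2 := by
    rw [sq, sum_mul_sum, mul_sum]
    refine sum_congr rfl fun x _ => ?_
    rw [mul_sum]
    exact sum_congr rfl fun y _ => by ring
  have e4 : ∑ x ∈ S, 2 * c * (n x * (z * w x U)) = 2 * c * z * ∑ x ∈ S, n x * w x U := by
    rw [mul_sum]
    exact sum_congr rfl fun y _ => by ring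
  rw [e3, e4, ← mul_sum]
  ring

theorem mom1_pair {ρ : ℝ} (r0 : 0 < ρ) (r1 : ρ ≤ 1) {K : ℕ} {η : ℝ} (e0 : 0 ≤ η) (e1 : η ≤ 1)
    {f T T' : Finset ℤ} (hT : T.card ≤ K) (hT' : T'.card ≤ K) (h : ¬ Disjoint T f)
    (h' : ¬ Disjoint T' f) :
    (1 + η) * ρ ^ (f ∪ T ∪ T').card / ρ ^ (T.card + T'.card) ≤
      (1 + η) * ρ ^ f.card / ρ ^ 2 + 2 * ρ ^ f.card / ρ ^ (2 * K) *
        (((T ∩ f).card : ℝ) * ((T ∩ f).card - 1) + ((T' ∩ f).card : ℝ) * ((T' ∩ f).card - 1) +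
          ∑ q ∈ (T \ f) ×ˢ f, if ({q.1, q.2} : Finset ℤ) ⊆ T' then 1 else 0) := by
  have j1 : 1 ≤ (T ∩ f).card := card_pos.2 (not_disjoint_iff_nonempty_inter.1 h)
  have j2 : 1 ≤ (T' ∩ f).card := card_pos.2 (not_disjoint_iff_nonempty_inter.1 h')
  have j1' : (1 : ℝ) ≤ (T ∩ f).card := by exact_mod_cast j1
  have j2' : (1 : ℝ) ≤ (T' ∩ f).card := by exact_mod_cast j2
  have a1 : 0 ≤ ((T ∩ f).card : ℝ) * ((T ∩ f).card - 1) := mul_nonneg (by linarith) (by linarith)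
  have a2 : 0 ≤ ((T' ∩ f).card : ℝ) * ((T' ∩ f).card - 1) := mul_nonneg (by linarith) (by linarith)
  have a3 : (0 : ℝ) ≤ ∑ q ∈ (T \ f) ×ˢ f, if ({q.1, q.2} : Finset ℤ) ⊆ T' then 1 else 0 :=
    sum_nonneg fun q _ => by split_ifs <;> norm_num
  have b0 : 0 ≤ 2 * ρ ^ f.card / ρ ^ (2 * K) := by positivity
  by_cases hg : (T ∩ f).card = 1 ∧ (T' ∩ f).card = 1 ∧ T ∩ T' ⊆ f
  · obtain ⟨g1, g2, g3⟩ := hg
    have c1 := card_union_add_card_inter f T
    have c2 := card_union_add_card_inter (f ∪ T) T'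
    have c3 : (f ∪ T) ∩ T' = T' ∩ f := by
      ext a
      simp only [mem_inter, mem_union]
      constructor
      · rintro ⟨h1 | h1, h2⟩
        · exact ⟨h2, h1⟩
        · exact ⟨h2, g3 (mem_inter.2 ⟨h1, h2⟩)⟩
      · exact fun h1 => ⟨Or.inl h1.2, h1.1⟩
    rw [c3] at c2
    rw [inter_comm] at c1
    have c4 : (f ∪ T ∪ T').card + 2 = f.card + (T.card + T'.card) := by omega
    have c5 : (1 + η) * ρ ^ (f ∪ T ∪ T').card / ρ ^ (T.card + T'.card) =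
        (1 + η) * ρ ^ f.card / ρ ^ 2 := by
      rw [div_eq_div_iff (by positivity) (by positivity), mul_assoc, mul_assoc, ← pow_add, ← pow_add,
        c4]
    rw [c5]
    exact le_add_of_nonneg_right (mul_nonneg b0 (by linarith))
  · have c1 : 1 ≤ ((T ∩ f).card : ℝ) * ((T ∩ f).card - 1) +
        ((T' ∩ f).card : ℝ) * ((T' ∩ f).card - 1) +
          ∑ q ∈ (T \ f) ×ˢ f, if ({q.1, q.2} : Finset ℤ) ⊆ T' then 1 else 0 := by
      by_cases g1 : (T ∩ f).card = 1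
      · by_cases g2 : (T' ∩ f).card = 1
        · have g3 : ¬ T ∩ T' ⊆ f := fun g3 => hg ⟨g1, g2, g3⟩
          obtain ⟨b, hb, hbf⟩ := not_subset.1 g3
          obtain ⟨a, ha⟩ := not_disjoint_iff_nonempty_inter.1 h'
          have g4 := single_le_sum (s := (T \ f) ×ˢ f)
            (f := fun q : ℤ × ℤ => if ({q.1, q.2} : Finset ℤ) ⊆ T' then (1 : ℝ) else 0)
            (fun q _ => by split_ifs <;> norm_num) (a := (b, a))
            (mem_product.2 ⟨mem_sdiff.2 ⟨(mem_inter.1 hb).1, hbf⟩, (mem_inter.1 ha).2⟩)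
          rw [if_pos (by
            simp only [insert_subset_iff, singleton_subset_iff]
            exact ⟨(mem_inter.1 hb).2, (mem_inter.1 ha).1⟩)] at g4
          linarith
        · have g5 : (2 : ℝ) ≤ (T' ∩ f).card := by exact_mod_cast (by omega : 2 ≤ (T' ∩ f).card)
          nlinarith
      · have g5 : (2 : ℝ) ≤ (T ∩ f).card := by exact_mod_cast (by omega : 2 ≤ (T ∩ f).card)
        nlinarith
    have c2 : (1 + η) * ρ ^ (f ∪ T ∪ T').card / ρ ^ (T.card + T'.card) ≤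
        2 * ρ ^ f.card / ρ ^ (2 * K) := by
      refine div_le_div₀ (by positivity) (mul_le_mul (by linarith) ?_ (by positivity) (by norm_num))
        (by positivity) (pow_le_pow_of_le_one r0.le r1 (by omega))
      exact pow_le_pow_of_le_one r0.le r1
        (card_le_card (subset_union_left.trans subset_union_left))
    have c3 : 0 ≤ (1 + η) * ρ ^ f.card / ρ ^ 2 := by positivity
    nlinarith

theorem mom1_num {K m : ℕ} {ρ η δ Δ k P A B X Y Z : ℝ} (hK : 1 ≤ K) (r0 : 0 < ρ) (r1 : ρ ≤ 1)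
    (e0 : 0 ≤ η) (e1 : η ≤ 1) (d0 : 0 ≤ δ) (hΔ : (m + 3 * K : ℝ) * δ / ρ ^ (2 * K) ≤ Δ)
    (k0 : 0 ≤ k) (km : k ≤ m) (P0 : 0 < P) (A0 : 0 ≤ A) (A1 : A ≤ 4 * k * ρ)
    (A2 : 4 * k * ρ - k ^ 2 * δ ≤ A) (M2 : B ≤ k ^ 2 * δ) (F1 : A * ((1 - η) * P / ρ) ≤ Y)
    (F2 : X ≤ A * ((1 + η) * P / ρ ^ 2 * A + 2 * P / ρ ^ (2 * K) * (k ^ 2 * δ + K * k * δ)) +
      2 * P / ρ ^ (2 * K) * A * B) (F3 : Z ≤ (1 + η) * P) :
    1 / 4 * X - 2 * k * Y + 4 * k ^ 2 * Z ≤ 16 * k ^ 2 * (η + Δ) * P := by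
  have hD2 : δ / ρ ≤ δ / ρ ^ (2 * K) := by
    refine div_le_div_of_nonneg_left d0 (by positivity) ?_
    have := pow_le_pow_of_le_one r0.le r1 (show 1 ≤ 2 * K by omega)
    rwa [pow_one] at this
  have hD1 : (m + 3 * K) * (δ / ρ ^ (2 * K)) ≤ Δ := by rw [← mul_div_assoc]; exact hΔ
  have K1 : (1 : ℝ) ≤ K := by exact_mod_cast hK
  have g1 : A * ((1 + η) * P / ρ ^ 2 * A) ≤ 16 * k ^ 2 * (1 + η) * P := by
    have : A * A ≤ (4 * k * ρ) * (4 * k * ρ) := mul_self_le_mul_self A0 A1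
    calc A * ((1 + η) * P / ρ ^ 2 * A) = (1 + η) * P / ρ ^ 2 * (A * A) := by ring
      _ ≤ (1 + η) * P / ρ ^ 2 * ((4 * k * ρ) * (4 * k * ρ)) :=
        mul_le_mul_of_nonneg_left this (by positivity)
      _ = 16 * k ^ 2 * (1 + η) * P := by field_simp; ring
  have A3 : A ≤ 4 * k := A1.trans (mul_le_of_le_one_right (by positivity) r1)
  have g2 : A * (2 * P / ρ ^ (2 * K) * (k ^ 2 * δ + K * k * δ)) + 2 * P / ρ ^ (2 * K) * A * B ≤
      8 * k ^ 2 * P * ((2 * k + K) * (δ / ρ ^ (2 * K))) := by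
    have h1 : 2 * P / ρ ^ (2 * K) * A * B ≤ 2 * P / ρ ^ (2 * K) * A * (k ^ 2 * δ) :=
      mul_le_mul_of_nonneg_left M2 (by positivity)
    have h2 : A * (2 * P / ρ ^ (2 * K) * (2 * k ^ 2 * δ + K * k * δ)) ≤
        4 * k * (2 * P / ρ ^ (2 * K) * (2 * k ^ 2 * δ + K * k * δ)) :=
      mul_le_mul_of_nonneg_right A3 (by positivity)
    have h3 : 4 * k * (2 * P / ρ ^ (2 * K) * (2 * k ^ 2 * δ + K * k * δ)) =
        8 * k ^ 2 * P * ((2 * k + K) * (δ / ρ ^ (2 * K))) := by ring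
    have h4 : A * (2 * P / ρ ^ (2 * K) * (2 * k ^ 2 * δ + K * k * δ)) =
        A * (2 * P / ρ ^ (2 * K) * (k ^ 2 * δ + K * k * δ)) +
          2 * P / ρ ^ (2 * K) * A * (k ^ 2 * δ) := by ring
    linarith
  have D0 : 0 ≤ δ / ρ ^ (2 * K) := by positivity
  have g3 : 4 * k * (1 - η) * P - k ^ 2 * P * (δ / ρ ^ (2 * K)) ≤ A * ((1 - η) * P / ρ) := by
    have h1 : (4 * k * ρ - k ^ 2 * δ) * ((1 - η) * P / ρ) ≤ A * ((1 - η) * P / ρ) :=
      mul_le_mul_of_nonneg_right A2 (div_nonneg (mul_nonneg (by linarith) P0.le) r0.le)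
    have h2 : (4 * k * ρ - k ^ 2 * δ) * ((1 - η) * P / ρ) =
        4 * k * (1 - η) * P - k ^ 2 * P * ((1 - η) * (δ / ρ)) := by field_simp
    have h3 : (1 - η) * (δ / ρ) ≤ δ / ρ ^ (2 * K) :=
      (mul_le_of_le_one_left (by positivity) (by linarith)).trans hD2
    have h4 := mul_le_mul_of_nonneg_left h3 (show 0 ≤ k ^ 2 * P by positivity)
    linarith
  generalize δ / ρ ^ (2 * K) = D at *
  have g4 := mul_le_mul_of_nonneg_left (g3.trans F1) (show 0 ≤ 2 * k by positivity)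
  have g5 := mul_le_mul_of_nonneg_left F3 (show 0 ≤ 4 * k ^ 2 by positivity)
  have g6 : (6 * k + 2 * K) * D ≤ 16 * Δ := by
    have h1 : (6 * k + 2 * K) * D ≤ (16 * (m + 3 * K)) * D :=
      mul_le_mul_of_nonneg_right (by linarith) D0
    linarith
  have g7 := mul_le_mul_of_nonneg_left g6 (show 0 ≤ k ^ 2 * P by positivity)
  rw [mul_add] at F2
  linarith

theorem stmtMom1 : StmtMom1 := by
  intro V PP ν K δ μ m ρ η Δ R f hf hm
  obtain ⟨E, L, deg, r0, r1, e0, e1, d0, hΔ, d1⟩ := R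
  set k : ℝ := (f.card : ℝ) with hk
  have k0 : 0 ≤ k := Nat.cast_nonneg _
  have km : k ≤ m := by rw [hk]; exact_mod_cast hm
  set S := (PP ×ˢ V.powerset).filter fun x => ¬ Disjoint x.2 f with hS
  have sub : ∀ g : ℕ × Finset ℤ → ℝ, (∀ x, 0 ≤ g x) →
      ∑ x ∈ S, ν x.1 x.2 * g x ≤ ∑ x ∈ PP ×ˢ V.powerset, ν x.1 x.2 * g x := fun g hg =>
    sum_le_sum_of_subset_of_nonneg (filter_subset _ _) fun x _ _ => mul_nonneg (E.nonneg _ _) (hg x)
  have hY : ∀ U, YY V PP ν ρ f U = 1 / 2 * ∑ x ∈ S, ν x.1 x.2 * wT ρ x.2 U := by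
    intro U
    unfold YY
    rw [hS, sum_filter, sum_product]
    congr 1
    refine sum_congr rfl fun p _ => sum_congr rfl fun T _ => ?_
    by_cases h : Disjoint T f <;> simp [h]
  have M1 : ∑ x ∈ S, ν x.1 x.2 * ((x.2 ∩ f).card : ℝ) = 4 * k * ρ := by
    have h1 : ∑ x ∈ S, ν x.1 x.2 * ((x.2 ∩ f).card : ℝ) =
        ∑ x ∈ PP ×ˢ V.powerset, ν x.1 x.2 * ((x.2 ∩ f).card : ℝ) := by
      rw [hS, sum_filter]
      refine sum_congr rfl fun x _ => ?_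
      by_cases h : Disjoint x.2 f
      · simp [h, disjoint_iff_inter_eq_empty.1 h]
      · simp [h]
    rw [h1]
    simp only [mom1_card, mul_sum]
    rw [sum_comm, sum_congr rfl fun a ha => (mom1_sum_dg V PP ν {a}).trans (deg a (hf ha)),
      sum_const, nsmul_eq_mul]
    ring
  have pairs : ∀ Q : Finset (ℤ × ℤ), (∀ q ∈ Q, q.1 ≠ q.2) →
      ∑ x ∈ S, ν x.1 x.2 * (∑ q ∈ Q, if ({q.1, q.2} : Finset ℤ) ⊆ x.2 then 1 else 0) ≤
        Q.card * δ := by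
    intro Q hQ
    refine (sub _ fun x => sum_nonneg fun q _ => by split_ifs <;> norm_num).trans ?_
    simp only [mul_sum]
    rw [sum_comm, ← nsmul_eq_mul]
    refine sum_le_card_nsmul _ _ _ fun q hq => ?_
    rw [mom1_sum_dg]
    exact E.codeg _ _ (hQ q hq)
  have M2 : ∑ x ∈ S, ν x.1 x.2 * (((x.2 ∩ f).card : ℝ) * ((x.2 ∩ f).card - 1)) ≤ k ^ 2 * δ := by
    simp only [mom1_off]
    refine (pairs _ fun q hq => (mem_offDiag.1 hq).2.2).trans (mul_le_mul_of_nonneg_right ?_ d0)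
    rw [offDiag_card, hk, sq]
    exact_mod_cast Nat.sub_le _ _
  have M3 : ∀ T : Finset ℤ, T.card ≤ K → ∑ x ∈ S, ν x.1 x.2 *
      (∑ q ∈ (T \ f) ×ˢ f, if ({q.1, q.2} : Finset ℤ) ⊆ x.2 then 1 else 0) ≤ K * k * δ := by
    intro T hT
    refine (pairs _ fun q hq => ?_).trans (mul_le_mul_of_nonneg_right ?_ d0)
    · intro e
      obtain ⟨q1, q2⟩ := mem_product.1 hq
      exact (mem_sdiff.1 q1).2 (e ▸ q2)
    · rw [card_product, hk]
      exact_mod_cast Nat.mul_le_mul_right _ ((card_le_card sdiff_subset).trans hT)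
  have jS : ∀ x ∈ S, (1 : ℝ) ≤ (x.2 ∩ f).card := fun x hx => by
    exact_mod_cast card_pos.2 (not_disjoint_iff_nonempty_inter.1 (mem_filter.1 hx).2)
  set A := ∑ x ∈ S, ν x.1 x.2 with hA
  set B := ∑ x ∈ S, ν x.1 x.2 * (((x.2 ∩ f).card : ℝ) * ((x.2 ∩ f).card - 1)) with hB
  have A0 : 0 ≤ A := sum_nonneg fun x _ => E.nonneg _ _
  have A1 : A ≤ 4 * k * ρ := by
    rw [← M1]
    exact sum_le_sum fun x hx => le_mul_of_one_le_right (E.nonneg _ _) (jS x hx)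
  have A2 : 4 * k * ρ - k ^ 2 * δ ≤ A := by
    have : 4 * k * ρ - B ≤ A := by
      rw [← M1, hB, ← sum_sub_distrib]
      refine sum_le_sum fun x hx => ?_
      rw [← mul_sub]
      refine mul_le_of_le_one_right (E.nonneg _ _) ?_
      nlinarith [jS x hx]
    linarith
  have up : ∀ g ⊆ V, g.card ≤ m + 3 * K → Ef V μ g (fun _ => 1) ≤ (1 + η) * ρ ^ g.card :=
    fun g hg hc => by have := (abs_le.1 (L.inv g hg hc)).2; linarith
  have lo : ∀ g ⊆ V, g.card ≤ m + 3 * K → (1 - η) * ρ ^ g.card ≤ Ef V μ g (fun _ => 1) :=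
    fun g hg hc => by have := (abs_le.1 (L.inv g hg hc)).1; linarith
  have F1 : A * ((1 - η) * ρ ^ f.card / ρ) ≤ ∑ x ∈ S, ν x.1 x.2 * Ef V μ f (fun U => wT ρ x.2 U) := by
    rw [hA, sum_mul]
    refine sum_le_sum fun x hx => ?_
    by_cases h0 : ν x.1 x.2 = 0
    · simp [h0]
    refine mul_le_mul_of_nonneg_left ?_ (E.nonneg _ _)
    obtain ⟨t1, t2⟩ := E.supp _ _ h0
    have c1 := card_union_add_card_inter f x.2
    have c2 : 1 ≤ (x.2 ∩ f).card := by exact_mod_cast jS x hx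
    rw [inter_comm] at c1
    rw [mom1_E1, div_le_div_iff₀ r0 (by positivity)]
    refine le_trans ?_ (mul_le_mul_of_nonneg_right (lo _ (union_subset hf t1) (by omega)) r0.le)
    rw [mul_assoc, mul_assoc, ← pow_add, ← pow_succ]
    exact mul_le_mul_of_nonneg_left (pow_le_pow_of_le_one r0.le r1 (by omega)) (by linarith)
  set c₁ := (1 + η) * ρ ^ f.card / ρ ^ 2 with hc₁
  set c₂ := 2 * ρ ^ f.card / ρ ^ (2 * K) with hc₂
  have c10 : 0 ≤ c₁ := by positivity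
  have c20 : 0 ≤ c₂ := by positivity
  have F2 : ∑ x ∈ S, ∑ y ∈ S, ν x.1 x.2 * ν y.1 y.2 *
      Ef V μ f (fun U => wT ρ x.2 U * wT ρ y.2 U) ≤
      A * (c₁ * A + c₂ * (k ^ 2 * δ + K * k * δ)) + c₂ * A * B := by
    have inner : ∀ x ∈ S, ∑ y ∈ S, ν x.1 x.2 * ν y.1 y.2 *
        Ef V μ f (fun U => wT ρ x.2 U * wT ρ y.2 U) ≤
        ν x.1 x.2 * (c₁ * A + c₂ * (k ^ 2 * δ + K * k * δ)) +
          c₂ * A * (ν x.1 x.2 * (((x.2 ∩ f).card : ℝ) * ((x.2 ∩ f).card - 1))) := by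
      intro x hx
      by_cases h0 : ν x.1 x.2 = 0
      · simp [h0]
      obtain ⟨t1, t2⟩ := E.supp _ _ h0
      have q1 : ∑ y ∈ S, ν y.1 y.2 * Ef V μ f (fun U => wT ρ x.2 U * wT ρ y.2 U) ≤
          ∑ y ∈ S, ν y.1 y.2 * (c₁ + c₂ * (((x.2 ∩ f).card : ℝ) * ((x.2 ∩ f).card - 1) +
            ((y.2 ∩ f).card : ℝ) * ((y.2 ∩ f).card - 1) +
            ∑ q ∈ (x.2 \ f) ×ˢ f, if ({q.1, q.2} : Finset ℤ) ⊆ y.2 then 1 else 0)) := by
        refine sum_le_sum fun y hy => ?_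
        by_cases h1 : ν y.1 y.2 = 0
        · simp [h1]
        refine mul_le_mul_of_nonneg_left ?_ (E.nonneg _ _)
        obtain ⟨s1, s2⟩ := E.supp _ _ h1
        have c1 := card_union_le f x.2
        have c2 := card_union_le (f ∪ x.2) y.2
        rw [mom1_E2]
        exact (div_le_div_of_nonneg_right (up _ (union_subset (union_subset hf t1) s1) (by omega))
          (by positivity)).trans
          (mom1_pair r0 r1 e0 e1 t2 s2 (mem_filter.1 hx).2 (mem_filter.1 hy).2)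
      have q2 : ∑ y ∈ S, ν y.1 y.2 * (c₁ + c₂ * (((x.2 ∩ f).card : ℝ) * ((x.2 ∩ f).card - 1) +
            ((y.2 ∩ f).card : ℝ) * ((y.2 ∩ f).card - 1) +
            ∑ q ∈ (x.2 \ f) ×ˢ f, if ({q.1, q.2} : Finset ℤ) ⊆ y.2 then 1 else 0)) =
          c₁ * A + c₂ * (((x.2 ∩ f).card : ℝ) * ((x.2 ∩ f).card - 1)) * A + c₂ * B +
            c₂ * ∑ y ∈ S, ν y.1 y.2 *
              (∑ q ∈ (x.2 \ f) ×ˢ f, if ({q.1, q.2} : Finset ℤ) ⊆ y.2 then 1 else 0) := by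
        rw [hA, hB, mul_sum, mul_sum, mul_sum, mul_sum S, ← sum_add_distrib, ← sum_add_distrib,
          ← sum_add_distrib]
        exact sum_congr rfl fun y _ => by ring
      have q3 := mul_le_mul_of_nonneg_left (M3 x.2 t2) c20
      have q4 := mul_le_mul_of_nonneg_left M2 c20
      have q5 : ∑ y ∈ S, ν x.1 x.2 * ν y.1 y.2 * Ef V μ f (fun U => wT ρ x.2 U * wT ρ y.2 U) =
          ν x.1 x.2 * ∑ y ∈ S, ν y.1 y.2 * Ef V μ f (fun U => wT ρ x.2 U * wT ρ y.2 U) := by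
        rw [mul_sum]
        exact sum_congr rfl fun y _ => by ring
      rw [q5]
      rw [q2] at q1
      have q6 : ∑ y ∈ S, ν y.1 y.2 * Ef V μ f (fun U => wT ρ x.2 U * wT ρ y.2 U) ≤
          c₁ * A + c₂ * (k ^ 2 * δ + K * k * δ) +
            c₂ * A * (((x.2 ∩ f).card : ℝ) * ((x.2 ∩ f).card - 1)) := by linarith
      exact (mul_le_mul_of_nonneg_left q6 (E.nonneg _ _)).trans (le_of_eq (by ring))
    refine (sum_le_sum inner).trans (le_of_eq ?_)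
    rw [sum_add_distrib, ← sum_mul, ← mul_sum]
  have F3 := up f hf (by omega)
  simp only [hY]
  rw [mom1_expand V μ f S (fun x => ν x.1 x.2) (fun x U => wT ρ x.2 U) k]
  exact mom1_num E.K1 r0 r1 e0 e1 d0 hΔ k0 km (by positivity) A0 A1 A2 M2 F1 F2 F3

end Vale.Agent.N013L
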