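import Vale.Agent.N013L.Def2

/-! Block Mom2: second moment of the normalising sums, and the loss from large ones. -/

namespace Vale.Agent.N013L

open Finset Real Filter

lemma Mom2_sum {ι : Type*} (V : Finset ℤ) (μ : Finset ℤ → ℝ) (g : Finset ℤ) (s : Finset ι)
    (c : ι → ℝ) (F : ι → Finset ℤ → ℝ) :
    Ef V μ g (fun U => ∑ i ∈ s, c i * F i U) = ∑ i ∈ s, c i * Ef V μ g (F i) := by
  unfold Ef
  simp only [mul_sum]
  rw [sum_comm]
  refine sum_congr rfl fun U _ => ?_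
  split_ifs
  · exact sum_congr rfl fun i _ => by ring
  · simp

lemma Mom2_mono (V : Finset ℤ) {μ : Finset ℤ → ℝ} (hμ : ∀ U, 0 ≤ μ U) (g : Finset ℤ)
    {F G : Finset ℤ → ℝ} (h : ∀ U, F U ≤ G U) : Ef V μ g F ≤ Ef V μ g G := by
  unfold Ef
  refine sum_le_sum fun U _ => ?_
  split_ifs
  · exact mul_le_mul_of_nonneg_left (h U) (hμ U)
  · exact le_rfl

lemma Mom2_w (V : Finset ℤ) (μ : Finset ℤ → ℝ) (g T : Finset ℤ) (ρ : ℝ) (F : Finset ℤ → ℝ) :
    Ef V μ g (fun U => wT ρ T U * F U) = 1 / ρ ^ T.card * Ef V μ (g ∪ T) F := by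
  unfold Ef wT
  rw [mul_sum]
  refine sum_congr rfl fun U _ => ?_
  by_cases h1 : g ⊆ U <;> by_cases h2 : T ⊆ U <;> simp [h1, h2, union_subset_iff]
  ring

lemma Mom2_cov (V : Finset ℤ) (μ : Finset ℤ → ℝ) (g T T' : Finset ℤ) (ρ : ℝ) :
    Ef V μ g (fun U => (wT ρ T U - 1) * (wT ρ T' U - 1)) =
      1 / ρ ^ T.card * (1 / ρ ^ T'.card) * Ef V μ (g ∪ T ∪ T') (fun _ => 1) -
        1 / ρ ^ T.card * Ef V μ (g ∪ T) (fun _ => 1) -
        1 / ρ ^ T'.card * Ef V μ (g ∪ T') (fun _ => 1) + Ef V μ g (fun _ => 1) := by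
  unfold Ef wT
  simp only [mul_sum, ← sum_sub_distrib, ← sum_add_distrib]
  refine sum_congr rfl fun U _ => ?_
  by_cases h1 : g ⊆ U <;> by_cases h2 : T ⊆ U <;> by_cases h3 : T' ⊆ U <;>
    simp only [h1, h2, h3, union_subset_iff, if_true, if_false, and_true, and_false] <;> ring

lemma Mom2_up {V : Finset ℤ} {μ : Finset ℤ → ℝ} {n : ℕ} {ρ η : ℝ} (h : Law V μ n ρ η)
    {f : Finset ℤ} (hf : f ⊆ V) (hc : f.card ≤ n) :
    Ef V μ f (fun _ => 1) ≤ (1 + η) * ρ ^ f.card := by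
  have := (abs_le.1 (h.inv f hf hc)).2
  linarith

lemma Mom2_low {V : Finset ℤ} {μ : Finset ℤ → ℝ} {n : ℕ} {ρ η : ℝ} (h : Law V μ n ρ η)
    (r0 : 0 < ρ) (r1 : ρ ≤ 1) (e1 : η ≤ 1) {g T : Finset ℤ} (hg : g ⊆ V) (hT : T ⊆ V)
    (hc : g.card + T.card ≤ n) :
    (1 - η) * ρ ^ g.card ≤ 1 / ρ ^ T.card * Ef V μ (g ∪ T) (fun _ => 1) := by
  have h1 := (abs_le.1 (h.inv (g ∪ T) (union_subset hg hT) ((card_union_le _ _).trans hc))).1
  have h2 : ρ ^ (g.card + T.card) ≤ ρ ^ (g ∪ T).card :=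
    pow_le_pow_of_le_one r0.le r1 (card_union_le _ _)
  have h3 : 0 < ρ ^ T.card := pow_pos r0 _
  rw [one_div, ← div_eq_inv_mul, le_div_iff₀ h3, mul_assoc, ← pow_add]
  have h4 : (1 - η) * ρ ^ (g.card + T.card) ≤ (1 - η) * ρ ^ (g ∪ T).card :=
    mul_le_mul_of_nonneg_left h2 (by linarith)
  linarith

/-- indicator of a common point -/
noncomputable def Mom2_ind (A B : Finset ℤ) : ℝ := if Disjoint A B then 0 else 1

lemma Mom2_ind_nonneg (A B : Finset ℤ) : 0 ≤ Mom2_ind A B := by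
  unfold Mom2_ind
  split_ifs <;> norm_num

lemma Mom2_pair {V : Finset ℤ} {μ : Finset ℤ → ℝ} {n K : ℕ} {ρ η : ℝ} (h : Law V μ n ρ η)
    (r0 : 0 < ρ) (r1 : ρ ≤ 1) (e0 : 0 ≤ η) (e1 : η ≤ 1) {g T T' : Finset ℤ} (hg : g ⊆ V)
    (hT : T ⊆ V) (hT' : T' ⊆ V) (hK : T.card ≤ K) (hK' : T'.card ≤ K)
    (hc : g.card + 2 * K ≤ n) :
    Ef V μ g (fun U => (wT ρ T U - 1) * (wT ρ T' U - 1)) ≤
      4 * η * ρ ^ g.card +
        2 * ρ ^ g.card / ρ ^ (2 * K) * (Mom2_ind T g + Mom2_ind T' g + Mom2_ind T' T) := by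
  rw [Mom2_cov]
  have a1 := Mom2_low h r0 r1 e1 hg hT (by omega)
  have a2 := Mom2_low h r0 r1 e1 hg hT' (by omega)
  have a3 := Mom2_up h hg (by omega)
  have c1 : (g ∪ T ∪ T').card ≤ n := by
    have := card_union_le (g ∪ T) T'
    have := card_union_le g T
    omega
  have a4 := Mom2_up h (union_subset (union_subset hg hT) hT') c1
  have p1 : 0 < ρ ^ T.card := pow_pos r0 _
  have p2 : 0 < ρ ^ T'.card := pow_pos r0 _
  have p3 : 0 < ρ ^ g.card := pow_pos r0 _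
  have p4 : 0 < ρ ^ (2 * K) := pow_pos r0 _
  have i1 := Mom2_ind_nonneg T g
  have i2 := Mom2_ind_nonneg T' g
  have i3 := Mom2_ind_nonneg T' T
  have q0 : 0 ≤ 2 * ρ ^ g.card / ρ ^ (2 * K) := by positivity
  have a5 : 1 / ρ ^ T.card * (1 / ρ ^ T'.card) * Ef V μ (g ∪ T ∪ T') (fun _ => 1) ≤
      1 / ρ ^ T.card * (1 / ρ ^ T'.card) * ((1 + η) * ρ ^ (g ∪ T ∪ T').card) :=
    mul_le_mul_of_nonneg_left a4 (by positivity)
  have key : 1 / ρ ^ T.card * (1 / ρ ^ T'.card) * ((1 + η) * ρ ^ (g ∪ T ∪ T').card) ≤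
      (1 + η) * ρ ^ g.card +
        2 * ρ ^ g.card / ρ ^ (2 * K) * (Mom2_ind T g + Mom2_ind T' g + Mom2_ind T' T) := by
    by_cases hd : Disjoint T g ∧ Disjoint T' g ∧ Disjoint T' T
    · have e : (g ∪ T ∪ T').card = g.card + T.card + T'.card := by
        rw [card_union_of_disjoint, card_union_of_disjoint hd.1.symm]
        exact (disjoint_union_right.2 ⟨hd.2.1, hd.2.2⟩).symm
      have e2 : 1 / ρ ^ T.card * (1 / ρ ^ T'.card) * ((1 + η) * ρ ^ (g ∪ T ∪ T').card) =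
          (1 + η) * ρ ^ g.card := by
        rw [e, pow_add, pow_add]
        field_simp
      rw [e2]
      have := mul_nonneg q0 (add_nonneg (add_nonneg i1 i2) i3)
      linarith
    · have s1 : 1 ≤ Mom2_ind T g + Mom2_ind T' g + Mom2_ind T' T := by
        by_cases d1 : Disjoint T g
        · by_cases d2 : Disjoint T' g
          · have d3 : ¬ Disjoint T' T := fun d3 => hd ⟨d1, d2, d3⟩
            have : Mom2_ind T' T = 1 := if_neg d3
            linarith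
          · have : Mom2_ind T' g = 1 := if_neg d2
            linarith
        · have : Mom2_ind T g = 1 := if_neg d1
          linarith
      have b1 : ρ ^ (g ∪ T ∪ T').card ≤ ρ ^ g.card :=
        pow_le_pow_of_le_one r0.le r1
          (card_le_card (subset_union_left.trans subset_union_left))
      have b2 : 1 / ρ ^ T.card * (1 / ρ ^ T'.card) ≤ 1 / ρ ^ (2 * K) := by
        rw [one_div_mul_one_div, ← pow_add]
        exact one_div_le_one_div_of_le p4 (pow_le_pow_of_le_one r0.le r1 (by omega))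
      have b3 : (1 + η) * ρ ^ (g ∪ T ∪ T').card ≤ 2 * ρ ^ g.card :=
        mul_le_mul (by linarith) b1 (pow_pos r0 _).le (by norm_num)
      have b4 : 1 / ρ ^ T.card * (1 / ρ ^ T'.card) * ((1 + η) * ρ ^ (g ∪ T ∪ T').card) ≤
          1 / ρ ^ (2 * K) * (2 * ρ ^ g.card) :=
        mul_le_mul b2 b3 (by positivity) (by positivity)
      have b5 : 1 / ρ ^ (2 * K) * (2 * ρ ^ g.card) = 2 * ρ ^ g.card / ρ ^ (2 * K) := by ring
      have b6 := mul_le_mul_of_nonneg_left s1 q0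
      have b7 : 0 ≤ (1 + η) * ρ ^ g.card := by positivity
      linarith
  linarith

lemma Mom2_ind_le (T s : Finset ℤ) :
    Mom2_ind T s ≤ ∑ a ∈ s, if ({a} : Finset ℤ) ⊆ T then (1 : ℝ) else 0 := by
  unfold Mom2_ind
  split_ifs with hd
  · exact sum_nonneg fun a _ => by split_ifs <;> norm_num
  · obtain ⟨a, ha, ha'⟩ := not_disjoint_iff.1 hd
    have := single_le_sum (f := fun a => if ({a} : Finset ℤ) ⊆ T then (1 : ℝ) else 0)
      (fun a _ => by split_ifs <;> norm_num) ha'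
    simpa [ha] using this

lemma Mom2_meet {V : Finset ℤ} {ν : ℕ → Finset ℤ → ℝ} (hν : ∀ p T, 0 ≤ ν p T) (p : ℕ)
    (s : Finset ℤ) :
    ∑ T ∈ V.powerset, ν p T * Mom2_ind T s ≤ ∑ a ∈ s, dg V ν p {a} := by
  unfold dg
  rw [sum_comm]
  refine sum_le_sum fun T _ => ?_
  refine (mul_le_mul_of_nonneg_left (Mom2_ind_le T s) (hν p T)).trans (le_of_eq ?_)
  rw [mul_sum]
  refine sum_congr rfl fun a _ => ?_
  split_ifs <;> simp

lemma Mom2_meet' {V : Finset ℤ} {PP : Finset ℕ} {ν : ℕ → Finset ℤ → ℝ} {K : ℕ} {δ : ℝ}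
    (h : Edges V PP ν K δ) (p : ℕ) (s : Finset ℤ) :
    ∑ T ∈ V.powerset, ν p T * Mom2_ind T s ≤ s.card * δ := by
  refine (Mom2_meet h.nonneg p s).trans ?_
  refine (sum_le_sum fun a _ => h.vert p a).trans (le_of_eq ?_)
  simp

lemma Mom2_bad {V : Finset ℤ} {PP : Finset ℕ} {ν : ℕ → Finset ℤ → ℝ} {K : ℕ} {δ : ℝ}
    (h : Edges V PP ν K δ) (d0 : 0 ≤ δ) (p : ℕ) (g : Finset ℤ) :
    ∑ T ∈ V.powerset, ν p T * ∑ T' ∈ V.powerset, ν p T' *
      (Mom2_ind T g + Mom2_ind T' g + Mom2_ind T' T) ≤ (2 * g.card + K) * δ := by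
  have hm := h.mass p
  have h1 := Mom2_meet' h p g
  have gd : 0 ≤ (g.card : ℝ) * δ := by positivity
  have Kd : 0 ≤ (K : ℝ) * δ := by positivity
  have step : ∀ T ∈ V.powerset, ν p T * ∑ T' ∈ V.powerset, ν p T' *
      (Mom2_ind T g + Mom2_ind T' g + Mom2_ind T' T) ≤
      ν p T * Mom2_ind T g + ν p T * (g.card * δ + K * δ) := by
    intro T _
    by_cases h0 : ν p T = 0
    · simp [h0]
    have hK : (T.card : ℝ) ≤ K := by exact_mod_cast (h.supp p T h0).2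
    rw [← mul_add]
    refine mul_le_mul_of_nonneg_left ?_ (h.nonneg p T)
    simp only [mul_add, sum_add_distrib, ← sum_mul]
    have h2 := Mom2_meet' h p T
    have h3 := mul_le_mul_of_nonneg_right hm (Mom2_ind_nonneg T g)
    have h4 := mul_le_mul_of_nonneg_right hK d0
    linarith
  refine (sum_le_sum step).trans ?_
  rw [sum_add_distrib, ← sum_mul]
  have h5 := mul_le_mul_of_nonneg_right hm (add_nonneg gd Kd)
  linarith

lemma Mom2_one {V : Finset ℤ} {PP : Finset ℕ} {ν : ℕ → Finset ℤ → ℝ} {K : ℕ} {δ : ℝ}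
    {μ : Finset ℤ → ℝ} {m : ℕ} {ρ η Δ : ℝ} (h : Rd V PP ν K δ μ m ρ η Δ) {g : Finset ℤ}
    (hg : g ⊆ V) (hc : g.card ≤ m + K) (p : ℕ) :
    Ef V μ g (fun U => (ZZ V ν ρ p U - ∑ T ∈ V.powerset, ν p T) ^ 2) ≤
      6 * (η + Δ) * ρ ^ g.card := by
  have e : (fun U => (ZZ V ν ρ p U - ∑ T ∈ V.powerset, ν p T) ^ 2) =
      fun U => ∑ T ∈ V.powerset, ν p T * ∑ T' ∈ V.powerset, ν p T' *
        ((wT ρ T U - 1) * (wT ρ T' U - 1)) := by
    funext U
    have : ZZ V ν ρ p U - ∑ T ∈ V.powerset, ν p T =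
        ∑ T ∈ V.powerset, ν p T * (wT ρ T U - 1) := by
      unfold ZZ
      rw [← sum_sub_distrib]
      exact sum_congr rfl fun T _ => by ring
    rw [this, sq, sum_mul_sum]
    refine sum_congr rfl fun T _ => ?_
    rw [mul_sum]
    exact sum_congr rfl fun T' _ => by ring
  rw [e, Mom2_sum]
  simp only [Mom2_sum]
  have r0 := h.r0
  have p3 : 0 < ρ ^ g.card := pow_pos r0 _
  have p4 : 0 < ρ ^ (2 * K) := pow_pos r0 _
  have e0 := h.e0
  have d0 := h.d0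
  have hm := h.edges.mass p
  have hm0 : 0 ≤ ∑ T ∈ V.powerset, ν p T := sum_nonneg fun T _ => h.edges.nonneg p T
  set A := 4 * η * ρ ^ g.card with hA
  set B := 2 * ρ ^ g.card / ρ ^ (2 * K) with hB
  have A0 : 0 ≤ A := by positivity
  have B0 : 0 ≤ B := by positivity
  have step : ∑ T ∈ V.powerset, ν p T * ∑ T' ∈ V.powerset, ν p T' *
        Ef V μ g (fun U => (wT ρ T U - 1) * (wT ρ T' U - 1)) ≤
      ∑ T ∈ V.powerset, ν p T * ∑ T' ∈ V.powerset, ν p T' *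
        (A + B * (Mom2_ind T g + Mom2_ind T' g + Mom2_ind T' T)) := by
    refine sum_le_sum fun T _ => ?_
    by_cases h0 : ν p T = 0
    · simp [h0]
    refine mul_le_mul_of_nonneg_left (sum_le_sum fun T' _ => ?_) (h.edges.nonneg p T)
    by_cases h0' : ν p T' = 0
    · simp [h0']
    refine mul_le_mul_of_nonneg_left ?_ (h.edges.nonneg p T')
    exact Mom2_pair h.law r0 h.r1 e0 h.e1 hg (h.edges.supp p T h0).1 (h.edges.supp p T' h0').1
      (h.edges.supp p T h0).2 (h.edges.supp p T' h0').2 (by omega)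
  refine step.trans ?_
  have e2 : ∑ T ∈ V.powerset, ν p T * ∑ T' ∈ V.powerset, ν p T' *
        (A + B * (Mom2_ind T g + Mom2_ind T' g + Mom2_ind T' T)) =
      (∑ T ∈ V.powerset, ν p T) * (∑ T ∈ V.powerset, ν p T) * A +
        B * ∑ T ∈ V.powerset, ν p T * ∑ T' ∈ V.powerset, ν p T' *
          (Mom2_ind T g + Mom2_ind T' g + Mom2_ind T' T) := by
    rw [sum_mul_sum, sum_mul, mul_sum, ← sum_add_distrib]
    refine sum_congr rfl fun T _ => ?_
    simp only [mul_sum, sum_mul, ← sum_add_distrib]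
    exact sum_congr rfl fun T' _ => by ring
  rw [e2]
  have h1 := mul_le_mul_of_nonneg_left (Mom2_bad h.edges d0 p g) B0
  have h2 : (∑ T ∈ V.powerset, ν p T) * (∑ T ∈ V.powerset, ν p T) * A ≤ 1 * A :=
    mul_le_mul_of_nonneg_right (mul_le_one₀ hm hm0 hm) A0
  have hc' : (g.card : ℝ) ≤ m + K := by exact_mod_cast hc
  have K0 : (0 : ℝ) ≤ K := Nat.cast_nonneg K
  have h3 : (2 * g.card + K : ℝ) * δ ≤ 2 * ((m + 3 * K) * δ) := by
    rw [← mul_assoc]
    exact mul_le_mul_of_nonneg_right (by linarith) d0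
  have h4 : B * ((2 * g.card + K) * δ) ≤ 4 * Δ * ρ ^ g.card := by
    have h5 := mul_le_mul_of_nonneg_left h3 B0
    have h6 : B * (2 * ((m + 3 * K) * δ)) =
        4 * ((m + 3 * K : ℝ) * δ / ρ ^ (2 * K)) * ρ ^ g.card := by
      rw [hB]
      ring
    have h7 := mul_le_mul_of_nonneg_right h.hΔ p3.le
    linarith
  have D0 : 0 ≤ Δ := le_trans (by positivity) h.hΔ
  have h8 : 0 ≤ η * ρ ^ g.card := by positivity
  have h9 : 0 ≤ Δ * ρ ^ g.card := by positivity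
  linarith

lemma Mom2_ratio {ρ : ℝ} (r0 : 0 < ρ) (r1 : ρ ≤ 1) {K : ℕ} (f T : Finset ℤ) (hK : T.card ≤ K) :
    Mom2_ind T f * (1 / ρ ^ T.card * ρ ^ (f ∪ T).card) ≤
      ρ ^ f.card / ρ * Mom2_ind T f + ρ ^ f.card / ρ ^ K *
        ∑ a ∈ f, ∑ b ∈ f.erase a, if ({a, b} : Finset ℤ) ⊆ T then (1 : ℝ) else 0 := by
  have s0 : ∀ a ∈ f, 0 ≤ ∑ b ∈ f.erase a, if ({a, b} : Finset ℤ) ⊆ T then (1 : ℝ) else 0 :=
    fun a _ => sum_nonneg fun b _ => by split_ifs <;> norm_num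
  have s1 := sum_nonneg s0
  have q1 : 0 < ρ ^ f.card / ρ ^ K := by positivity
  have q2 : 0 < ρ ^ f.card / ρ := by positivity
  have hcard := card_union_add_card_inter f T
  have e : 1 / ρ ^ T.card * ρ ^ (f ∪ T).card = ρ ^ f.card / ρ ^ (f ∩ T).card := by
    have : ρ ^ (f ∪ T).card * ρ ^ (f ∩ T).card = ρ ^ f.card * ρ ^ T.card := by
      rw [← pow_add, ← pow_add, hcard]
    field_simp
    linarith
  rw [e]
  by_cases hd : Disjoint T f
  · have : Mom2_ind T f = 0 := if_pos hd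
    rw [this]
    have := mul_nonneg q1.le s1
    linarith
  have i1 : Mom2_ind T f = 1 := if_neg hd
  rw [i1]
  by_cases h1 : (f ∩ T).card ≤ 1
  · have : ρ ^ f.card / ρ ^ (f ∩ T).card ≤ ρ ^ f.card / ρ := by
      refine div_le_div_of_nonneg_left (pow_pos r0 _).le r0 ?_
      simpa using pow_le_pow_of_le_one r0.le r1 h1
    have := mul_nonneg q1.le s1
    linarith
  · obtain ⟨a, ha, b, hb, hab⟩ := one_lt_card.1 (not_le.1 h1)
    have t1 : (1 : ℝ) ≤ ∑ b ∈ f.erase a, if ({a, b} : Finset ℤ) ⊆ T then (1 : ℝ) else 0 := by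
      have := single_le_sum (f := fun b => if ({a, b} : Finset ℤ) ⊆ T then (1 : ℝ) else 0)
        (fun b _ => by split_ifs <;> norm_num)
        (mem_erase.2 ⟨hab.symm, (mem_inter.1 hb).1⟩)
      have hs : ({a, b} : Finset ℤ) ⊆ T :=
        insert_subset (mem_inter.1 ha).2 (singleton_subset_iff.2 (mem_inter.1 hb).2)
      simpa only [hs, if_true] using this
    have t2 := t1.trans (single_le_sum s0 (mem_inter.1 ha).1)
    have t3 : ρ ^ f.card / ρ ^ (f ∩ T).card ≤ ρ ^ f.card / ρ ^ K :=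
      div_le_div_of_nonneg_left (pow_pos r0 _).le (pow_pos r0 _)
        (pow_le_pow_of_le_one r0.le r1 ((card_le_card inter_subset_right).trans hK))
    have t4 := mul_le_mul_of_nonneg_left t2 q1.le
    linarith

lemma Mom2_mass {V : Finset ℤ} {PP : Finset ℕ} {ν : ℕ → Finset ℤ → ℝ} {K : ℕ} {δ : ℝ}
    {μ : Finset ℤ → ℝ} {m : ℕ} {ρ η Δ : ℝ} (h : Rd V PP ν K δ μ m ρ η Δ) {f : Finset ℤ}
    (hf : f ⊆ V) (hc : f.card ≤ m) :
    ∑ p ∈ PP, ∑ T ∈ V.powerset, ν p T * (Mom2_ind T f * (1 / ρ ^ T.card * ρ ^ (f ∪ T).card)) ≤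
      5 * f.card * ρ ^ f.card := by
  have r0 := h.r0
  have d0 := h.d0
  have q1 : 0 < ρ ^ f.card / ρ ^ K := by positivity
  have q2 : 0 < ρ ^ f.card / ρ := by positivity
  have step : ∀ p ∈ PP,
      ∑ T ∈ V.powerset, ν p T * (Mom2_ind T f * (1 / ρ ^ T.card * ρ ^ (f ∪ T).card)) ≤
      ρ ^ f.card / ρ * ∑ a ∈ f, dg V ν p {a} +
        ρ ^ f.card / ρ ^ K * ∑ a ∈ f, ∑ b ∈ f.erase a, dg V ν p {a, b} := by
    intro p _
    have s1 : ∑ T ∈ V.powerset, ν p T * (Mom2_ind T f * (1 / ρ ^ T.card * ρ ^ (f ∪ T).card)) ≤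
        ∑ T ∈ V.powerset, ν p T * (ρ ^ f.card / ρ * Mom2_ind T f + ρ ^ f.card / ρ ^ K *
          ∑ a ∈ f, ∑ b ∈ f.erase a, if ({a, b} : Finset ℤ) ⊆ T then (1 : ℝ) else 0) := by
      refine sum_le_sum fun T _ => ?_
      by_cases h0 : ν p T = 0
      · simp [h0]
      exact mul_le_mul_of_nonneg_left (Mom2_ratio r0 h.r1 f T (h.edges.supp p T h0).2)
        (h.edges.nonneg p T)
    have s2 : ∑ T ∈ V.powerset, ν p T *
          ∑ a ∈ f, ∑ b ∈ f.erase a, (if ({a, b} : Finset ℤ) ⊆ T then (1 : ℝ) else 0) =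
        ∑ a ∈ f, ∑ b ∈ f.erase a, dg V ν p {a, b} := by
      unfold dg
      simp only [mul_sum]
      rw [sum_comm]
      refine sum_congr rfl fun a _ => ?_
      rw [sum_comm]
      refine sum_congr rfl fun b _ => sum_congr rfl fun T _ => ?_
      split_ifs <;> simp
    have s3 : ∑ T ∈ V.powerset, ν p T * (ρ ^ f.card / ρ * Mom2_ind T f + ρ ^ f.card / ρ ^ K *
          ∑ a ∈ f, ∑ b ∈ f.erase a, if ({a, b} : Finset ℤ) ⊆ T then (1 : ℝ) else 0) =
        ρ ^ f.card / ρ * ∑ T ∈ V.powerset, ν p T * Mom2_ind T f +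
          ρ ^ f.card / ρ ^ K * ∑ T ∈ V.powerset, ν p T *
            ∑ a ∈ f, ∑ b ∈ f.erase a, (if ({a, b} : Finset ℤ) ⊆ T then (1 : ℝ) else 0) := by
      rw [mul_sum V.powerset, mul_sum V.powerset, ← sum_add_distrib]
      exact sum_congr rfl fun T _ => by ring
    rw [s3, s2] at s1
    have s4 := mul_le_mul_of_nonneg_left (Mom2_meet (V := V) h.edges.nonneg p f) q2.le
    linarith
  refine (sum_le_sum step).trans ?_
  rw [sum_add_distrib, ← mul_sum, ← mul_sum]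
  have t1 : ∑ p ∈ PP, ∑ a ∈ f, dg V ν p {a} = f.card * (4 * ρ) := by
    rw [sum_comm, sum_congr rfl fun a ha => h.deg a (hf ha)]
    simp
  have t2 : ∑ p ∈ PP, ∑ a ∈ f, ∑ b ∈ f.erase a, dg V ν p {a, b} ≤ f.card * (f.card * δ) := by
    rw [sum_comm]
    have : ∀ a ∈ f, ∑ p ∈ PP, ∑ b ∈ f.erase a, dg V ν p {a, b} ≤ f.card * δ := by
      intro a _
      rw [sum_comm]
      refine (sum_le_sum fun b hb => h.edges.codeg a b (mem_erase.1 hb).1.symm).trans ?_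
      rw [sum_const, nsmul_eq_mul]
      exact mul_le_mul_of_nonneg_right (by exact_mod_cast card_erase_le) d0
    refine (sum_le_sum this).trans (le_of_eq ?_)
    rw [sum_const, nsmul_eq_mul]
  have hc' : (f.card : ℝ) ≤ m := by exact_mod_cast hc
  have K0 : (0 : ℝ) ≤ K := Nat.cast_nonneg K
  have t3 : f.card * δ / ρ ^ K ≤ 1 := by
    refine le_trans ?_ (h.hΔ.trans h.d1)
    refine div_le_div₀ (by positivity) (mul_le_mul_of_nonneg_right (by linarith) d0)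
      (pow_pos r0 _) (pow_le_pow_of_le_one r0.le h.r1 (by omega))
  have t4 := mul_le_mul_of_nonneg_left t2 q1.le
  have t5 : ρ ^ f.card / ρ ^ K * (f.card * (f.card * δ)) =
      f.card * ρ ^ f.card * (f.card * δ / ρ ^ K) := by ring
  have t6 : f.card * ρ ^ f.card * (f.card * δ / ρ ^ K) ≤ f.card * ρ ^ f.card * 1 :=
    mul_le_mul_of_nonneg_left t3 (by positivity)
  have t7 : ρ ^ f.card / ρ * (f.card * (4 * ρ)) = 4 * f.card * ρ ^ f.card := by
    field_simp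
  rw [t1, t7]
  linarith

theorem stmtMom2 : StmtMom2 := by
  intro V PP ν K δ μ m ρ η Δ h
  refine ⟨fun g hg hc p => Mom2_one h hg hc p, fun f hf hc => ?_⟩
  have r0 := h.r0
  have d0 := h.d0
  have e0 := h.e0
  have D0 : 0 ≤ Δ := le_trans (by positivity) h.hΔ
  have w0 : ∀ T U, 0 ≤ wT ρ T U := by
    intro T U
    unfold wT
    split_ifs
    · positivity
    · exact le_rfl
  have s1 : Ef V μ f (fun U => 1 / 2 * ∑ p ∈ PP, if ZZ V ν ρ p U ≤ 2 then 0 else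
        ∑ T ∈ V.powerset, if Disjoint T f then 0 else ν p T * wT ρ T U) ≤
      Ef V μ f (fun U => ∑ p ∈ PP, 1 / 2 * ∑ T ∈ V.powerset, ν p T * Mom2_ind T f *
        (wT ρ T U * (ZZ V ν ρ p U - ∑ T ∈ V.powerset, ν p T) ^ 2)) := by
    refine Mom2_mono V h.law.nonneg f fun U => ?_
    rw [mul_sum]
    refine sum_le_sum fun p _ => mul_le_mul_of_nonneg_left ?_ (by norm_num)
    by_cases hz : ZZ V ν ρ p U ≤ 2
    · rw [if_pos hz]
      exact sum_nonneg fun T _ => mul_nonneg (mul_nonneg (h.edges.nonneg p T)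
        (Mom2_ind_nonneg T f)) (mul_nonneg (w0 T U) (sq_nonneg _))
    · rw [if_neg hz]
      have hm := h.edges.mass p
      have h1 : 1 ≤ (ZZ V ν ρ p U - ∑ T ∈ V.powerset, ν p T) ^ 2 :=
        one_le_pow₀ (by linarith [not_le.1 hz])
      refine sum_le_sum fun T _ => ?_
      unfold Mom2_ind
      split_ifs
      · simp
      · have := mul_le_mul_of_nonneg_left h1 (mul_nonneg (h.edges.nonneg p T) (w0 T U))
        linarith
  refine s1.trans ?_
  rw [Mom2_sum]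
  simp only [Mom2_sum, Mom2_w]
  have s2 : ∀ p ∈ PP, 1 / 2 * ∑ T ∈ V.powerset, ν p T * Mom2_ind T f * (1 / ρ ^ T.card *
        Ef V μ (f ∪ T) (fun U => (ZZ V ν ρ p U - ∑ T ∈ V.powerset, ν p T) ^ 2)) ≤
      3 * (η + Δ) * ∑ T ∈ V.powerset,
        ν p T * (Mom2_ind T f * (1 / ρ ^ T.card * ρ ^ (f ∪ T).card)) := by
    intro p _
    rw [mul_sum, mul_sum]
    refine sum_le_sum fun T _ => ?_
    by_cases h0 : ν p T = 0
    · simp [h0]
    have hT := h.edges.supp p T h0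
    have h1 := Mom2_one h (union_subset hf hT.1)
      ((card_union_le _ _).trans (Nat.add_le_add hc hT.2)) p
    have h2 : 0 ≤ 1 / 2 * (ν p T * Mom2_ind T f * (1 / ρ ^ T.card)) :=
      mul_nonneg (by norm_num) (mul_nonneg (mul_nonneg (h.edges.nonneg p T)
        (Mom2_ind_nonneg T f)) (by positivity))
    have h3 := mul_le_mul_of_nonneg_left h1 h2
    linarith
  refine (sum_le_sum s2).trans ?_
  rw [← mul_sum]
  have s3 := mul_le_mul_of_nonneg_left (Mom2_mass h hf hc)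
    (show 0 ≤ 3 * (η + Δ) by positivity)
  have s4 : 0 ≤ f.card * (η + Δ) * ρ ^ f.card := by positivity
  linarith

end Vale.Agent.N013L
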