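import Vale.Agent.N013L.Def2

/-! Block Nib: covering in `J` rounds. -/

namespace Vale.Agent.N013L

open Finset Real Filter

namespace Nib

theorem law_mono {V : Finset ℤ} {μ : Finset ℤ → ℝ} {m : ℕ} {ρ η η' : ℝ} (h : Law V μ m ρ η)
    (hρ : 0 ≤ ρ) (hη : η ≤ η') : Law V μ m ρ η' :=
  ⟨h.nonneg, h.total, fun f hf hc =>
    (h.inv f hf hc).trans (mul_le_mul_of_nonneg_right hη (pow_nonneg hρ _))⟩

theorem law_start (V : Finset ℤ) (m : ℕ) {η : ℝ} (hη : 0 ≤ η) :
    Law V (fun U => if U = V then 1 else 0) m 1 η := by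
  refine ⟨fun U => by split_ifs <;> norm_num, ?_, fun f hf _ => ?_⟩
  · rw [Finset.sum_ite_eq']
    simp
  · have : Ef V (fun U => if U = V then 1 else 0) f (fun _ => 1) = 1 := by
      unfold Ef
      rw [Finset.sum_eq_single V]
      · simp [hf]
      · intro U _ hU
        simp [hU]
      · intro h
        exact absurd (Finset.mem_powerset_self V) h
    rw [this]
    simpa using hη

theorem mean_card {V : Finset ℤ} (μ : Finset ℤ → ℝ) :
    ∑ U ∈ V.powerset, μ U * (U.card : ℝ) = ∑ a ∈ V, Ef V μ {a} (fun _ => 1) := by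
  unfold Ef
  rw [Finset.sum_comm]
  refine Finset.sum_congr rfl fun U hU => ?_
  have hUV : U ⊆ V := Finset.mem_powerset.1 hU
  simp only [Finset.singleton_subset_iff, mul_one]
  rw [← Finset.sum_filter, Finset.sum_const, nsmul_eq_mul, mul_comm]
  congr 2
  rw [Finset.filter_mem_eq_inter, Finset.inter_eq_right.2 hUV]

theorem exists_small {V : Finset ℤ} {μ : Finset ℤ → ℝ} {ρ : ℝ} (h : Law V μ 1 ρ 1) :
    ∃ U, μ U ≠ 0 ∧ (U.card : ℝ) ≤ 2 * ρ * V.card := by
  have hm : ∑ U ∈ V.powerset, μ U * (U.card : ℝ) ≤ 2 * ρ * V.card := by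
    rw [mean_card]
    calc ∑ a ∈ V, Ef V μ {a} (fun _ => 1) ≤ ∑ _a ∈ V, 2 * ρ := by
          refine Finset.sum_le_sum fun a ha => ?_
          have := h.inv {a} (Finset.singleton_subset_iff.2 ha) (by simp)
          rw [Finset.card_singleton, pow_one, one_mul] at this
          have := (abs_le.1 this).2
          linarith
      _ = 2 * ρ * V.card := by rw [Finset.sum_const, nsmul_eq_mul]; ring
  by_contra hc
  have hc' : ∀ U, μ U ≠ 0 → 2 * ρ * V.card < (U.card : ℝ) := fun U hU =>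
    lt_of_not_ge fun hle => hc ⟨U, hU, hle⟩
  have hex : ∃ U ∈ V.powerset, μ U ≠ 0 := by
    by_contra hn
    have : ∑ U ∈ V.powerset, μ U = 0 :=
      Finset.sum_eq_zero fun U hU => by
        by_contra h0
        exact hn ⟨U, hU, h0⟩
    rw [h.total] at this
    exact one_ne_zero this
  have hlt : ∑ U ∈ V.powerset, μ U * (2 * ρ * V.card) < ∑ U ∈ V.powerset, μ U * (U.card : ℝ) := by
    refine Finset.sum_lt_sum (fun U _ => ?_) ?_
    · by_cases h0 : μ U = 0
      · simp [h0]
      · exact mul_le_mul_of_nonneg_left (hc' U h0).le (h.nonneg U)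
    · obtain ⟨U, hU, h0⟩ := hex
      exact ⟨U, hU, mul_lt_mul_of_pos_left (hc' U h0) (lt_of_le_of_ne (h.nonneg U) (Ne.symm h0))⟩
  rw [← Finset.sum_mul, h.total, one_mul] at hlt
  linarith

theorem delta_le {J K j r : ℕ} {δ b : ℝ} (hK : 1 ≤ K) (hjr : j + (r + 1) = J)
    (hb : b = 9 + 12 * K * J) (hδ : δ ≤ exp (-(50 * 2 ^ J * K * (J + 1)))) :
    ((1 + 3 * K * r : ℕ) + 3 * K : ℝ) * δ / exp (-(2 * j)) ^ (2 * K) ≤
      exp (b - 2 * b * 2 ^ r) ^ 2 := by
  have hK' : (1 : ℝ) ≤ K := by exact_mod_cast hK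
  have hJ : (j : ℝ) + (r + 1) = J := by exact_mod_cast hjr
  have hj0 : (0 : ℝ) ≤ j := Nat.cast_nonneg _
  have hr0 : (0 : ℝ) ≤ r := Nat.cast_nonneg _
  have hJ0 : (0 : ℝ) ≤ J := Nat.cast_nonneg _
  have h2 : (2 : ℝ) * 2 ^ r ≤ 2 ^ J := by
    rw [← pow_succ']
    exact pow_le_pow_right₀ (by norm_num) (by omega)
  have h1 : (1 : ℝ) ≤ 2 ^ J := one_le_pow₀ (by norm_num)
  have hKJ : (0 : ℝ) ≤ K * J := by positivity
  have hb0 : 0 ≤ b := by rw [hb]; positivity
  set M : ℝ := ((1 + 3 * K * r : ℕ) + 3 * K : ℝ) with hM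
  have hM1 : M ≤ 1 + 3 * (K * J) := by
    rw [hM]
    push_cast
    nlinarith
  have hM0 : 0 ≤ M := by rw [hM]; positivity
  have hMe : M ≤ exp (1 + 3 * (K * J)) := by
    have := Real.add_one_le_exp (1 + 3 * ((K : ℝ) * J))
    linarith
  rw [← Real.exp_nat_mul, ← Real.exp_nat_mul, div_le_iff₀ (Real.exp_pos _), ← Real.exp_add]
  calc M * δ ≤ exp (1 + 3 * (K * J)) * exp (-(50 * 2 ^ J * K * (J + 1))) :=
        (mul_le_mul_of_nonneg_left hδ hM0).trans
          (mul_le_mul_of_nonneg_right hMe (Real.exp_pos _).le)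
    _ = exp (1 + 3 * (K * J) + -(50 * 2 ^ J * K * (J + 1))) := by rw [← Real.exp_add]
    _ ≤ _ := by
        refine Real.exp_le_exp.2 ?_
        push_cast
        have e1 : b * (2 * 2 ^ r) ≤ b * 2 ^ J := mul_le_mul_of_nonneg_left h2 hb0
        have e2 : (K : ℝ) * j ≤ K * J := mul_le_mul_of_nonneg_left (by linarith) (by linarith)
        have e3 : (K : ℝ) * J ≤ K * J * 2 ^ J := le_mul_of_one_le_right hKJ h1
        have e4 : (2 : ℝ) ^ J ≤ K * 2 ^ J := le_mul_of_one_le_left (by linarith) hK'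
        have e5 : b * 2 ^ J = 9 * 2 ^ J + 12 * (K * J * 2 ^ J) := by rw [hb]; ring
        have e6 : (0 : ℝ) ≤ K * J * 2 ^ J := by positivity
        nlinarith

end Nib

open Nib in
theorem stmtNib (hT : StmtThin) (hR : StmtRound) : StmtNib := by
  intro V J K PP ν δ hδ0 hδ hE hD
  set b : ℝ := 9 + 12 * K * J with hb
  have hb0 : 0 ≤ b := by rw [hb]; positivity
  have key : ∀ j r : ℕ, j + r = J → ∃ μ : Finset ℤ → ℝ,
      Law V μ (1 + 3 * K * r) (exp (-(2 * j))) (exp (2 * b - 2 * b * 2 ^ r)) ∧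
      ∀ U, μ U ≠ 0 → ∃ ch : ℕ → ℕ → Finset ℤ,
        (∀ i < j, ∀ p, ch i p = ∅ ∨ ∃ T, ch i p ⊆ T ∧ ν i p T ≠ 0) ∧
        ∀ a ∈ V, (∀ i < j, ∀ p ∈ PP i, a ∉ ch i p) → a ∈ U := by
    intro j
    induction j with
    | zero =>
      intro r _
      refine ⟨fun U => if U = V then 1 else 0, ?_, fun U hU => ⟨fun _ _ => ∅, fun i hi => ?_,
        fun a ha _ => ?_⟩⟩
      · have : exp (-(2 * ((0 : ℕ) : ℝ))) = 1 := by simp
        rw [this]
        exact law_start V _ (Real.exp_pos _).le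
      · omega
      · by_cases h : U = V
        · rw [h]; exact ha
        · simp [h] at hU
    | succ j ih =>
      intro r hjr
      have hjJ : j < J := by omega
      obtain ⟨μ, hμ, hs⟩ := ih (r + 1) (by omega)
      have hρ0 : 0 < exp (-(2 * (j : ℝ))) := Real.exp_pos _
      obtain ⟨ν', hE', hdeg, hsub⟩ := hT V (PP j) (ν j) K δ (4 * exp (-(2 * j))) (hE j hjJ)
        (by positivity) (hD j hjJ)
      have h2r : (1 : ℝ) ≤ 2 ^ r := one_le_pow₀ (by norm_num)
      have hlam1 : exp (b - 2 * b * 2 ^ r) ≤ 1 := by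
        rw [Real.exp_le_one_iff]
        nlinarith
      have hsq : exp (2 * b - 2 * b * 2 ^ (r + 1)) = exp (b - 2 * b * 2 ^ r) ^ 2 := by
        rw [← Real.exp_nat_mul]
        congr 1
        push_cast
        ring
      have hsq1 : exp (b - 2 * b * 2 ^ r) ^ 2 ≤ 1 := pow_le_one₀ (Real.exp_pos _).le hlam1
      have hRd : Rd V (PP j) ν' K δ μ (1 + 3 * K * r) (exp (-(2 * j)))
          (exp (b - 2 * b * 2 ^ r) ^ 2) (exp (b - 2 * b * 2 ^ r) ^ 2) := by
        refine ⟨hE', ?_, hdeg, hρ0, ?_, by positivity, hsq1, hδ0, ?_, hsq1⟩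
        · rw [← hsq, show 1 + 3 * K * r + 3 * K = 1 + 3 * K * (r + 1) by ring]
          exact hμ
        · rw [Real.exp_le_one_iff]
          have : (0 : ℝ) ≤ j := Nat.cast_nonneg _
          linarith
        · exact delta_le hE'.K1 (by omega) hb hδ
      obtain ⟨μ', hμ', hs'⟩ := hR V (PP j) ν' K δ μ _ _ _ _ (exp (b - 2 * b * 2 ^ r)) hRd
        (Real.exp_pos _) hlam1 le_rfl le_rfl
      refine ⟨μ', ?_, fun U' hU' => ?_⟩
      · have e : exp (-(2 * (j : ℝ))) * exp (-2) = exp (-(2 * ((j + 1 : ℕ) : ℝ))) := by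
          rw [← Real.exp_add]
          congr 1
          push_cast
          ring
        rw [e] at hμ'
        refine law_mono hμ' (Real.exp_pos _).le ?_
        rw [← Real.exp_add]
        refine Real.exp_le_exp.2 ?_
        have hrJ : (r : ℝ) ≤ J := by exact_mod_cast (by omega : r ≤ J)
        have : (K : ℝ) * r ≤ K * J := mul_le_mul_of_nonneg_left hrJ (Nat.cast_nonneg _)
        push_cast
        nlinarith
      · obtain ⟨U, hU, ch', hch', rfl⟩ := hs' U' hU'
        obtain ⟨ch, hch, hcov⟩ := hs U hU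
        refine ⟨fun i => if i = j then ch' else ch i, fun i hi p => ?_, fun a ha hn => ?_⟩
        · by_cases hij : i = j
          · subst hij
            simp only [if_true]
            rcases hch' p with h | h
            · exact Or.inl h
            · exact Or.inr (hsub p _ h)
          · simp only [hij, if_false]
            exact hch i (by omega) p
        · refine Finset.mem_sdiff.2 ⟨hcov a ha fun i hi p hp => ?_, fun hm => ?_⟩
          · have := hn i (by omega) p hp
            simpa only [show i ≠ j by omega, if_false] using this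
          · obtain ⟨p, hp, hap⟩ := Finset.mem_biUnion.1 hm
            have := hn j (by omega) p hp
            simp only [if_true] at this
            exact this hap
  obtain ⟨μ, hμ, hs⟩ := key J 0 (by omega)
  have e : exp (2 * b - 2 * b * 2 ^ 0) = 1 := by simp
  rw [e, show 1 + 3 * K * 0 = 1 by ring] at hμ
  obtain ⟨U, hU, hc⟩ := exists_small hμ
  obtain ⟨ch, hch, hcov⟩ := hs U hU
  refine ⟨ch, hch, fun W hW hn => le_trans ?_ hc⟩
  exact_mod_cast Finset.card_le_card fun a ha => hcov a (hW ha) (hn a ha)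

end Vale.Agent.N013L
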