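import Vale.Agent.N013L.Def2

/-! One round of the covering. -/

namespace Vale.Agent.N013L

open Finset Real Filter

namespace RoundB

variable {V : Finset ℤ} {PP : Finset ℕ} {ν : ℕ → Finset ℤ → ℝ} {K : ℕ} {δ : ℝ}
  {μ : Finset ℤ → ℝ} {m : ℕ} {ρ η Δ : ℝ}

/-- weight of the edge `T` of `p` given `U` -/
noncomputable def xx (V : Finset ℤ) (ν : ℕ → Finset ℤ → ℝ) (ρ : ℝ) (p : ℕ) (U T : Finset ℤ) : ℝ :=
  if ZZ V ν ρ p U ≤ 2 then ν p T * wT ρ T U / 2 else 0

/-- law of the set chosen for `p` -/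
noncomputable def xh (V : Finset ℤ) (ν : ℕ → Finset ℤ → ℝ) (ρ : ℝ) (p : ℕ) (U T : Finset ℤ) : ℝ :=
  xx V ν ρ p U T + if T = ∅ then 1 - ∑ T' ∈ V.powerset, xx V ν ρ p U T' else 0

/-- probability that the set chosen for `p` meets `f` -/
noncomputable def XX (V : Finset ℤ) (ν : ℕ → Finset ℤ → ℝ) (ρ : ℝ) (p : ℕ) (f U : Finset ℤ) : ℝ :=
  ∑ T ∈ V.powerset, if Disjoint T f then 0 else xx V ν ρ p U T

/-- extension of a choice -/
def chE (PP : Finset ℕ) (ch : PP → Finset ℤ) (p : ℕ) : Finset ℤ :=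
  if h : p ∈ PP then ch ⟨p, h⟩ else ∅

/-- the law after the round -/
noncomputable def nxt (V : Finset ℤ) (PP : Finset ℕ) (ν : ℕ → Finset ℤ → ℝ) (ρ : ℝ)
    (μ : Finset ℤ → ℝ) (U' : Finset ℤ) : ℝ :=
  ∑ U ∈ V.powerset, ∑ ch ∈ Fintype.piFinset (fun _ : PP => V.powerset),
    if U' = U \ PP.biUnion (chE PP ch) then μ U * ∏ p : PP, xh V ν ρ p U (ch p) else 0

lemma wT_nonneg (h : 0 < ρ) (T U : Finset ℤ) : 0 ≤ wT ρ T U := by
  unfold wT
  split_ifs <;> positivity

lemma xx_nonneg (h : Rd V PP ν K δ μ m ρ η Δ) (p : ℕ) (U T : Finset ℤ) : 0 ≤ xx V ν ρ p U T := by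
  unfold xx
  have := mul_nonneg (h.edges.nonneg p T) (wT_nonneg h.r0 T U)
  split_ifs
  · linarith
  · exact le_rfl

lemma xx_sum (p : ℕ) (U : Finset ℤ) : ∑ T ∈ V.powerset, xx V ν ρ p U T ≤ 1 := by
  unfold xx
  split_ifs with hZ
  · rw [← Finset.sum_div]
    unfold ZZ at hZ
    linarith
  · simp

lemma xh_nonneg (h : Rd V PP ν K δ μ m ρ η Δ) (p : ℕ) (U T : Finset ℤ) : 0 ≤ xh V ν ρ p U T := by
  unfold xh
  have a := xx_nonneg h p U T
  have b := xx_sum (V := V) (ν := ν) (ρ := ρ) p U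
  split_ifs <;> linarith

lemma xh_sum (p : ℕ) (f U : Finset ℤ) :
    ∑ T ∈ V.powerset, (xh V ν ρ p U T * if Disjoint T f then 1 else 0) = 1 - XX V ν ρ p f U := by
  have e : ∀ T, (xh V ν ρ p U T * if Disjoint T f then 1 else 0)
      = xx V ν ρ p U T - (if Disjoint T f then 0 else xx V ν ρ p U T)
        + if T = ∅ then 1 - ∑ T' ∈ V.powerset, xx V ν ρ p U T' else 0 := fun T => by
    unfold xh
    by_cases h0 : T = ∅
    · subst h0; simp
    · by_cases h1 : Disjoint T f <;> simp [h0, h1]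
  simp only [e, Finset.sum_add_distrib, Finset.sum_sub_distrib, Finset.sum_ite_eq',
    Finset.empty_mem_powerset, if_true, XX]
  ring

lemma sub_iff (ch : PP → Finset ℤ) (f U : Finset ℤ) :
    f ⊆ U \ PP.biUnion (chE PP ch) ↔ f ⊆ U ∧ ∀ p : PP, Disjoint (ch p) f := by
  rw [Finset.subset_sdiff, Finset.disjoint_biUnion_right]
  refine and_congr_right fun _ => ⟨fun h p => ?_, fun h p hp => ?_⟩
  · have := h p p.2
    rw [chE, dif_pos p.2] at this
    exact this.symm
  · rw [chE, dif_pos hp]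
    exact (h ⟨p, hp⟩).symm

lemma Ef_nxt (f : Finset ℤ) : Ef V (nxt V PP ν ρ μ) f (fun _ => 1)
    = Ef V μ f (fun U => ∏ p ∈ PP, (1 - XX V ν ρ p f U)) := by
  unfold Ef nxt
  have e1 : ∀ U' : Finset ℤ, (if f ⊆ U' then (∑ U ∈ V.powerset,
      ∑ ch ∈ Fintype.piFinset (fun _ : PP => V.powerset),
        if U' = U \ PP.biUnion (chE PP ch) then μ U * ∏ p : PP, xh V ν ρ p U (ch p) else 0) * 1
        else 0) = ∑ U ∈ V.powerset, ∑ ch ∈ Fintype.piFinset (fun _ : PP => V.powerset),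
        if U' = U \ PP.biUnion (chE PP ch) then
          (if f ⊆ U' then μ U * ∏ p : PP, xh V ν ρ p U (ch p) else 0) else 0 := fun U' => by
    by_cases hf : f ⊆ U' <;> simp [hf]
  simp only [e1]
  rw [Finset.sum_comm]
  refine Finset.sum_congr rfl fun U hU => ?_
  rw [Finset.sum_comm]
  have e2 : ∀ ch : PP → Finset ℤ, (∑ U' ∈ V.powerset, if U' = U \ PP.biUnion (chE PP ch) then
      (if f ⊆ U' then μ U * ∏ p : PP, xh V ν ρ p U (ch p) else 0) else 0)
      = if f ⊆ U then μ U * ∏ p : PP, (xh V ν ρ p U (ch p) * if Disjoint (ch p) f then 1 else 0)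
        else 0 := fun ch => by
    rw [Finset.sum_ite_eq', if_pos (Finset.mem_powerset.2
      (Finset.sdiff_subset.trans (Finset.mem_powerset.1 hU))), Finset.prod_mul_distrib,
      Finset.prod_boole]
    simp only [sub_iff]
    by_cases h1 : f ⊆ U <;> by_cases h2 : ∀ p : PP, Disjoint (ch p) f <;> simp [h1, h2]
  simp only [e2]
  split_ifs
  · rw [← Finset.mul_sum, ← Finset.prod_univ_sum (fun _ : PP => V.powerset)
      (fun (p : PP) T => xh V ν ρ p U T * if Disjoint T f then 1 else 0)]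
    simp only [xh_sum]
    rw [Finset.prod_coe_sort PP (fun p => 1 - XX V ν ρ p f U)]
  · simp

lemma XX_nonneg (h : Rd V PP ν K δ μ m ρ η Δ) (p : ℕ) (f U : Finset ℤ) : 0 ≤ XX V ν ρ p f U :=
  Finset.sum_nonneg fun T _ => by
    split_ifs
    · exact le_rfl
    · exact xx_nonneg h p U T

lemma XX_le (h : Rd V PP ν K δ μ m ρ η Δ) (p : ℕ) {f : Finset ℤ} (hf : f.card ≤ m)
    (U : Finset ℤ) : XX V ν ρ p f U ≤ Δ := by
  have r0 := h.r0
  have hρ : 0 < ρ ^ (2 * K) := by positivity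
  have a1 : ∀ T, (if Disjoint T f then 0 else xx V ν ρ p U T)
      ≤ (∑ a ∈ f, if {a} ⊆ T then ν p T else 0) / ρ ^ (2 * K) := fun T => by
    have n0 := h.edges.nonneg p T
    have s0 : ∀ a ∈ f, 0 ≤ if {a} ⊆ T then ν p T else 0 := fun a _ => by
      split_ifs
      · exact n0
      · exact le_rfl
    split_ifs with hd
    · exact div_nonneg (Finset.sum_nonneg s0) hρ.le
    · obtain ⟨a, haT, haf⟩ := Finset.not_disjoint_iff.1 hd
      have b1 : ν p T ≤ ∑ a ∈ f, if {a} ⊆ T then ν p T else 0 := by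
        have := Finset.single_le_sum s0 haf
        rwa [if_pos (Finset.singleton_subset_iff.2 haT)] at this
      refine le_trans ?_ (div_le_div_of_nonneg_right b1 hρ.le)
      rcases eq_or_ne (ν p T) 0 with h0 | h0
      · unfold xx
        simp [h0]
      · have b2 : wT ρ T U ≤ 1 / ρ ^ (2 * K) := by
          unfold wT
          split_ifs
          · exact one_div_le_one_div_of_le hρ
              (pow_le_pow_of_le_one r0.le h.r1 (by have := (h.edges.supp p T h0).2; omega))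
          · positivity
        have b3 := mul_le_mul_of_nonneg_left b2 n0
        have b4 := mul_nonneg n0 (wT_nonneg r0 T U)
        rw [mul_one_div] at b3
        unfold xx
        split_ifs <;> linarith
  refine (Finset.sum_le_sum fun T _ => a1 T).trans (le_trans ?_ h.hΔ)
  rw [← Finset.sum_div, Finset.sum_comm]
  refine div_le_div_of_nonneg_right ?_ hρ.le
  refine (Finset.sum_le_card_nsmul f _ δ fun a _ => h.edges.vert p a).trans ?_
  rw [nsmul_eq_mul]
  refine mul_le_mul_of_nonneg_right ?_ h.d0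
  have : (f.card : ℝ) ≤ m := by exact_mod_cast hf
  have : (0 : ℝ) ≤ K := K.cast_nonneg
  linarith

lemma prod_exp {ι : Type*} (s : Finset ι) (X : ι → ℝ) (h0 : ∀ i, 0 ≤ X i) (h1 : ∀ i, X i ≤ 1) :
    |∏ i ∈ s, (1 - X i) - exp (-∑ i ∈ s, X i)| ≤ ∑ i ∈ s, X i ^ 2 := by
  classical
  induction s using Finset.induction_on with
  | empty => simp
  | insert a s ha ih =>
    rw [Finset.prod_insert ha, Finset.sum_insert ha, Finset.sum_insert ha, neg_add, exp_add]
    have b1 : |exp (-X a) - 1 - -X a| ≤ (-X a) ^ 2 :=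
      Real.abs_exp_sub_one_sub_id_le (by rw [abs_neg, abs_of_nonneg (h0 a)]; exact h1 a)
    have b2 : exp (-∑ i ∈ s, X i) ≤ 1 :=
      exp_le_one_iff.2 (neg_nonpos.2 (Finset.sum_nonneg fun i _ => h0 i))
    have b3 := exp_pos (-∑ i ∈ s, X i)
    have e : (1 - X a) * ∏ i ∈ s, (1 - X i) - exp (-X a) * exp (-∑ i ∈ s, X i)
        = (1 - X a) * (∏ i ∈ s, (1 - X i) - exp (-∑ i ∈ s, X i))
          - (exp (-X a) - 1 - -X a) * exp (-∑ i ∈ s, X i) := by ring
    rw [e]
    refine (abs_sub _ _).trans ?_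
    rw [abs_mul, abs_mul, abs_of_nonneg (sub_nonneg.2 (h1 a)), abs_of_pos b3]
    have b4 := mul_le_mul (show 1 - X a ≤ 1 by linarith [h0 a]) ih (abs_nonneg _) zero_le_one
    have b5 := mul_le_mul b1 b2 b3.le (sq_nonneg _)
    nlinarith only [b4, b5]

lemma exp_lip {a b : ℝ} (ha : 0 ≤ a) (hb : 0 ≤ b) : |exp (-a) - exp (-b)| ≤ |a - b| := by
  have key : ∀ {a b : ℝ}, 0 ≤ a → a ≤ b → |exp (-a) - exp (-b)| ≤ |a - b| := by
    intro a b ha hab
    have b1 : exp (-b) = exp (-a) * exp (-(b - a)) := by rw [← exp_add]; congr 1; ring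
    have b2 := add_one_le_exp (-(b - a))
    have b3 : exp (-a) ≤ 1 := exp_le_one_iff.2 (by linarith)
    have b4 := exp_pos (-a)
    have b5 : exp (-b) ≤ exp (-a) := exp_le_exp.2 (by linarith)
    rw [abs_of_nonneg (by linarith), abs_of_nonpos (by linarith), b1]
    nlinarith [mul_le_mul_of_nonneg_left b2 b4.le, mul_nonneg (sub_nonneg.2 b3) (sub_nonneg.2 hab)]
  rcases le_total a b with h | h
  · exact key ha h
  · rw [abs_sub_comm, abs_sub_comm a]
    exact key hb h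

/-- the mass lost by the cut -/
noncomputable def RR (V : Finset ℤ) (PP : Finset ℕ) (ν : ℕ → Finset ℤ → ℝ) (ρ : ℝ)
    (f U : Finset ℤ) : ℝ :=
  1 / 2 * ∑ p ∈ PP, if ZZ V ν ρ p U ≤ 2 then 0 else
    ∑ T ∈ V.powerset, if Disjoint T f then 0 else ν p T * wT ρ T U

lemma YY_eq (f U : Finset ℤ) :
    YY V PP ν ρ f U = ∑ p ∈ PP, XX V ν ρ p f U + RR V PP ν ρ f U := by
  unfold YY RR XX xx
  rw [Finset.mul_sum, Finset.mul_sum, ← Finset.sum_add_distrib]
  refine Finset.sum_congr rfl fun p _ => ?_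
  split_ifs
  · rw [mul_zero, add_zero, Finset.mul_sum]
    refine Finset.sum_congr rfl fun T _ => ?_
    split_ifs <;> ring
  · simp

lemma RR_nonneg (h : Rd V PP ν K δ μ m ρ η Δ) (f U : Finset ℤ) : 0 ≤ RR V PP ν ρ f U := by
  refine mul_nonneg (by norm_num) (Finset.sum_nonneg fun p _ => ?_)
  split_ifs
  · exact le_rfl
  · refine Finset.sum_nonneg fun T _ => ?_
    split_ifs
    · exact le_rfl
    · exact mul_nonneg (h.edges.nonneg p T) (wT_nonneg h.r0 T U)

lemma point (h : Rd V PP ν K δ μ m ρ η Δ) {lam : ℝ} (hl : 0 < lam) {f : Finset ℤ}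
    (hf : f.card ≤ m) (U : Finset ℤ) :
    |∏ p ∈ PP, (1 - XX V ν ρ p f U) - exp (-(2 * f.card))| ≤ (2 * f.card * Δ + 2 * lam) * 1
      + 2 / lam * (YY V PP ν ρ f U - 2 * f.card) ^ 2 + 1 * RR V PP ν ρ f U := by
  have x0 := fun p => XX_nonneg h p f U
  have x1 := fun p => XX_le h p hf U
  have d0 : 0 ≤ Δ := (x0 0).trans (x1 0)
  have a1 := prod_exp PP (fun p => XX V ν ρ p f U) x0 fun p => (x1 p).trans h.d1
  set Y := ∑ p ∈ PP, XX V ν ρ p f U with hY
  have Y0 : 0 ≤ Y := Finset.sum_nonneg fun p _ => x0 p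
  have a2 : ∑ p ∈ PP, XX V ν ρ p f U ^ 2 ≤ Δ * Y := by
    rw [hY, Finset.mul_sum]
    exact Finset.sum_le_sum fun p _ => by
      rw [sq]; exact mul_le_mul_of_nonneg_right (x1 p) (x0 p)
  have a3 := exp_lip Y0 (show (0 : ℝ) ≤ 2 * f.card by positivity)
  have a4 := YY_eq (V := V) (PP := PP) (ν := ν) (ρ := ρ) f U
  rw [← hY] at a4
  have a5 := RR_nonneg h f U
  set u := YY V PP ν ρ f U - 2 * f.card with hu
  have a6 : |u| ≤ lam + 1 / lam * u ^ 2 := by
    rw [← sq_abs u, one_div, inv_mul_eq_div, ← sub_le_iff_le_add', le_div_iff₀ hl]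
    nlinarith [sq_nonneg (|u| - lam), abs_nonneg u]
  have a7 : |Y - 2 * f.card| ≤ |u| + RR V PP ν ρ f U := by
    have : Y - 2 * f.card = u - RR V PP ν ρ f U := by rw [hu, a4]; ring
    rw [this]
    exact (abs_sub _ _).trans (by rw [abs_of_nonneg a5])
  have a8 : Δ * Y ≤ Δ * (2 * f.card + |u|) :=
    mul_le_mul_of_nonneg_left (by linarith [le_abs_self u]) d0
  have a9 : Δ * |u| ≤ 1 * |u| := mul_le_mul_of_nonneg_right h.d1 (abs_nonneg u)
  have a10 := abs_sub_le (∏ p ∈ PP, (1 - XX V ν ρ p f U)) (exp (-Y)) (exp (-(2 * f.card)))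
  have e : 2 / lam * u ^ 2 = 2 * (1 / lam * u ^ 2) := by ring
  rw [e]
  linarith only [a1, a2, a3, a6, a7, a8, a9, a10]

lemma Ef_abs (h0 : ∀ U, 0 ≤ μ U) (f : Finset ℤ) {g g1 g2 g3 : Finset ℤ → ℝ} {c a1 a2 a3 : ℝ}
    (hg : ∀ U, |g U - c| ≤ a1 * g1 U + a2 * g2 U + a3 * g3 U) :
    |Ef V μ f g - c * Ef V μ f (fun _ => 1)|
      ≤ a1 * Ef V μ f g1 + a2 * Ef V μ f g2 + a3 * Ef V μ f g3 := by
  unfold Ef
  rw [Finset.mul_sum, Finset.mul_sum, Finset.mul_sum, Finset.mul_sum, ← Finset.sum_sub_distrib,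
    ← Finset.sum_add_distrib, ← Finset.sum_add_distrib]
  refine (Finset.abs_sum_le_sum_abs _ _).trans (Finset.sum_le_sum fun U _ => ?_)
  split_ifs
  · have e : μ U * g U - c * (μ U * 1) = μ U * (g U - c) := by ring
    rw [e, abs_mul, abs_of_nonneg (h0 U)]
    have := mul_le_mul_of_nonneg_left (hg U) (h0 U)
    linarith only [this]
  · simp

end RoundB

open RoundB

theorem stmtRound (h1 : StmtMom1) (h2 : StmtMom2) : StmtRound := by
  intro V PP ν K δ μ m ρ η Δ lam h hl hl1 hη hΔ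
  refine ⟨nxt V PP ν ρ μ, ⟨fun U' => ?_, ?_, fun f hfV hf => ?_⟩, fun U' hU' => ?_⟩
  · refine Finset.sum_nonneg fun U _ => Finset.sum_nonneg fun ch _ => ?_
    split_ifs
    · exact mul_nonneg (h.law.nonneg U) (Finset.prod_nonneg fun p _ => xh_nonneg h p U _)
    · exact le_rfl
  · have a := Ef_nxt (V := V) (PP := PP) (ν := ν) (ρ := ρ) (μ := μ) ∅
    simp only [Ef, XX, Finset.empty_subset, if_true, mul_one, Finset.disjoint_empty_right,
      Finset.sum_const_zero, sub_zero, Finset.prod_const_one] at a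
    rw [a, h.law.total]
  · rw [Ef_nxt]
    have a1 := Ef_abs (V := V) h.law.nonneg f (g1 := fun _ => 1) (point h hl hf)
    have a2 := h1 V PP ν K δ μ m ρ η Δ h f hfV hf
    have a3 : Ef V μ f (RR V PP ν ρ f) ≤ _ := (h2 V PP ν K δ μ m ρ η Δ h).2 f hfV hf
    have a4 := h.law.inv f hfV (by omega)
    have d0 : 0 ≤ Δ := (XX_nonneg h 0 f ∅).trans (XX_le h 0 hf ∅)
    set k : ℝ := (f.card : ℝ) with hk
    have k0 : 0 ≤ k := f.card.cast_nonneg
    have km : k ≤ m := by rw [hk]; exact_mod_cast hf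
    set r := ρ ^ f.card with hr
    have r0 : 0 < r := pow_pos h.r0 _
    have e1 : (ρ * exp (-2)) ^ f.card = exp (-(2 * k)) * r := by
      rw [mul_pow, ← exp_nat_mul, mul_comm]
      congr 2
      ring
    rw [e1]
    set q := exp (-(2 * k)) with hq
    have q0 : 0 < q := exp_pos _
    have q1 : q ≤ 1 := exp_le_one_iff.2 (by linarith)
    set E1 := Ef V μ f (fun _ => 1) with hE1
    have l2 : lam ^ 2 ≤ lam := by nlinarith
    have b1 : E1 ≤ 2 * r := by
      have := mul_le_mul_of_nonneg_right h.e1 r0.le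
      linarith [(abs_le.1 a4).2]
    have b2 : |q * E1 - q * r| ≤ lam * r := by
      rw [← mul_sub, abs_mul, abs_of_pos q0]
      have := mul_le_mul q1 a4 (abs_nonneg _) zero_le_one
      have := mul_le_mul_of_nonneg_right (hη.trans l2) r0.le
      linarith
    have b3 : (2 * k * Δ + 2 * lam) * E1 ≤ (2 * k * lam + 2 * lam) * (2 * r) :=
      (mul_le_mul_of_nonneg_left b1 (by positivity)).trans (mul_le_mul_of_nonneg_right
        (by have := mul_le_mul_of_nonneg_left (hΔ.trans l2) k0; linarith) (by positivity))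
    have b4 : 2 / lam * (16 * k ^ 2 * (η + Δ) * r) ≤ 64 * k ^ 2 * (lam * r) := by
      have c1 : 16 * k ^ 2 * (η + Δ) * r ≤ 16 * k ^ 2 * (2 * lam ^ 2) * r :=
        mul_le_mul_of_nonneg_right (mul_le_mul_of_nonneg_left (by linarith) (by positivity)) r0.le
      refine (mul_le_mul_of_nonneg_left c1 (by positivity)).trans (le_of_eq ?_)
      field_simp
      ring
    have b5 : 18 * k * (η + Δ) * r ≤ 18 * k * (2 * lam) * r :=
      mul_le_mul_of_nonneg_right (mul_le_mul_of_nonneg_left (by linarith) (by positivity)) r0.le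
    have b6 := mul_le_mul_of_nonneg_left a2 (show 0 ≤ 2 / lam by positivity)
    have b7 : 5 + 40 * k + 64 * k ^ 2 ≤ exp (4 * m + 5) * q := by
      rw [hq, ← exp_add]
      have c1 : exp 5 * exp (2 * k) ≤ exp (4 * m + 5 + -(2 * k)) := by
        rw [← exp_add]
        exact exp_le_exp.2 (by linarith)
      have c2 : (32 : ℝ) ≤ exp 5 := by
        have c3 : exp 5 = exp 1 ^ 5 := by rw [← exp_nat_mul]; norm_num
        rw [c3]
        calc (32 : ℝ) = 2 ^ 5 := by norm_num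
          _ ≤ exp 1 ^ 5 := pow_le_pow_left₀ (by norm_num) (by linarith [add_one_le_exp (1 : ℝ)]) 5
      have c4 := quadratic_le_exp_of_nonneg (show 0 ≤ 2 * k by positivity)
      have c5 := mul_le_mul c2 c4 (by positivity) (exp_pos _).le
      nlinarith only [c1, c5, k0]
    have b8 := mul_le_mul_of_nonneg_right b7 (mul_pos hl r0).le
    have b9 := abs_sub_le (Ef V μ f fun U => ∏ p ∈ PP, (1 - XX V ν ρ p f U)) (q * E1) (q * r)
    nlinarith only [a1, a3, b2, b3, b4, b5, b6, b8, b9]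
  · obtain ⟨U, _, hU⟩ := Finset.exists_ne_zero_of_sum_ne_zero hU'
    obtain ⟨ch, _, hch⟩ := Finset.exists_ne_zero_of_sum_ne_zero hU
    by_cases e : U' = U \ PP.biUnion (chE PP ch)
    · rw [if_pos e] at hch
      refine ⟨U, left_ne_zero_of_mul hch, chE PP ch, fun p => ?_, e⟩
      unfold chE
      split_ifs with hp
      · have a := Finset.prod_ne_zero_iff.1 (right_ne_zero_of_mul hch) ⟨p, hp⟩ (Finset.mem_univ _)
        by_cases h0 : ch ⟨p, hp⟩ = ∅
        · exact Or.inl h0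
        · refine Or.inr fun h3 => a ?_
          simp [xh, xx, h0, h3]
      · exact Or.inl rfl
    · rw [if_neg e] at hch
      exact absurd rfl hch

end Vale.Agent.N013L
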