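import Vale.Agent.N013L.Def2

/-! Block Thin: thinning the edges to exact degrees. -/

namespace Vale.Agent.N013L

open Finset Real

theorem thin_sum (lam : ℤ → ℝ) (T f : Finset ℤ) (hf : f ⊆ T) :
    ∑ T' ∈ T.powerset, (if f ⊆ T' then (∏ a ∈ T', lam a) * ∏ a ∈ T \ T', (1 - lam a) else 0) =
      ∏ a ∈ f, lam a := by
  have h := prod_add lam (fun a => if a ∈ f then 0 else 1 - lam a) T
  have e1 : ∏ a ∈ T, (lam a + if a ∈ f then 0 else 1 - lam a) = ∏ a ∈ f, lam a := by
    rw [← prod_subset hf (fun a _ ha => by simp [ha])]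
    exact prod_congr rfl fun a ha => by simp [ha]
  rw [← e1, h]
  refine sum_congr rfl fun T' hT' => ?_
  split_ifs with h1
  · congr 1
    refine prod_congr rfl fun a ha => ?_
    rw [if_neg fun h2 => (mem_sdiff.1 ha).2 (h1 h2)]
  · obtain ⟨a, ha, ha'⟩ := not_subset.1 h1
    rw [prod_eq_zero (f := fun i => if i ∈ f then 0 else 1 - lam i) (i := a)
      (mem_sdiff.2 ⟨hf ha, ha'⟩) (if_pos ha), mul_zero]

theorem stmtThin : StmtThin := by
  intro V PP ν K δ g E g0 hg
  let lam : ℤ → ℝ := fun a => if a ∈ V then g / ∑ p ∈ PP, dg V ν p {a} else 1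
  have l0 : ∀ a, 0 ≤ lam a := fun a => by
    simp only [lam]
    split_ifs with h
    · exact div_nonneg g0.le (g0.le.trans (hg a h))
    · exact zero_le_one
  have l1 : ∀ a, lam a ≤ 1 := fun a => by
    simp only [lam]
    split_ifs with h
    · exact div_le_one_of_le₀ (hg a h) (g0.le.trans (hg a h))
    · exact le_rfl
  let ν' : ℕ → Finset ℤ → ℝ := fun p T' => ∑ T ∈ V.powerset,
    if T' ⊆ T then ν p T * ((∏ a ∈ T', lam a) * ∏ a ∈ T \ T', (1 - lam a)) else 0
  have key : ∀ p f, dg V ν' p f = (∏ a ∈ f, lam a) * dg V ν p f := by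
    intro p f
    have e1 : dg V ν' p f = ∑ T' ∈ V.powerset, ∑ T ∈ V.powerset, if T' ⊆ T then ν p T *
        (if f ⊆ T' then (∏ a ∈ T', lam a) * ∏ a ∈ T \ T', (1 - lam a) else 0) else 0 := by
      refine sum_congr rfl fun T' _ => ?_
      by_cases h : f ⊆ T' <;> simp [h, ν']
    rw [e1, sum_comm]
    unfold dg
    rw [mul_sum]
    refine sum_congr rfl fun T hT => ?_
    rw [← sum_filter]
    have e2 : V.powerset.filter (fun T' => T' ⊆ T) = T.powerset := by
      ext T'
      simp only [mem_filter, mem_powerset]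
      exact ⟨fun h => h.2, fun h => ⟨h.trans (mem_powerset.1 hT), h⟩⟩
    rw [e2, ← mul_sum]
    split_ifs with h
    · rw [thin_sum lam T f h, mul_comm]
    · rw [sum_eq_zero fun T' hT' => if_neg fun h2 => h (h2.trans (mem_powerset.1 hT')), mul_zero,
        mul_zero]
  have dg0 : ∀ p f, 0 ≤ dg V ν p f := fun p f => sum_nonneg fun T _ => by
    split_ifs
    · exact E.nonneg _ _
    · exact le_rfl
  have le : ∀ p f, dg V ν' p f ≤ dg V ν p f := fun p f => by
    rw [key]
    exact mul_le_of_le_one_left (dg0 p f) (prod_le_one (fun a _ => l0 a) fun a _ => l1 a)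
  have sup : ∀ p T', ν' p T' ≠ 0 → ∃ T, T' ⊆ T ∧ ν p T ≠ 0 := by
    intro p T' h
    obtain ⟨T, _, hT⟩ := exists_ne_zero_of_sum_ne_zero h
    split_ifs at hT with h1
    · exact ⟨T, h1, left_ne_zero_of_mul hT⟩
    · exact absurd rfl hT
  refine ⟨ν', ⟨E.K1, fun p T' => sum_nonneg fun T _ => ?_, fun p T' h => ?_, fun p => ?_,
    fun p a => (le p _).trans (E.vert p a),
    fun a b h => (sum_le_sum fun p _ => le p _).trans (E.codeg a b h)⟩, fun a ha => ?_, sup⟩
  · split_ifs
    · exact mul_nonneg (E.nonneg _ _) (mul_nonneg (prod_nonneg fun a _ => l0 a)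
        (prod_nonneg fun a _ => sub_nonneg.2 (l1 a)))
    · exact le_rfl
  · obtain ⟨T, h1, h2⟩ := sup p T' h
    exact ⟨h1.trans (E.supp p T h2).1, (card_le_card h1).trans (E.supp p T h2).2⟩
  · have := le p ∅
    simp only [dg, empty_subset, if_true] at this
    exact this.trans (E.mass p)
  · simp only [key, prod_singleton]
    rw [← mul_sum]
    simp only [lam, if_pos ha]
    exact div_mul_cancel₀ _ (g0.trans_le (hg a ha)).ne'

end Vale.Agent.N013L
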