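import Vale.Agent.N013L.Main
import Vale.Agent.N013L.Thin
import Vale.Agent.N013L.Mom1
import Vale.Agent.N013L.Mom2
import Vale.Agent.N013L.Round
import Vale.Agent.N013L.Nib
import Vale.Agent.N013L.A2
import Vale.Agent.N013L.H12b
import Vale.Agent.N013L.C2
import Vale.Agent.N013L.G
import Vale.Agent.N013L.DSb
import Vale.Agent.N013L.F1b
import Vale.Agent.N013L.F2b
import Vale.Agent.N013L.F0b
import Vale.Agent.N013L.Kb

/-! Assembly of the blocks of the second stage. -/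

namespace Vale.Agent.N013L

theorem cover3' : Cover3 :=
  have hB : StmtB2 := stmtB2 stmtB1
  have hS : StmtS := stmtS stmtB1
  have hC : StmtC := stmtC stmtA stmtB1 (stmtH1 stmtB1 hB) (stmtH2 stmtB1 hB)
  have hC2 : StmtC2 := stmtC2 stmtA2 stmtB1 (stmtH1b stmtB1 hB) (stmtH2b stmtB1 hB)
  have hG : StmtG := stmtG (stmtNib stmtThin (stmtRound stmtMom1 stmtMom2))
  have hM : May := may stmtEP pt (stmtU stmtT stmtQ stmtEI stmtL1 stmtL2)
    (stmtLw stmtT stmtQ stmtL1 stmtL2) stmtL2 (stmtN1 stmtN0) (stmtN2 stmtN0) stmtV stmtCh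
  cover3 (cover2 stmtB1 hS stmtDb stmtCh (stmtF1b stmtB1 hC hS (stmtSb stmtB1) stmtCh)
    (stmtF2b stmtB1 hC2 hG hS (stmtSb stmtB1) stmtCh hM))

end Vale.Agent.N013L
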