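import Vale.Agent.N013L.Def

/-! Block N0: sums over configurations against products of sums over sets. -/

namespace Vale.Agent.N013L

open Finset Real

namespace N0

variable {RR : Finset ℕ} {K : ℕ}

lemma rad_eq (τ : Cf RR K) : rad τ = ∏ i, rr (fib τ i) := by
  unfold rad rr fib
  simp_rw [Finset.prod_filter]
  rw [Finset.prod_comm]
  refine Finset.prod_congr rfl fun ℓ _ => ?_
  cases h : τ ℓ with
  | none => simp
  | some j =>
    simp only [reduceCtorEq, if_false, Option.some.injEq]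
    rw [Finset.prod_ite_eq]
    simp

lemma fib_inj : Function.Injective (fun (τ : Cf RR K) (i : Fin K) => fib τ i) := by
  intro τ τ' h
  funext ℓ
  have h1 : ∀ i, τ ℓ = some i ↔ τ' ℓ = some i := by
    intro i
    have h2 : fib τ i = fib τ' i := congrFun h i
    have h3 : ℓ ∈ fib τ i ↔ ℓ ∈ fib τ' i := by rw [h2]
    simpa [fib] using h3
  cases h2 : τ ℓ with
  | none =>
    cases h3 : τ' ℓ with
    | none => rfl
    | some j =>
      have := (h1 j).2 h3
      rw [h2] at this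
      exact absurd this (by simp)
  | some j => exact ((h1 j).1 h2).symm

lemma exists_fib (T : Fin K → Finset RR)
    (h : ∀ i j ℓ, ℓ ∈ T i → ℓ ∈ T j → i = j) : ∃ τ : Cf RR K, (fun i => fib τ i) = T := by
  classical
  refine ⟨fun ℓ => if h : ∃ i, ℓ ∈ T i then some h.choose else none, ?_⟩
  funext i
  ext ℓ
  simp only [fib, Finset.mem_filter, Finset.mem_univ, true_and]
  by_cases h1 : ∃ i, ℓ ∈ T i
  · rw [dif_pos h1]
    constructor
    · intro h2
      have h3 : h1.choose = i := by simpa using h2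
      rw [← h3]
      exact h1.choose_spec
    · intro h2
      rw [h _ _ ℓ h1.choose_spec h2]
  · rw [dif_neg h1]
    constructor
    · intro h2
      exact absurd h2 (by simp)
    · intro h2
      exact absurd ⟨i, h2⟩ h1

lemma rr_pos (hR : ∀ ℓ ∈ RR, 0 < ℓ) (S : Finset RR) : 0 < rr S :=
  Finset.prod_pos fun ℓ _ => by exact_mod_cast hR ℓ ℓ.2

lemma rad_pos (hR : ∀ ℓ ∈ RR, 0 < ℓ) (τ : Cf RR K) : 0 < rad τ := by
  rw [rad_eq]
  exact Finset.prod_pos fun i _ => rr_pos hR _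

lemma prod_sum_eq (g : Fin K → Finset RR → ℝ) :
    ∏ i, ∑ S, g i S = ∑ T : Fin K → Finset RR, ∏ i, g i (T i) := by
  rw [Finset.prod_univ_sum, Fintype.piFinset_univ]

lemma sum_cf_eq (f : Fin K → Finset RR → ℝ) :
    ∑ τ : Cf RR K, (∏ i, f i (fib τ i)) / rad τ =
      ∑ T ∈ univ.image (fun (τ : Cf RR K) (i : Fin K) => fib τ i), ∏ i, f i (T i) / rr (T i) := by
  rw [Finset.sum_image fun τ _ τ' _ h => fib_inj h]
  refine Finset.sum_congr rfl fun τ _ => ?_
  rw [rad_eq, Finset.prod_div_distrib]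

/-- the sets through a fixed prime carry a proportion at most `1/ℓ` -/
lemma sum_mem_le (hR : ∀ ℓ ∈ RR, 0 < ℓ) (g : Finset RR → ℝ) (h0 : ∀ S, 0 ≤ g S) (ha : Antitone g)
    (ℓ : RR) : ∑ S, (if ℓ ∈ S then g S / rr S else 0) ≤ 1 / ((ℓ : ℕ) : ℝ) * ∑ S, g S / rr S := by
  have hl : (0 : ℝ) < ((ℓ : ℕ) : ℝ) := by exact_mod_cast hR ℓ ℓ.2
  rw [← Finset.sum_filter]
  calc ∑ S ∈ univ.filter (fun S : Finset RR => ℓ ∈ S), g S / rr S
      ≤ ∑ S ∈ univ.filter (fun S : Finset RR => ℓ ∈ S),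
          1 / ((ℓ : ℕ) : ℝ) * (g (S.erase ℓ) / rr (S.erase ℓ)) := by
        refine Finset.sum_le_sum fun S hS => ?_
        have hm : ℓ ∈ S := (Finset.mem_filter.1 hS).2
        have h1 : rr S = ((ℓ : ℕ) : ℝ) * rr (S.erase ℓ) := by
          unfold rr
          rw [Finset.mul_prod_erase S (fun m : RR => ((m : ℕ) : ℝ)) hm]
        have h2 : g S ≤ g (S.erase ℓ) := ha (Finset.erase_subset _ _)
        have h3 := rr_pos hR (S.erase ℓ)
        rw [h1, div_mul_div_comm, one_mul]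
        exact div_le_div_of_nonneg_right h2 (by positivity)
    _ = 1 / ((ℓ : ℕ) : ℝ) * ∑ S ∈ (univ.filter (fun S : Finset RR => ℓ ∈ S)).image
          (fun S => S.erase ℓ), g S / rr S := by
        rw [Finset.sum_image, Finset.mul_sum]
        intro S hS S' hS' h
        have hm : ℓ ∈ S := (Finset.mem_filter.1 hS).2
        have hm' : ℓ ∈ S' := (Finset.mem_filter.1 hS').2
        have h' : S.erase ℓ = S'.erase ℓ := h
        rw [← Finset.insert_erase hm, ← Finset.insert_erase hm', h']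
    _ ≤ 1 / ((ℓ : ℕ) : ℝ) * ∑ S, g S / rr S := by
        refine mul_le_mul_of_nonneg_left ?_ (by positivity)
        exact Finset.sum_le_sum_of_subset_of_nonneg (Finset.subset_univ _)
          fun S _ _ => div_nonneg (h0 S) (rr_pos hR S).le

lemma sum_inv_sq_le {w : ℕ} (hw : 2 ≤ w) (hR : ∀ ℓ ∈ RR, w ≤ ℓ) :
    ∑ ℓ : RR, (1 / ((ℓ : ℕ) : ℝ)) ^ 2 ≤ 2 / (w : ℝ) := by
  rw [Finset.sum_coe_sort RR (fun ℓ : ℕ => (1 / (ℓ : ℝ)) ^ 2)]
  have h1 := sum_Ioo_inv_sq_le (α := ℝ) (w - 1) (RR.sup id + 1)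
  have h2 : ((w - 1 : ℕ) : ℝ) + 1 = w := by
    rw [Nat.cast_sub (by omega)]
    simp
  rw [h2] at h1
  refine le_trans ?_ h1
  simp_rw [one_div, inv_pow]
  refine Finset.sum_le_sum_of_subset_of_nonneg ?_ fun i _ _ => by positivity
  intro ℓ hℓ
  have h3 := hR ℓ hℓ
  have h4 : ℓ ≤ RR.sup id := Finset.le_sup (f := id) hℓ
  rw [Finset.mem_Ioo]
  omega

/-- tuples with a fixed prime in two fixed coordinates -/
lemma sum_pair_le (hR : ∀ ℓ ∈ RR, 0 < ℓ) (f : Fin K → Finset RR → ℝ) (h0 : ∀ i S, 0 ≤ f i S)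
    (ha : ∀ i, Antitone (f i)) (i j : Fin K) (hij : i ≠ j) (ℓ : RR) :
    ∑ T : Fin K → Finset RR, (if ℓ ∈ T i ∧ ℓ ∈ T j then ∏ k, f k (T k) / rr (T k) else 0) ≤
      (1 / ((ℓ : ℕ) : ℝ)) ^ 2 * ∏ k, ∑ S, f k S / rr S := by
  have e1 : ∀ T : Fin K → Finset RR,
      (if ℓ ∈ T i ∧ ℓ ∈ T j then ∏ k, f k (T k) / rr (T k) else 0) =
        ∏ k, (if k = i ∨ k = j then (if ℓ ∈ T k then f k (T k) / rr (T k) else 0)
          else f k (T k) / rr (T k)) := by
    intro T
    by_cases h : ℓ ∈ T i ∧ ℓ ∈ T j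
    · rw [if_pos h]
      refine Finset.prod_congr rfl fun k _ => ?_
      by_cases hk : k = i ∨ k = j
      · rw [if_pos hk, if_pos]
        rcases hk with rfl | rfl
        · exact h.1
        · exact h.2
      · rw [if_neg hk]
    · rw [if_neg h]
      symm
      by_cases h1 : ℓ ∈ T i
      · have h2 : ℓ ∉ T j := fun h2 => h ⟨h1, h2⟩
        exact Finset.prod_eq_zero (Finset.mem_univ j) (by simp [h2])
      · exact Finset.prod_eq_zero (Finset.mem_univ i) (by simp [h1])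
  simp_rw [e1]
  rw [← prod_sum_eq (fun k S => if k = i ∨ k = j then (if ℓ ∈ S then f k S / rr S else 0)
    else f k S / rr S)]
  have e2 : (1 / ((ℓ : ℕ) : ℝ)) ^ 2 =
      ∏ k : Fin K, (if k = i ∨ k = j then 1 / ((ℓ : ℕ) : ℝ) else 1) := by
    rw [← Finset.prod_filter, Finset.prod_const]
    congr 1
    have : univ.filter (fun k : Fin K => k = i ∨ k = j) = {i, j} := by
      ext k
      simp
    rw [this, Finset.card_pair hij]
  rw [e2, ← Finset.prod_mul_distrib]
  refine Finset.prod_le_prod (fun k _ => Finset.sum_nonneg fun S _ => ?_) fun k _ => ?_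
  · have := div_nonneg (h0 k S) (rr_pos hR S).le
    split_ifs
    · exact this
    · exact le_rfl
    · exact this
  · by_cases hk : k = i ∨ k = j
    · simp only [if_pos hk]
      exact sum_mem_le hR (f k) (h0 k) (ha k) ℓ
    · simp only [if_neg hk, one_mul]
      exact le_rfl

end N0

open N0 in
theorem stmtN0 : StmtN0 := by
  intro RR K w f hw hR h0
  have hp : ∀ ℓ ∈ RR, 0 < ℓ := fun ℓ h => by have := hR ℓ h; omega
  have hF : ∀ T : Fin K → Finset RR, 0 ≤ ∏ i, f i (T i) / rr (T i) := fun T =>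
    Finset.prod_nonneg fun i _ => div_nonneg (h0 i _) (rr_pos hp _).le
  constructor
  · rw [sum_cf_eq, prod_sum_eq (fun i S => f i S / rr S)]
    exact Finset.sum_le_sum_of_subset_of_nonneg (Finset.subset_univ _) fun T _ _ => hF T
  · intro ha
    set P : ℝ := ∏ i, ∑ S, f i S / rr S with hP
    have hP0 : 0 ≤ P := Finset.prod_nonneg fun i _ => Finset.sum_nonneg fun S _ =>
      div_nonneg (h0 i _) (rr_pos hp _).le
    set A := univ.image (fun (τ : Cf RR K) (i : Fin K) => fib τ i) with hA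
    have h1 : P = ∑ T ∈ A, ∏ i, f i (T i) / rr (T i) + ∑ T ∈ Aᶜ, ∏ i, f i (T i) / rr (T i) := by
      rw [Finset.sum_add_sum_compl, hP, prod_sum_eq (fun i S => f i S / rr S)]
    have h2 : ∑ T ∈ Aᶜ, ∏ i, f i (T i) / rr (T i) ≤
        ∑ T : Fin K → Finset RR, ∑ c ∈ (univ : Finset (Fin K)).offDiag ×ˢ (univ : Finset RR),
          (if c.2 ∈ T c.1.1 ∧ c.2 ∈ T c.1.2 then ∏ k, f k (T k) / rr (T k) else 0) := by
      have hn : ∀ (T : Fin K → Finset RR) (c : (Fin K × Fin K) × RR),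
          0 ≤ (if c.2 ∈ T c.1.1 ∧ c.2 ∈ T c.1.2 then ∏ k, f k (T k) / rr (T k) else 0) := by
        intro T c
        split_ifs
        · exact hF T
        · exact le_rfl
      refine le_trans (Finset.sum_le_sum fun T hT => ?_)
        (Finset.sum_le_sum_of_subset_of_nonneg (Finset.subset_univ Aᶜ)
          fun T _ _ => Finset.sum_nonneg fun c _ => hn T c)
      have hT' : ¬ ∀ i j ℓ, ℓ ∈ T i → ℓ ∈ T j → i = j := by
        intro h
        obtain ⟨τ, hτ⟩ := exists_fib T h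
        exact (Finset.mem_compl.1 hT) (Finset.mem_image.2 ⟨τ, Finset.mem_univ _, hτ⟩)
      push Not at hT'
      obtain ⟨i, j, ℓ, hi, hj, hij⟩ := hT'
      have hm : ((i, j), ℓ) ∈ (univ : Finset (Fin K)).offDiag ×ˢ (univ : Finset RR) := by
        simp [hij]
      refine le_trans ?_ (Finset.single_le_sum (fun c _ => hn T c) hm)
      rw [if_pos ⟨hi, hj⟩]
    have h3 : ∑ T : Fin K → Finset RR,
        ∑ c ∈ (univ : Finset (Fin K)).offDiag ×ˢ (univ : Finset RR),
          (if c.2 ∈ T c.1.1 ∧ c.2 ∈ T c.1.2 then ∏ k, f k (T k) / rr (T k) else 0) ≤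
        (K : ℝ) ^ 2 * (2 / (w : ℝ) * P) := by
      rw [Finset.sum_comm, Finset.sum_product]
      have h4 : ∀ c ∈ (univ : Finset (Fin K)).offDiag, ∑ ℓ : RR, ∑ T : Fin K → Finset RR,
          (if ℓ ∈ T c.1 ∧ ℓ ∈ T c.2 then ∏ k, f k (T k) / rr (T k) else 0) ≤
          2 / (w : ℝ) * P := by
        intro c hc
        have hij : c.1 ≠ c.2 := (Finset.mem_offDiag.1 hc).2.2
        refine le_trans (Finset.sum_le_sum fun ℓ _ => sum_pair_le hp f h0 ha c.1 c.2 hij ℓ) ?_
        rw [← Finset.sum_mul]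
        exact mul_le_mul_of_nonneg_right (sum_inv_sq_le hw hR) hP0
      refine le_trans (Finset.sum_le_card_nsmul _ _ _ h4) ?_
      rw [nsmul_eq_mul]
      refine mul_le_mul_of_nonneg_right ?_ (by positivity)
      have h5 : (univ : Finset (Fin K)).offDiag.card ≤ K ^ 2 := by
        rw [Finset.offDiag_card, Finset.card_univ, Fintype.card_fin, sq]
        exact Nat.sub_le _ _
      exact_mod_cast h5
    rw [sum_cf_eq, ← hA]
    have h6 : (1 - 2 * (K : ℝ) ^ 2 / w) * P = P - (K : ℝ) ^ 2 * (2 / (w : ℝ) * P) := by ring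
    rw [h6]
    linarith

open N0 in
theorem stmtN1 (h : StmtN0) : StmtN1 := by
  intro RR K w G R hw hK hR hG hR1
  have hp : ∀ ℓ ∈ RR, 0 < ℓ := fun ℓ h => by have := hR ℓ h; omega
  constructor
  · have h1 := (h RR K w (fun _ S => G S ^ 2) hw hR fun _ S => sq_nonneg _).1
    rw [Finset.prod_const, Finset.card_univ, Fintype.card_fin] at h1
    refine le_trans (Finset.sum_le_sum fun σ _ => ?_) h1
    refine div_le_div_of_nonneg_right ?_ (rad_pos hp σ).le
    unfold cG
    split_ifs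
    · rw [Finset.prod_pow]
    · rw [Finset.prod_pow]
      simpa using sq_nonneg _
  · have h1 : ∀ σ : Cf RR K, |cG K G R σ| ≤ 2 ^ K * R ^ 2 * (1 / rad σ) ^ 2 := by
      intro σ
      have hr := rad_pos hp σ
      unfold cG
      split_ifs with h2
      · rw [abs_of_nonneg (Finset.prod_nonneg fun i _ => (hG _).1)]
        have h3 : ∏ i, G (fib σ i) ≤ 2 ^ K := by
          refine le_trans (Finset.prod_le_prod (g := fun _ => (2 : ℝ)) (fun i _ => (hG _).1)
            fun i _ => (hG _).2) ?_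
          rw [Finset.prod_const, Finset.card_univ, Fintype.card_fin]
        have h4 : 1 ≤ R ^ 2 * (1 / rad σ) ^ 2 := by
          rw [← mul_pow, mul_one_div]
          exact one_le_pow₀ ((one_le_div hr).2 h2)
        refine le_trans h3 ?_
        rw [mul_assoc]
        exact le_mul_of_one_le_right (by positivity) h4
      · rw [abs_zero]
        positivity
    have h2 : ∑ σ : Cf RR K, (1 / rad σ) ^ 2 = ∏ ℓ : RR, (1 + K * (1 / ((ℓ : ℕ) : ℝ)) ^ 2) := by
      have h3 : ∀ ℓ : RR, (1 + K * (1 / ((ℓ : ℕ) : ℝ)) ^ 2) =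
          ∑ o : Option (Fin K), (1 / if o = none then 1 else ((ℓ : ℕ) : ℝ)) ^ 2 := by
        intro ℓ
        rw [Fintype.sum_option]
        simp
      simp_rw [h3]
      rw [Finset.prod_univ_sum, Fintype.piFinset_univ]
      refine Finset.sum_congr rfl fun σ _ => ?_
      rw [Finset.prod_pow, Finset.prod_div_distrib, Finset.prod_const_one]
      rfl
    have h3 : ∏ ℓ : RR, (1 + K * (1 / ((ℓ : ℕ) : ℝ)) ^ 2) ≤ 3 := by
      calc ∏ ℓ : RR, (1 + K * (1 / ((ℓ : ℕ) : ℝ)) ^ 2)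
          ≤ ∏ ℓ : RR, exp (K * (1 / ((ℓ : ℕ) : ℝ)) ^ 2) :=
            Finset.prod_le_prod (fun ℓ _ => by positivity) fun ℓ _ => by
              rw [add_comm]
              exact add_one_le_exp _
        _ = exp (K * ∑ ℓ : RR, (1 / ((ℓ : ℕ) : ℝ)) ^ 2) := by
            rw [Finset.mul_sum, Real.exp_sum]
        _ ≤ exp 1 := by
            refine exp_le_exp.2 ?_
            have h4 := sum_inv_sq_le hw hR
            have hw0 : (0 : ℝ) < w := by exact_mod_cast (by omega : 0 < w)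
            have h5 : (2 : ℝ) * K ≤ w := by exact_mod_cast hK
            refine le_trans (mul_le_mul_of_nonneg_left h4 (Nat.cast_nonneg K)) ?_
            rw [← mul_div_assoc, div_le_one hw0]
            linarith
        _ ≤ 3 := le_trans Real.exp_one_lt_d9.le (by norm_num)
    refine le_trans (Finset.sum_le_sum fun σ _ => h1 σ) ?_
    rw [← Finset.mul_sum, h2]
    calc (2 : ℝ) ^ K * R ^ 2 * ∏ ℓ : RR, (1 + K * (1 / ((ℓ : ℕ) : ℝ)) ^ 2)
        ≤ 2 ^ K * R ^ 2 * 3 := mul_le_mul_of_nonneg_left h3 (by positivity)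
      _ = 2 ^ K * 3 * R ^ 2 := by ring

end Vale.Agent.N013L
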