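import Vale.Agent.N013.Defs

/-! `j (P k)` is at most `h k`. -/

namespace Vale.Agent.N013L

open Vale.Agent.N013 Finset
open scoped ArithmeticFunction.omega

theorem prim_pos (k : ℕ) : 1 ≤ P k := prod_pos fun i _ => (Nat.prime_nth_prime i).pos

theorem omega_prim (k : ℕ) : ω (P k) = k := by
  have inj : Function.Injective (Nat.nth Nat.Prime) :=
    Nat.nth_injective Nat.infinite_setOfPred_prime
  rw [ArithmeticFunction.cardDistinctFactors_apply, ← List.card_toFinset, Nat.toFinset_factors, P,
    ← prod_image (g := Nat.nth Nat.Prime) (f := fun p => p) inj.injOn,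
    Nat.primeFactors_prod (by
      intro p hp
      obtain ⟨i, -, rfl⟩ := mem_image.1 hp
      exact Nat.prime_nth_prime i), card_image_of_injective _ inj, card_range]

theorem j_prim_le (k : ℕ) : j (P k) ≤ h k :=
  le_iSup₂ (f := fun n (_ : 1 ≤ n ∧ ω n ≤ k) => j n) (P k) ⟨prim_pos k, (omega_prim k).le⟩

end Vale.Agent.N013L
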